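import Mathlib
import Vale.Agent.P257.X.Abs
import Vale.Agent.P257.Q.PDefs

/-! The cobar complexes of `P = F_p[t_1, t_2, ...]` and of its sub Hopf algebras with coefficients
in the left coideals `F_p[t_n ^ (p ^ I n)]`.  Block `0` holds the coefficients, block `i + 1` is on
the left of block `i`. -/

namespace Vale.Agent.P257.B

open MvPolynomial Finset Vale.Agent.P257.Q.PC Vale.Agent.P257.X

/-- The threshold of block `i`. -/
def J (I : ℕ → ℕ) (i n : ℕ) : ℕ := if i = 0 then I n else 0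

/-- The thresholds define a left coideal. -/
def Ok (I : ℕ → ℕ) : Prop := ∀ a b, I a ≤ I (a + b) + b

/-- The coproduct (`i > 0`) or coaction (`i = 0`) of `t_n` of block `i`. -/
noncomputable def cop (p : ℕ) (I : ℕ → ℕ) (i n : ℕ) : KP p :=
  ∑ k ∈ range (n + 1), tt p (i + 1) k ^ p ^ J I i n *
    tt p i (n - k) ^ p ^ (k + J I i n - J I i (n - k))

/-- The faces. -/
noncomputable def ph (p : ℕ) (I : ℕ → ℕ) (i : ℕ) : KP p →ₐ[ZMod p] KP p :=
  aeval fun x => if x.1 < i then X x else if x.1 = i then cop p I i (x.2 + 1)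
    else X (x.1 + 1, x.2)

variable {p : ℕ} {I : ℕ → ℕ}

@[simp] theorem tt_zero (j : ℕ) : tt p j 0 = 1 := by simp [tt]

@[simp] theorem tt_succ (j n : ℕ) : tt p j (n + 1) = X (j, n) := by simp [tt]

@[simp] theorem cop_zero (i : ℕ) : cop p I i 0 = 1 := by simp [cop]

theorem ph_tt_lt {i j : ℕ} (h : j < i) (n : ℕ) : ph p I i (tt p j n) = tt p j n := by
  cases n with
  | zero => simp
  | succ n => simp [ph, h]

theorem ph_tt_eq (i n : ℕ) : ph p I i (tt p i n) = cop p I i n := by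
  cases n with
  | zero => simp
  | succ n => simp [ph]

theorem ph_tt_gt {i j : ℕ} (h : i < j) (n : ℕ) : ph p I i (tt p j n) = tt p (j + 1) n := by
  cases n with
  | zero => simp
  | succ n => simp [ph, h.not_gt, h.ne']

theorem J_succ (i n : ℕ) : J I (i + 1) n = 0 := by simp [J]

theorem J_ok (hI : Ok I) (i a b : ℕ) : J I i a ≤ J I i (a + b) + b := by
  unfold J
  split_ifs
  · exact hI a b
  · omega

theorem ph_cop_lt {i j : ℕ} (h : i < j) (n : ℕ) : ph p I i (cop p I j n) = cop p I (j + 1) n := by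
  obtain ⟨j, rfl⟩ : ∃ j', j = j' + 1 := ⟨j - 1, by omega⟩
  unfold cop
  rw [map_sum]
  refine sum_congr rfl fun k _ => ?_
  rw [map_mul, map_pow, map_pow, ph_tt_gt (by omega), ph_tt_gt h]
  simp only [J_succ]

theorem ph_cop_gt {i j : ℕ} (h : i + 1 < j) (n : ℕ) : ph p I j (cop p I i n) = cop p I i n := by
  unfold cop
  rw [map_sum]
  refine sum_congr rfl fun k _ => ?_
  rw [map_mul, map_pow, map_pow, ph_tt_lt (by omega), ph_tt_lt (by omega)]

theorem coassoc [Fact p.Prime] (hI : Ok I) (i n : ℕ) :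
    ph p I (i + 1) (cop p I i n) = ph p I i (cop p I i n) := by
  have h1 : ph p I (i + 1) (cop p I i n) = ∑ k ∈ range (n + 1), ∑ l ∈ range (k + 1),
      tt p (i + 2) l ^ p ^ J I i n * tt p (i + 1) (k - l) ^ p ^ (l + J I i n) *
        tt p i (n - k) ^ p ^ (k + J I i n - J I i (n - k)) := by
    conv_lhs => unfold cop
    rw [map_sum]
    refine sum_congr rfl fun k _ => ?_
    rw [map_mul, map_pow, map_pow, ph_tt_eq, ph_tt_lt (by omega)]
    unfold cop
    rw [sum_pow_char_pow, sum_mul]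
    refine sum_congr rfl fun l _ => ?_
    simp only [J_succ, add_zero, tsub_zero, pow_zero, pow_one, mul_pow, ← pow_mul, ← pow_add]
  have h2 : ph p I i (cop p I i n) = ∑ k ∈ range (n + 1), ∑ l ∈ range (n - k + 1),
      tt p (i + 2) k ^ p ^ J I i n * tt p (i + 1) l ^ p ^ (k + J I i n) *
        tt p i (n - k - l) ^ p ^ (k + l + J I i n - J I i (n - k - l)) := by
    conv_lhs => unfold cop
    rw [map_sum]
    refine sum_congr rfl fun k hk => ?_
    rw [mem_range] at hk
    rw [map_mul, map_pow, map_pow, ph_tt_gt (by omega), ph_tt_eq]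
    unfold cop
    rw [sum_pow_char_pow, mul_sum]
    refine sum_congr rfl fun l hl => ?_
    rw [mem_range] at hl
    have e1 : J I i (n - k) ≤ J I i n + k := by
      have := J_ok hI i (n - k) k
      rwa [show n - k + k = n by omega] at this
    have e2 : J I i (n - k - l) ≤ J I i (n - k) + l := by
      have := J_ok hI i (n - k - l) l
      rwa [show n - k - l + l = n - k by omega] at this
    rw [mul_pow, ← pow_mul, ← pow_mul, ← pow_add, ← pow_add, mul_assoc]
    congr 3
    · congr 1; omega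
    · congr 1; omega
  rw [h1, h2, sum_sigma', sum_sigma']
  refine sum_nbij' (fun x => ⟨x.2, x.1 - x.2⟩) (fun x => ⟨x.1 + x.2, x.1⟩) ?_ ?_ ?_ ?_ ?_
  · rintro ⟨k, l⟩ h
    simp only [mem_sigma, mem_range] at h ⊢
    omega
  · rintro ⟨k, l⟩ h
    simp only [mem_sigma, mem_range] at h ⊢
    omega
  · rintro ⟨k, l⟩ h
    simp only [mem_sigma, mem_range] at h ⊢
    simp only [Sigma.mk.injEq, heq_eq_eq, and_true]
    omega
  · rintro ⟨k, l⟩ h
    simp only [mem_sigma, mem_range] at h ⊢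
    simp only [Sigma.mk.injEq, heq_eq_eq, true_and]
    omega
  · rintro ⟨k, l⟩ h
    simp only [mem_sigma, mem_range] at h ⊢
    have e1 : n - l - (k - l) = n - k := by omega
    have e2 : l + (k - l) = k := by omega
    rw [e1, e2]

/-- The cosimplicial identities. -/
theorem ph_ph [Fact p.Prime] (hI : Ok I) {i j : ℕ} (h : i ≤ j) (f : KP p) :
    ph p I (j + 1) (ph p I i f) = ph p I i (ph p I j f) := by
  suffices H : (ph p I (j + 1)).comp (ph p I i) = (ph p I i).comp (ph p I j) from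
    congrArg (fun g : KP p →ₐ[ZMod p] KP p => g f) H
  ext1 ⟨b, n⟩
  rw [AlgHom.comp_apply, AlgHom.comp_apply, ← tt_succ]
  rcases lt_trichotomy b i with hb | rfl | hb
  · rw [ph_tt_lt hb, ph_tt_lt (by omega), ph_tt_lt (by omega), ph_tt_lt hb]
  · rw [ph_tt_eq]
    rcases h.eq_or_lt with rfl | h'
    · rw [ph_tt_eq, coassoc hI]
    · rw [ph_tt_lt h', ph_tt_eq, ph_cop_gt (by omega)]
  · rw [ph_tt_gt hb]
    rcases lt_trichotomy b j with hj | rfl | hj
    · rw [ph_tt_lt (by omega), ph_tt_lt hj, ph_tt_gt hb]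
    · rw [ph_tt_eq, ph_tt_eq, ph_cop_lt hb]
    · rw [ph_tt_gt (by omega), ph_tt_gt hj, ph_tt_gt (by omega)]

/-- The differential on cochains of degree `s`. -/
noncomputable def dd (p : ℕ) (I : ℕ → ℕ) (s : ℕ) : KP p →+ KP p :=
  ∑ i ∈ range (s + 2), (-1 : ℤ) ^ i • (ph p I i).toRingHom.toAddMonoidHom

theorem dd_apply (s : ℕ) (f : KP p) :
    dd p I s f = ∑ i ∈ range (s + 2), (-1 : ℤ) ^ i • ph p I i f := by
  simp [dd]

theorem alt_sum {G : Type*} [AddCommGroup G] (a : ℕ → ℕ → G)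
    (h : ∀ i j, i ≤ j → a (j + 1) i = a i j) (n : ℕ) :
    ∑ j ∈ range (n + 1), ∑ i ∈ range n, (-1 : ℤ) ^ (i + j) • a j i = 0 := by
  induction n with
  | zero => simp
  | succ n ih =>
    have e1 : ∑ j ∈ range (n + 1 + 1), ∑ i ∈ range (n + 1), (-1 : ℤ) ^ (i + j) • a j i =
        (∑ j ∈ range (n + 1), ∑ i ∈ range n, (-1 : ℤ) ^ (i + j) • a j i) +
        (∑ j ∈ range (n + 1), (-1 : ℤ) ^ (n + j) • a j n +
          ∑ i ∈ range (n + 1), (-1 : ℤ) ^ (i + (n + 1)) • a (n + 1) i) := by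
      rw [sum_range_succ _ (n + 1)]
      simp only [sum_range_succ (fun i => (-1 : ℤ) ^ (i + _) • a _ i) n, sum_add_distrib]
      abel
    rw [e1, ih, zero_add, ← sum_add_distrib]
    refine sum_eq_zero fun j hj => ?_
    rw [mem_range] at hj
    rw [h j n (by omega), show (-1 : ℤ) ^ (j + (n + 1)) = - (-1 : ℤ) ^ (n + j) by
      rw [← add_assoc, pow_succ, add_comm j n]; ring, neg_smul, add_neg_cancel]

theorem dd_dd [Fact p.Prime] (hI : Ok I) (s : ℕ) (f : KP p) : dd p I (s + 1) (dd p I s f) = 0 := by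
  rw [dd_apply, dd_apply]
  have := alt_sum (fun j i => ph p I j (ph p I i f)) (fun i j h => ph_ph hI h f) (s + 2)
  rw [← this]
  refine sum_congr rfl fun j _ => ?_
  rw [map_sum, smul_sum]
  refine sum_congr rfl fun i _ => ?_
  rw [map_zsmul, smul_smul, pow_add, mul_comm]

end Vale.Agent.P257.B
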