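import Mathlib
import Vale.Agent.P257.B.Cob

/-! The complexes `KI p m I` of cochains in the variables `t_1, ..., t_m`. -/

namespace Vale.Agent.P257.B

open MvPolynomial Finset Vale.Agent.P257.Q.PC Vale.Agent.P257.X

/-- The degree of a variable. -/
def wI (p : ℕ) (I : ℕ → ℕ) (x : ℕ × ℕ) : ℕ := p ^ J I x.1 (x.2 + 1) * wt p x.2

/-- The monomials of degree `N` in blocks `≤ s` and in `t_1, ..., t_m`. -/
def Adm (p m : ℕ) (I : ℕ → ℕ) (s : ℕ) (N : ℤ) (e : ℕ × ℕ →₀ ℕ) : Prop :=
  (∀ x ∈ e.support, x.1 ≤ s ∧ x.2 < m) ∧ ((e.sum fun x a => a * wI p I x : ℕ) : ℤ) = N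

/-- Cochains. -/
noncomputable def KK (p m : ℕ) (I : ℕ → ℕ) (s : ℕ) (N : ℤ) : AddSubgroup (KP p) where
  carrier := {f | ∀ e ∈ f.support, Adm p m I s N e}
  zero_mem' := by simp
  add_mem' := by
    classical
    intro f g hf hg e he
    rcases mem_union.1 (support_add he) with h | h
    · exact hf e h
    · exact hg e h
  neg_mem' := by
    intro f hf e he
    exact hf e (by rwa [support_neg] at he)

variable {p m : ℕ} {I : ℕ → ℕ} {s : ℕ} {N M : ℤ}

theorem mem_KK {f : KP p} : f ∈ KK p m I s N ↔ ∀ e ∈ f.support, Adm p m I s N e := Iff.rfl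

theorem Adm.add {a b : ℕ × ℕ →₀ ℕ} (ha : Adm p m I s N a) (hb : Adm p m I s M b) :
    Adm p m I s (N + M) (a + b) := by
  classical
  refine ⟨fun x hx => ?_, ?_⟩
  · rcases mem_union.1 (Finsupp.support_add hx) with h | h
    · exact ha.1 x h
    · exact hb.1 x h
  · rw [Finsupp.sum_add_index' (by simp) (by intros; ring), Nat.cast_add, ha.2, hb.2]

theorem KK.mul {f g : KP p} (hf : f ∈ KK p m I s N) (hg : g ∈ KK p m I s M) :
    f * g ∈ KK p m I s (N + M) := by
  classical
  intro e he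
  obtain ⟨a, ha, b, hb, rfl⟩ := mem_add.1 (support_mul _ _ he)
  exact (hf a ha).add (hg b hb)

theorem KK.C (c : ZMod p) : (C c : KP p) ∈ KK p m I s 0 := by
  classical
  intro e he
  rw [mem_support_iff, coeff_C] at he
  have : 0 = e := by
    by_contra h
    simp [h] at he
  subst this
  exact ⟨by simp, by simp⟩

theorem KK.one : (1 : KP p) ∈ KK p m I s 0 := by
  rw [← C_1]; exact KK.C 1

theorem KK.pow {f : KP p} (hf : f ∈ KK p m I s N) (k : ℕ) : f ^ k ∈ KK p m I s (k * N) := by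
  induction k with
  | zero => simpa using KK.one
  | succ k ih =>
    rw [pow_succ]
    have := KK.mul ih hf
    rwa [show (k : ℤ) * N + N = ((k + 1 : ℕ) : ℤ) * N by push_cast; ring] at this

theorem KK.X {x : ℕ × ℕ} (h1 : x.1 ≤ s) (h2 : x.2 < m) : (X x : KP p) ∈ KK p m I s (wI p I x) := by
  classical
  intro e he
  have := support_monomial_subset (R := ZMod p) (s := Finsupp.single x 1) (a := 1) he
  rw [Finset.mem_singleton] at this
  subst this
  refine ⟨fun y hy => ?_, by simp⟩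
  have := Finsupp.support_single_subset hy
  rw [Finset.mem_singleton] at this
  subst this
  exact ⟨h1, h2⟩

theorem KK.smulC {f : KP p} (hf : f ∈ KK p m I s N) (c : ZMod p) :
    MvPolynomial.C c * f ∈ KK p m I s N := by
  have := KK.mul (KK.C (m := m) (I := I) (s := s) c) hf
  rwa [zero_add] at this

theorem KK.smul {f : KP p} (hf : f ∈ KK p m I s N) (c : ZMod p) : c • f ∈ KK p m I s N := by
  rw [smul_eq_C_mul]; exact KK.smulC hf c

theorem KK.prod {ι : Type*} (t : Finset ι) (f : ι → KP p) (w : ι → ℤ)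
    (h : ∀ i ∈ t, f i ∈ KK p m I s (w i)) : ∏ i ∈ t, f i ∈ KK p m I s (∑ i ∈ t, w i) := by
  classical
  induction t using Finset.induction_on with
  | empty => simpa using KK.one
  | insert a t ha ih =>
    rw [prod_insert ha, sum_insert ha]
    exact KK.mul (h a (mem_insert_self _ _)) (ih fun i hi => h i (mem_insert_of_mem hi))

theorem KK.mono {f : KP p} (hf : f ∈ KK p m I s N) {m' s' : ℕ} (hm : m ≤ m') (hs : s ≤ s') :
    f ∈ KK p m' I s' N := fun e he =>
  ⟨fun x hx => ⟨((hf e he).1 x hx).1.trans hs, ((hf e he).1 x hx).2.trans_le hm⟩, (hf e he).2⟩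

/-- Images under ring homomorphisms. -/
theorem KK.map {m' s' : ℕ} {I' : ℕ → ℕ} (φ : KP p →ₐ[ZMod p] KP p)
    (h : ∀ x : ℕ × ℕ, x.1 ≤ s → x.2 < m → φ (MvPolynomial.X x) ∈ KK p m' I' s' (wI p I x))
    {f : KP p} (hf : f ∈ KK p m I s N) : φ f ∈ KK p m' I' s' N := by
  rw [f.as_sum, map_sum]
  refine sum_mem fun e he => ?_
  obtain ⟨h1, h2⟩ := hf e he
  rw [monomial_eq, map_mul, Finsupp.prod, map_prod]
  have : φ (MvPolynomial.C (coeff e f)) = MvPolynomial.C (coeff e f) := by
    rw [← algebraMap_eq]; exact φ.commutes _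
  rw [this]
  refine KK.smulC ?_ _
  have h3 := KK.prod (p := p) (m := m') (I := I') (s := s') e.support
    (fun x => φ (MvPolynomial.X x ^ e x)) (fun x => (e x : ℤ) * wI p I x) (fun x hx => by
      rw [map_pow]
      exact KK.pow (h x (h1 x hx).1 (h1 x hx).2) _)
  rw [← h2]
  convert h3 using 1
  rw [Finsupp.sum]
  push_cast
  rfl

theorem wt_eq (n : ℕ) : wt p n = ∑ i ∈ range (n + 1), p ^ i := rfl

theorem wt_split {k n : ℕ} (h : k < n) : wt p n = wt p k + p ^ (k + 1) * wt p (n - k - 1) := by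
  rw [wt_eq, wt_eq, wt_eq, show n + 1 = (k + 1) + (n - k - 1 + 1) by omega, sum_range_add, mul_sum]
  congr 1
  refine sum_congr rfl fun i _ => ?_
  rw [pow_add]

/-- The degree of `t_n` of block `j`. -/
def wT (p : ℕ) (I : ℕ → ℕ) (j n : ℕ) : ℕ := if n = 0 then 0 else wI p I (j, n - 1)

theorem KK.tt {j n : ℕ} (h1 : j ≤ s) (h2 : n ≤ m) : tt p j n ∈ KK p m I s (wT p I j n) := by
  cases n with
  | zero => simpa [wT] using KK.one
  | succ n => simpa [wT] using KK.X (x := (j, n)) h1 (by simpa using h2)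

theorem KK.cop (hI : Ok I) {i n : ℕ} (h1 : i + 1 ≤ s) (h2 : n < m) :
    cop p I i (n + 1) ∈ KK p m I s (wI p I (i, n)) := by
  unfold B.cop
  refine sum_mem fun k hk => ?_
  rw [mem_range] at hk
  have e1 := KK.tt (p := p) (m := m) (I := I) (s := s) (j := i + 1) (n := k) h1 (by omega)
  have e2 := KK.tt (p := p) (m := m) (I := I) (s := s) (j := i) (n := n + 1 - k) (by omega)
    (by omega)
  have e3 := KK.mul (KK.pow e1 (p ^ J I i (n + 1)))
    (KK.pow e2 (p ^ (k + J I i (n + 1) - J I i (n + 1 - k))))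
  have hJ : J I i (n + 1 - k) ≤ J I i (n + 1) + k := by
    have := J_ok hI i (n + 1 - k) k
    rwa [show n + 1 - k + k = n + 1 by omega] at this
  suffices H : p ^ J I i (n + 1) * wT p I (i + 1) k +
      p ^ (k + J I i (n + 1) - J I i (n + 1 - k)) * wT p I i (n + 1 - k) = wI p I (i, n) by
    rw [← H]
    exact_mod_cast e3
  rcases k with _ | k
  · simp [wT, wI]
  rcases Nat.eq_or_lt_of_le (show k ≤ n by omega) with rfl | hk'
  · simp [wI, wT, J_succ]
  · obtain ⟨l, hl⟩ : ∃ l, n + 1 - (k + 1) = l + 1 := ⟨n - k - 1, by omega⟩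
    rw [hl] at hJ ⊢
    simp only [wI, wT, J_succ, pow_zero, one_mul, Nat.add_eq_zero_iff, one_ne_zero, and_false,
      if_false, Nat.add_sub_cancel]
    rw [wt_split hk', show n - k - 1 = l by omega, mul_add, ← mul_assoc, ← mul_assoc, ← pow_add,
      ← pow_add]
    congr 3
    omega

theorem KK.ph (hI : Ok I) {i : ℕ} {f : KP p} (hf : f ∈ KK p m I s N) :
    ph p I i f ∈ KK p m I (s + 1) N := by
  refine KK.map _ ?_ hf
  rintro ⟨b, n⟩ h1 h2
  rw [← tt_succ]
  rcases lt_trichotomy b i with hb | rfl | hb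
  · rw [ph_tt_lt hb]
    simpa using KK.X (x := (b, n)) (by simpa using Nat.le_succ_of_le h1) h2
  · rw [ph_tt_eq]
    exact KK.cop hI (by simpa using h1) h2
  · rw [ph_tt_gt hb]
    have : wI p I (b, n) = wI p I (b + 1, n) := by
      simp [wI, J, show b ≠ 0 by omega]
    rw [this]
    simpa using KK.X (x := (b + 1, n)) (by simpa using h1) h2

/-- The complex. -/
noncomputable def KI (p : ℕ) [Fact p.Prime] (m : ℕ) (I : ℕ → ℕ) (hI : Ok I) : Cpx (KP p) where
  K s N := KK p m I s N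
  d := dd p I
  d_mem s N f hf := by
    rw [dd_apply]
    exact sum_mem fun i _ => zsmul_mem (KK.ph hI hf) _
  d_d s N f _ := dd_dd hI s f

end Vale.Agent.P257.B
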