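import Mathlib
import Vale.Agent.P257.B.Cx

/-! The derivation with respect to a coefficient variable. -/

namespace Vale.Agent.P257.B

open MvPolynomial Finset Vale.Agent.P257.Q.PC Vale.Agent.P257.X

/-- `y_(n+1)` is primitive over the coideal generated by its `p`-th power and by the other `y`. -/
def Pr (I : ℕ → ℕ) (n : ℕ) : Prop := ∀ n', n < n' → I (n + 1) + 1 ≤ I (n' + 1) + (n' - n)

/-- The derivation with respect to `y_(n+1)`. -/
noncomputable def DD (p n : ℕ) : KP p →+ KP p :=
  (pderiv (R := ZMod p) ((0, n) : ℕ × ℕ)).toLinearMap.toAddMonoidHom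

variable {p m : ℕ} {I : ℕ → ℕ} {s : ℕ} {N M : ℤ}

theorem DD_apply (n : ℕ) (f : KP p) : DD p n f = pderiv (0, n) f := rfl

theorem pderiv_tt_ne {x : ℕ × ℕ} {j k : ℕ} (h : x ≠ (j, k - 1) ∨ k = 0) :
    pderiv x (tt p j k) = 0 := by
  cases k with
  | zero => simp
  | succ k =>
    rw [tt_succ]
    rcases h with h | h
    · exact pderiv_X_of_ne (by simpa using h.symm)
    · omega

theorem pderiv_pow_p [Fact p.Prime] {x : ℕ × ℕ} (f : KP p) {k : ℕ} (hk : 0 < k) :
    pderiv x (f ^ p ^ k) = 0 := by
  rw [pderiv_pow]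
  have : ((p ^ k : ℕ) : KP p) = 0 := by
    rw [Nat.cast_pow, CharP.cast_eq_zero, zero_pow hk.ne']
  rw [this, zero_mul, zero_mul]

theorem pderiv_cop [Fact p.Prime] {n : ℕ} (hn : Pr I n) (n' : ℕ) :
    pderiv (0, n) (cop p I 0 (n' + 1)) = if n' = n then 1 else 0 := by
  unfold cop
  rw [map_sum]
  have h0 : ∀ k ∈ range (n' + 1 + 1), n' + 1 - k ≠ n + 1 →
      pderiv (0, n) (tt p 1 k ^ p ^ J I 0 (n' + 1) *
        tt p 0 (n' + 1 - k) ^ p ^ (k + J I 0 (n' + 1) - J I 0 (n' + 1 - k))) = 0 := by
    intro k _ hk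
    rw [pderiv_mul, pderiv_pow, pderiv_pow, pderiv_tt_ne (Or.inl (by simp)), pderiv_tt_ne (by
      by_cases h : n' + 1 - k = 0
      · exact Or.inr h
      · left; simp; omega)]
    simp
  split_ifs with h
  · subst h
    rw [sum_eq_single 0]
    · simp
    · intro k hk hk0
      rw [mem_range] at hk
      exact h0 k (by simpa using hk) (by omega)
    · simp
  · refine sum_eq_zero fun k hk => ?_
    by_cases h1 : n' + 1 - k = n + 1
    · rw [mem_range] at hk
      have h2 := hn n' (by omega)
      have h3 : J I 0 (n' + 1) = I (n' + 1) := by simp [J]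
      have h4 : J I 0 (n' + 1 - k) = I (n + 1) := by rw [h1]; simp [J]
      rw [pderiv_mul, pderiv_pow, pderiv_tt_ne (Or.inl (by simp)), pderiv_pow_p _ (by omega)]
      simp
    · exact h0 k hk h1

theorem pderiv_ph [Fact p.Prime] {n : ℕ} (hn : Pr I n) (i : ℕ) (f : KP p) :
    pderiv (0, n) (ph p I i f) = ph p I i (pderiv (0, n) f) := by
  have hX : ∀ x : ℕ × ℕ, pderiv (0, n) (ph p I i (X x)) =
      ph p I i (pderiv (0, n) (X x : KP p)) := by
    rintro ⟨b, n'⟩
    have h1 : pderiv (0, n) (X (b, n') : KP p) = if b = 0 ∧ n' = n then 1 else 0 := by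
      split_ifs with h
      · rw [h.1, h.2, pderiv_X_self]
      · exact pderiv_X_of_ne (by rintro ⟨⟩; simp at h)
    rw [h1]
    have h2 : ph p I i (if b = 0 ∧ n' = n then 1 else 0 : KP p) =
        if b = 0 ∧ n' = n then 1 else 0 := by split_ifs <;> simp
    rw [h2]
    rw [← tt_succ]
    rcases lt_trichotomy b i with hb | rfl | hb
    · rw [ph_tt_lt hb, tt_succ, h1]
    · rw [ph_tt_eq]
      rcases b with _ | b
      · rw [pderiv_cop hn]; simp
      · rw [if_neg (by omega)]
        unfold cop
        rw [map_sum]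
        refine sum_eq_zero fun k hk => ?_
        rw [pderiv_mul, pderiv_pow, pderiv_pow, pderiv_tt_ne (Or.inl (by simp)),
          pderiv_tt_ne (Or.inl (by simp))]
        simp
    · rw [ph_tt_gt hb, tt_succ, if_neg (by omega)]
      exact pderiv_X_of_ne (by simp)
  induction f using MvPolynomial.induction_on with
  | C a => rw [pderiv_C, map_zero, ← algebraMap_eq, AlgHom.commutes, algebraMap_eq, pderiv_C]
  | add f g hf hg => simp only [map_add, hf, hg]
  | mul_X f x hf => rw [map_mul, pderiv_mul, pderiv_mul, map_add, map_mul, map_mul, hf, hX]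

theorem DD_dd [Fact p.Prime] {n : ℕ} (hn : Pr I n) (s : ℕ) (f : KP p) :
    DD p n (dd p I s f) = dd p I s (DD p n f) := by
  rw [dd_apply, dd_apply, map_sum]
  refine sum_congr rfl fun i _ => ?_
  rw [map_zsmul, DD_apply, DD_apply, pderiv_ph hn]

theorem KK.pderiv {f : KP p} (hf : f ∈ KK p m I s N) (x : ℕ × ℕ) :
    pderiv x f ∈ KK p m I s (N - wI p I x) := by
  classical
  intro e he
  rw [mem_support_iff, coeff_pderiv] at he
  have h1 := hf (e + Finsupp.single x 1) (by
    rw [mem_support_iff]; intro h; rw [h, zero_mul] at he; exact he rfl)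
  refine ⟨fun y hy => h1.1 y ?_, ?_⟩
  · rw [Finsupp.mem_support_iff] at hy ⊢
    simp [hy]
  · have h2 := h1.2
    rw [Finsupp.sum_add_index' (by simp) (by intros; ring), Finsupp.sum_single_index (by simp)] at h2
    push_cast at h2 ⊢
    linarith

theorem iter_monomial (x : ℕ × ℕ) (k : ℕ) (e : ℕ × ℕ →₀ ℕ) (a : ZMod p) :
    (pderiv x)^[k] (monomial e a) =
      monomial (e - Finsupp.single x k) (a * ((e x).descFactorial k : ℕ)) := by
  induction k with
  | zero => simp
  | succ k ih =>
    rw [Function.iterate_succ_apply', ih, pderiv_monomial, tsub_tsub, ← Finsupp.single_add,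
      mul_assoc, Nat.descFactorial_succ, mul_comm (e x - k)]
    congr 2
    push_cast
    simp

theorem iter_add (x : ℕ × ℕ) (k : ℕ) (f g : KP p) :
    (pderiv x)^[k] (f + g) = (pderiv x)^[k] f + (pderiv x)^[k] g := by
  induction k with
  | zero => rfl
  | succ k ih => simp only [Function.iterate_succ_apply', ih, map_add]

theorem iter_p [Fact p.Prime] (x : ℕ × ℕ) (f : KP p) : (pderiv x)^[p] f = 0 := by
  induction f using MvPolynomial.induction_on' with
  | monomial e a =>
    rw [iter_monomial]
    have : (((e x).descFactorial p : ℕ) : ZMod p) = 0 := by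
      rw [ZMod.natCast_eq_zero_iff]
      exact (Nat.dvd_factorial (Fact.out (p := p.Prime)).pos le_rfl).trans
        (Nat.factorial_dvd_descFactorial _ _)
    rw [this, mul_zero, monomial_zero]
  | add f g hf hg => rw [iter_add, hf, hg, add_zero]

theorem DD_iter (n k : ℕ) (f : KP p) : (DD p n)^[k] f = (pderiv (0, n))^[k] f := rfl

/-- Partial integration. -/
theorem integ [Fact p.Prime] (x : ℕ × ℕ) (f : KP p) (r : ℕ) (hr : r < p) :
    pderiv x (∑ i ∈ range r, C (((-1) ^ i * ((i + 1).factorial : ZMod p)⁻¹)) *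
      (X x ^ (i + 1) * (pderiv x)^[i] f)) =
    f - C ((-1) ^ r * (r.factorial : ZMod p)⁻¹) * (X x ^ r * (pderiv x)^[r] f) := by
  induction r with
  | zero => simp
  | succ r ih =>
    rw [sum_range_succ, map_add, ih (by omega), pderiv_C_mul, pderiv_mul, pderiv_pow, pderiv_X_self,
      Function.iterate_succ_apply', mul_one, Nat.add_sub_cancel]
    have h1 : (((r + 1).factorial : ℕ) : ZMod p) = (r + 1 : ZMod p) * (r.factorial : ZMod p) := by
      rw [Nat.factorial_succ]; push_cast; ring
    have h2 : (r + 1 : ZMod p) ≠ 0 := by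
      have : ((r + 1 : ℕ) : ZMod p) ≠ 0 := by
        rw [Ne, ZMod.natCast_eq_zero_iff]
        exact Nat.not_dvd_of_pos_of_lt (by omega) hr
      simpa using this
    have h3 : C ((-1) ^ r * ((r + 1).factorial : ZMod p)⁻¹) * ((r + 1 : ℕ) : KP p) =
        C ((-1) ^ r * (r.factorial : ZMod p)⁻¹) := by
      have : ((r + 1 : ℕ) : KP p) = C ((r + 1 : ℕ) : ZMod p) := by simp
      rw [this, ← C_mul, h1]
      congr 1
      push_cast
      field_simp
    rw [← h3, pow_succ (-1 : ZMod p), mul_assoc ((-1 : ZMod p) ^ r), C_mul, C_mul, C_mul]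
    push_cast
    simp only [map_neg, map_one]
    ring

theorem iter_mul_pow (x : ℕ × ℕ) (f : KP p) (hf : pderiv x f = 0) (j k : ℕ) :
    (pderiv x)^[k] (X x ^ j * f) = ((j.descFactorial k : ℕ) : KP p) * (X x ^ (j - k) * f) := by
  induction k with
  | zero => simp
  | succ k ih =>
    rw [Function.iterate_succ_apply', ih, pderiv_mul, pderiv_mul, hf, pderiv_pow, pderiv_X_self,
      Nat.descFactorial_succ]
    have : pderiv x ((j.descFactorial k : ℕ) : KP p) = 0 := by
      have : ((j.descFactorial k : ℕ) : KP p) = C ((j.descFactorial k : ℕ) : ZMod p) := by simp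
      rw [this, pderiv_C]
    rw [this, show j - (k + 1) = j - k - 1 by omega]
    push_cast
    ring

theorem KK.iter {f : KP p} (hf : f ∈ KK p m I s N) (x : ℕ × ℕ) (k : ℕ) :
    (MvPolynomial.pderiv x)^[k] f ∈ KK p m I s (N - k * wI p I x) := by
  induction k with
  | zero => simpa using hf
  | succ k ih =>
    rw [Function.iterate_succ_apply']
    have := KK.pderiv ih x
    rwa [show N - k * wI p I x - wI p I x = N - ((k + 1 : ℕ) : ℤ) * wI p I x by
      push_cast; ring] at this

/-- The derivation of the complex. -/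
theorem der [Fact p.Prime] (hI : Ok I) {n : ℕ} (hn : Pr I n) (hm : n < m) :
    Cpx.Der (KI p m I hI) p (wI p I (0, n)) (DD p n) where
  mem s N f hf := KK.pderiv hf _
  comm s N f _ := DD_dd hn s f
  pow s N f _ := iter_p _ f
  ex1 s N f hf hD := by
    have hp := (Fact.out (p := p.Prime)).two_le
    refine ⟨_, ?_, (integ (0, n) f (p - 1) (by omega)).trans ?_⟩
    · refine sum_mem fun i _ => KK.smulC ?_ _
      have h1 := KK.mul (KK.pow (KK.X (p := p) (I := I) (s := s) (x := (0, n)) (by simp) hm) (i + 1))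
        (KK.iter hf (0, n) i)
      rwa [show ((i + 1 : ℕ) : ℤ) * wI p I (0, n) + (N - i * wI p I (0, n)) =
        N + wI p I (0, n) by push_cast; ring] at h1
    · have : (MvPolynomial.pderiv ((0, n) : ℕ × ℕ))^[p - 1] f = 0 := hD
      rw [this, mul_zero, mul_zero, sub_zero]
  ex2 s N f hf hD := by
    have hp := (Fact.out (p := p.Prime)).two_le
    refine ⟨-(X (0, n) ^ (p - 1) * f), neg_mem ?_, ?_⟩
    · have h1 := KK.mul (KK.pow (KK.X (p := p) (I := I) (s := s) (x := (0, n)) (by simp) hm) (p - 1))
        hf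
      rwa [show ((p - 1 : ℕ) : ℤ) * wI p I (0, n) + N = N + (p - 1 : ℤ) * wI p I (0, n) by
        rw [Nat.cast_sub (by omega)]; push_cast; ring] at h1
    · have h2 : pderiv ((0, n) : ℕ × ℕ) f = 0 := hD
      have h3 : (DD p n)^[p - 1] (-(X (0, n) ^ (p - 1) * f)) =
          - (MvPolynomial.pderiv ((0, n) : ℕ × ℕ))^[p - 1] (X (0, n) ^ (p - 1) * f) := by
        have : ∀ k (g : KP p), (DD p n)^[k] (-g) = - (MvPolynomial.pderiv ((0, n) : ℕ × ℕ))^[k] g := by
          intro k
          induction k with
          | zero => intro g; rfl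
          | succ k ih => intro g; rw [Function.iterate_succ_apply', ih, map_neg, DD_apply,
              Function.iterate_succ_apply']
        exact this _ _
      rw [h3, iter_mul_pow _ _ h2, Nat.descFactorial_self, Nat.sub_self, pow_zero, one_mul]
      have h4 : (((p - 1).factorial : ℕ) : KP p) = -1 := by
        have h5 : (((p - 1).factorial : ℕ) : KP p) = C (((p - 1).factorial : ℕ) : ZMod p) :=
          (map_natCast _ _).symm
        rw [h5, ZMod.wilsons_lemma p, map_neg, map_one]
      rw [h4]; ring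

/-- The substitution `y_(n+1) ↦ y_(n+1) ^ p`. -/
noncomputable def rho (p n : ℕ) : KP p →ₐ[ZMod p] KP p :=
  aeval fun x => if x = (0, n) then X x ^ p else X x

/-- The threshold of `t_(n+1)` is raised by one. -/
def up (I : ℕ → ℕ) (n : ℕ) : ℕ → ℕ := fun a => if a = n + 1 then I a + 1 else I a

theorem up_ok (hI : Ok I) {n : ℕ} (hn : Pr I n) : Ok (up I n) := by
  intro a b
  unfold up
  have h1 := hI a b
  split_ifs with h2 h3
  · omega
  · have := hn (a + b - 1) (by omega)
    rw [h2] at *
    rw [show n + 1 + b - 1 + 1 = n + 1 + b by omega] at this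
    omega
  · omega
  · omega

theorem rho_tt_ne {n j k : ℕ} (h : j ≠ 0 ∨ k ≠ n + 1) : rho p n (tt p j k) = tt p j k := by
  cases k with
  | zero => simp
  | succ k =>
    rw [tt_succ, rho, aeval_X, if_neg]
    simp
    omega

theorem rho_tt (n : ℕ) : rho p n (tt p 0 (n + 1)) = tt p 0 (n + 1) ^ p := by
  simp [rho]

theorem rho_ph [Fact p.Prime] (hI : Ok I) {n : ℕ} (hn : Pr I n) (i : ℕ) (f : KP p) :
    rho p n (ph p (up I n) i f) = ph p I i (rho p n f) := by
  suffices H : (rho p n).comp (ph p (up I n) i) = (ph p I i).comp (rho p n) from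
    congrArg (fun g : KP p →ₐ[ZMod p] KP p => g f) H
  ext1 ⟨b, n'⟩
  rw [AlgHom.comp_apply, AlgHom.comp_apply, ← tt_succ]
  rcases Nat.eq_zero_or_pos i with rfl | hi
  · rcases Nat.eq_zero_or_pos b with rfl | hb
    · rw [ph_tt_eq]
      have key : ∀ k ∈ range (n' + 1 + 1), k ≠ 0 → rho p n (tt p (0 + 1) k ^ p ^ J (up I n) 0 (n' + 1) *
          tt p 0 (n' + 1 - k) ^ p ^ (k + J (up I n) 0 (n' + 1) - J (up I n) 0 (n' + 1 - k))) =
          (tt p (0 + 1) k ^ p ^ J I 0 (n' + 1) *
          tt p 0 (n' + 1 - k) ^ p ^ (k + J I 0 (n' + 1) - J I 0 (n' + 1 - k))) ^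
            (if n' = n then p else 1) := by
        intro k hk hk0
        rw [mem_range] at hk
        rw [map_mul, map_pow, map_pow, rho_tt_ne (Or.inl (by omega))]
        have h1 : J I 0 (n' + 1 - k) ≤ J I 0 (n' + 1) + k := by
          have := J_ok hI 0 (n' + 1 - k) k
          rwa [show n' + 1 - k + k = n' + 1 by omega] at this
        by_cases h2 : n' + 1 - k = n + 1
        · have h3 := hn n' (by omega)
          rw [h2, rho_tt, if_neg (show n' ≠ n by omega), pow_one, ← pow_mul, ← pow_succ']
          congr 3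
          · simp [J, up, show n' ≠ n by omega]
          · simp only [J, up, if_true, show n' + 1 ≠ n + 1 by omega, if_false]
            omega
        · rw [rho_tt_ne (Or.inr h2)]
          by_cases h3 : n' = n
          · subst h3
            rw [if_pos rfl, mul_pow, ← pow_mul, ← pow_mul, ← pow_succ, ← pow_succ]
            congr 3
            · simp [J, up]
            · have h4 : J (up I n') 0 (n' + 1 - k) = J I 0 (n' + 1 - k) := by
                simp only [J, up, if_true]
                rw [if_neg (by omega)]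
              rw [h4]
              simp only [J, up, if_true] at h1 ⊢
              omega
          · rw [if_neg h3, pow_one]
            congr 3
            · simp [J, up, h3]
            · simp only [J, up, if_true]
              rw [if_neg (show n' + 1 ≠ n + 1 by omega), if_neg (by omega)]
      by_cases h3 : n' = n
      · subst h3
        rw [rho_tt, map_pow, ph_tt_eq]
        unfold cop
        rw [sum_pow_char, map_sum, sum_range_succ' _ (n' + 1), sum_range_succ' _ (n' + 1)]
        congr 1
        · refine sum_congr rfl fun k hk => ?_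
          rw [mem_range] at hk
          have := key (k + 1) (by simpa using hk) (by omega)
          rwa [if_pos rfl] at this
        · simp [J, up, rho]
      · rw [rho_tt_ne (Or.inr (by omega)), ph_tt_eq]
        unfold cop
        rw [map_sum, sum_range_succ' _ (n' + 1), sum_range_succ' _ (n' + 1)]
        congr 1
        · refine sum_congr rfl fun k hk => ?_
          rw [mem_range] at hk
          have := key (k + 1) (by simpa using hk) (by omega)
          rwa [if_neg h3, pow_one] at this
        · simp [J, up, rho, h3]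
    · rw [ph_tt_gt hb, rho_tt_ne (Or.inl (by omega)), rho_tt_ne (Or.inl (by omega)), ph_tt_gt hb]
  · rcases lt_trichotomy b i with hb | rfl | hb
    · rw [ph_tt_lt hb]
      by_cases h : b = 0 ∧ n' = n
      · rw [h.1, h.2, rho_tt, map_pow, ph_tt_lt hi]
      · rw [rho_tt_ne (by omega), ph_tt_lt hb]
    · rw [ph_tt_eq, rho_tt_ne (Or.inl (by omega)), ph_tt_eq]
      unfold cop
      rw [map_sum]
      refine sum_congr rfl fun k _ => ?_
      rw [map_mul, map_pow, map_pow, rho_tt_ne (Or.inl (by omega)), rho_tt_ne (Or.inl (by omega))]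
      congr 3 <;> simp [J, show b ≠ 0 by omega]
    · rw [ph_tt_gt hb, rho_tt_ne (Or.inl (by omega)), rho_tt_ne (Or.inl (by omega)), ph_tt_gt hb]

/-- The exponents under `rho`. -/
noncomputable def ex (p n : ℕ) (e : ℕ × ℕ →₀ ℕ) : ℕ × ℕ →₀ ℕ :=
  e + Finsupp.single (0, n) ((p - 1) * e (0, n))

theorem ex_inj [Fact p.Prime] (n : ℕ) : Function.Injective (ex p n) := by
  have hp := (Fact.out (p := p.Prime)).two_le
  intro a b h
  have h1 : ∀ x, a x + (if (0, n) = x then (p - 1) * a (0, n) else 0) =
      b x + (if (0, n) = x then (p - 1) * b (0, n) else 0) := by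
    intro x
    have := DFunLike.congr_fun h x
    simp only [ex, Finsupp.add_apply, Finsupp.single_apply] at this
    exact this
  have h2 : a (0, n) = b (0, n) := by
    have := h1 (0, n)
    simp only [if_true] at this
    have h3 : p * a (0, n) = p * b (0, n) := by
      obtain ⟨q, rfl⟩ : ∃ q, p = q + 1 := ⟨p - 1, by omega⟩
      simp only [Nat.add_sub_cancel] at this
      linarith
    exact Nat.eq_of_mul_eq_mul_left (by omega) h3
  ext x
  have := h1 x
  rw [h2] at this
  split_ifs at this <;> omega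

theorem rho_monomial [Fact p.Prime] (n : ℕ) (e : ℕ × ℕ →₀ ℕ) (a : ZMod p) :
    rho p n (monomial e a) = monomial (ex p n e) a := by
  have hp := (Fact.out (p := p.Prime)).two_le
  have h1 : ∀ x : ℕ × ℕ, (if x = (0, n) then X x ^ p else X x : KP p) =
      X x * X (0, n) ^ (if x = (0, n) then p - 1 else 0) := by
    intro x
    split_ifs with h
    · rw [h, ← pow_succ', Nat.sub_add_cancel (by omega)]
    · simp
  unfold rho ex
  rw [aeval_monomial, monomial_eq, Finsupp.prod_add_index' (by simp) (by intros; rw [pow_add]),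
    Finsupp.prod_single_index (by simp)]
  simp only [h1, mul_pow, Finsupp.prod_mul]
  rw [algebraMap_eq]
  congr 2
  by_cases h : (0, n) ∈ e.support
  · rw [Finsupp.prod, prod_eq_single (0, n)]
    · simp [← pow_mul]
    · intro b _ hb; simp [hb]
    · intro h'; exact absurd h h'
  · rw [Finsupp.notMem_support_iff] at h
    rw [h, mul_zero, pow_zero, Finsupp.prod]
    refine prod_eq_one fun x hx => ?_
    rw [Finsupp.mem_support_iff] at hx
    rw [if_neg (by rintro rfl; exact hx h), pow_zero, one_pow]

theorem coeff_rho [Fact p.Prime] (n : ℕ) (e : ℕ × ℕ →₀ ℕ) (f : KP p) :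
    coeff (ex p n e) (rho p n f) = coeff e f := by
  classical
  induction f using MvPolynomial.induction_on' with
  | monomial e' a =>
    rw [rho_monomial, coeff_monomial, coeff_monomial]
    by_cases h : e' = e
    · rw [if_pos h, if_pos (by rw [h])]
    · rw [if_neg h, if_neg (fun h' => h (ex_inj n h'))]
  | add f g hf hg => rw [map_add, coeff_add, coeff_add, hf, hg]

theorem rho_inj [Fact p.Prime] (n : ℕ) : Function.Injective (rho p n) := by
  intro f g h
  ext e
  rw [← coeff_rho n e f, ← coeff_rho n e g, h]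

theorem wI_up [Fact p.Prime] (n : ℕ) (x : ℕ × ℕ) :
    wI p (up I n) x = wI p I x + if x = (0, n) then (p - 1) * wI p I (0, n) else 0 := by
  have hp := (Fact.out (p := p.Prime)).two_le
  obtain ⟨b, k⟩ := x
  unfold wI J up
  by_cases hb : b = 0
  · subst hb
    by_cases hk : k = n
    · subst hk
      obtain ⟨q, rfl⟩ : ∃ q, p = q + 1 := ⟨p - 1, by omega⟩
      simp only [if_true, Nat.add_sub_cancel, pow_succ]
      ring
    · simp [hk]
  · simp [hb]

theorem sum_ex [Fact p.Prime] (n : ℕ) (e : ℕ × ℕ →₀ ℕ) :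
    ((ex p n e).sum fun x a => a * wI p I x) = e.sum fun x a => a * wI p (up I n) x := by
  unfold ex
  rw [Finsupp.sum_add_index' (by simp) (by intros; ring), Finsupp.sum_single_index (by simp)]
  simp only [wI_up, mul_add, Finsupp.sum_add]
  congr 1
  rw [Finsupp.sum]
  simp only [mul_ite, mul_zero, sum_ite_eq', Finsupp.mem_support_iff]
  split_ifs with h
  · ring
  · rw [not_not] at h; rw [h]; ring

theorem adm_ex [Fact p.Prime] {n : ℕ} (e : ℕ × ℕ →₀ ℕ) :
    Adm p m I s N (ex p n e) ↔ Adm p m (up I n) s N e := by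
  have hs : (ex p n e).support = e.support := by
    ext x
    simp only [ex, Finsupp.mem_support_iff, Finsupp.add_apply, Finsupp.single_apply]
    split_ifs with h
    · subst h
      constructor
      · intro h1 h2; rw [h2] at h1; simp at h1
      · intro h1; omega
    · simp
  unfold Adm
  rw [hs, sum_ex]

theorem dvd_of_pderiv [Fact p.Prime] {x : ℕ × ℕ} {g : KP p} (hg : pderiv x g = 0)
    {e : ℕ × ℕ →₀ ℕ} (he : e ∈ g.support) : p ∣ e x := by
  by_cases h : e x = 0
  · rw [h]; exact dvd_zero _
  have h1 := coeff_pderiv (i := x) g (e - Finsupp.single x 1)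
  rw [hg, coeff_zero, Finsupp.sub_add_single_one_cancel h] at h1
  have h2 : coeff e g ≠ 0 := by rwa [mem_support_iff] at he
  have h3 : ((e x : ℕ) : ZMod p) = 0 := by
    have h4 : (((e - Finsupp.single x 1 : ℕ × ℕ →₀ ℕ) x : ℕ) : ZMod p) + 1 = ((e x : ℕ) : ZMod p) := by
      have : (e - Finsupp.single x 1 : ℕ × ℕ →₀ ℕ) x + 1 = e x := by
        simp only [Finsupp.tsub_apply, Finsupp.single_eq_same]; omega
      rw [← this]; push_cast; rfl
    rw [h4] at h1
    rcases mul_eq_zero.1 h1.symm with h | h
    · exact absurd h h2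
    · exact h
  rwa [ZMod.natCast_eq_zero_iff] at h3

theorem rho_surj [Fact p.Prime] (n : ℕ) {g : KP p} (hg : pderiv ((0, n) : ℕ × ℕ) g = 0) :
    ∃ f, rho p n f = g := by
  refine ⟨∑ e ∈ g.support, monomial (e - Finsupp.single (0, n) (e (0, n) - e (0, n) / p))
    (coeff e g), ?_⟩
  rw [map_sum]
  conv_rhs => rw [g.as_sum]
  refine sum_congr rfl fun e he => ?_
  rw [rho_monomial]
  suffices H : ex p n (e - Finsupp.single (0, n) (e (0, n) - e (0, n) / p)) = e by rw [H]
  obtain ⟨c, hc⟩ := dvd_of_pderiv hg he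
  have hp := (Fact.out (p := p.Prime)).two_le
  have h1 : e (0, n) / p = c := by rw [hc, Nat.mul_div_cancel_left _ (by omega)]
  obtain ⟨q, rfl⟩ : ∃ q, p = q + 1 := ⟨p - 1, by omega⟩
  refine Finsupp.ext fun x => ?_
  simp only [ex, Finsupp.add_apply, Finsupp.tsub_apply, Finsupp.single_apply, h1]
  by_cases hx : (0, n) = x
  · subst hx
    simp only [if_true, Nat.add_sub_cancel]
    rw [hc]
    have : (q + 1) * c = q * c + c := by ring
    have h5 : (q + 1) * c - ((q + 1) * c - c) = c := by omega
    rw [h5]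
    ring
  · simp [hx]

theorem rho_mem_iff [Fact p.Prime] (n : ℕ) {f : KP p} :
    rho p n f ∈ KK p m I s N ↔ f ∈ KK p m (up I n) s N := by
  constructor
  · intro h e he
    rw [← adm_ex]
    exact h _ (by rwa [mem_support_iff, coeff_rho, ← mem_support_iff])
  · intro h
    rw [f.as_sum, map_sum]
    refine sum_mem fun e he => ?_
    rw [rho_monomial]
    intro e' he'
    have := support_monomial_subset he'
    rw [Finset.mem_singleton] at this
    rw [this, adm_ex]
    exact h e he

theorem pderiv_rho [Fact p.Prime] (n : ℕ) (f : KP p) :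
    pderiv ((0, n) : ℕ × ℕ) (rho p n f) = 0 := by
  induction f using MvPolynomial.induction_on with
  | C a => rw [← algebraMap_eq, AlgHom.commutes, algebraMap_eq, pderiv_C]
  | add f g hf hg => rw [map_add, map_add, hf, hg, add_zero]
  | mul_X f x hf =>
    rw [map_mul, pderiv_mul, hf, zero_mul, zero_add]
    have : pderiv ((0, n) : ℕ × ℕ) (rho p n (X x)) = 0 := by
      unfold rho
      rw [aeval_X]
      split_ifs with h
      · rw [pderiv_pow]; simp
      · exact pderiv_X_of_ne h
    rw [this, mul_zero]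

/-- The kernel of the derivation is the complex with the raised threshold. -/
theorem iso_up [Fact p.Prime] (hI : Ok I) {n : ℕ} (hn : Pr I n) (hm : n < m) :
    Cpx.Iso (KI p m (up I n) (up_ok hI hn)) ((KI p m I hI).Ker (der hI hn hm))
      (rho p n).toRingHom.toAddMonoidHom where
  mem s N f hf := ⟨(rho_mem_iff n).2 hf, pderiv_rho n f⟩
  comm s N f _ := by
    change rho p n (dd p (up I n) s f) = dd p I s (rho p n f)
    rw [dd_apply, dd_apply, map_sum]
    refine sum_congr rfl fun i _ => ?_
    rw [map_zsmul, rho_ph hI hn]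
  inj := rho_inj n
  surj s N g hg := by
    obtain ⟨f, hf⟩ := rho_surj n hg.2
    exact ⟨f, (rho_mem_iff n).1 (by rw [hf]; exact hg.1), hf⟩

/-- One step of the tower. -/
theorem tower [Fact p.Prime] (hI : Ok I) {n : ℕ} (hn : Pr I n) (hm : n < m) (s : ℕ) (N : ℤ)
    (H : ∀ s' ε j : ℕ, ε ≤ 1 → s = s' + ε + 2 * j →
      (KI p m I hI).Ex s' (N - (ε + p * j) * wI p I (0, n))) :
    (KI p m (up I n) (up_ok hI hn)).Ex s N :=
  (iso_up hI hn hm).ex_iff.1 ((der hI hn hm).tower (Fact.out (p := p.Prime)).one_le s N H)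

end Vale.Agent.P257.B
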