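import Mathlib
import Vale.Agent.P257.B.Der

/-! Divided power operators with respect to a coefficient variable `y = X (0, n)`, and the complexes
with coefficients `{y ^ a : a mod p ^ K < p ^ j}`. -/

namespace Vale.Agent.P257.B

open MvPolynomial Finset Vale.Agent.P257.Q.PC Vale.Agent.P257.X

/-- `y_(n+1)` is primitive modulo its `p ^ K`-th power. -/
def Prk (I : ℕ → ℕ) (n K : ℕ) : Prop := ∀ n', n < n' → I (n + 1) + K ≤ I (n' + 1) + (n' - n)

variable {p m : ℕ} {I : ℕ → ℕ} {s : ℕ} {N M : ℤ} {n K : ℕ}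

theorem Prk.pr (h : Prk I n 1) : Pr I n := h

theorem Prk.mono {K' : ℕ} (h : Prk I n K) (hK : K' ≤ K) : Prk I n K' := fun n' hn' =>
  (Nat.add_le_add_left hK _).trans (h n' hn')

theorem Prk.up (h : Prk I n (K + 1)) : Prk (up I n) n K := by
  intro n' hn'
  have := h n' hn'
  unfold B.up
  rw [if_pos rfl, if_neg (by omega)]
  omega

/-- The translation `y ↦ y + γ`. -/
noncomputable def TT (p n : ℕ) : KP p →ₐ[ZMod p] Polynomial (KP p) :=
  aeval fun x => if x = (0, n) then Polynomial.C (X x) + Polynomial.X else Polynomial.C (X x)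

theorem TT_tt (j k : ℕ) : TT p n (tt p j k) =
    Polynomial.C (tt p j k) + if j = 0 ∧ k = n + 1 then Polynomial.X else 0 := by
  cases k with
  | zero => simp
  | succ k =>
    rw [tt_succ, TT, aeval_X]
    by_cases h : j = 0 ∧ k = n
    · simp [h.1, h.2]
    · rw [if_neg (by simpa using h), if_neg (by omega), add_zero]

theorem TT_tt_pow [Fact p.Prime] (j k a : ℕ) : TT p n (tt p j k ^ p ^ a) =
    Polynomial.C (tt p j k ^ p ^ a) + if j = 0 ∧ k = n + 1 then Polynomial.X ^ p ^ a else 0 := by
  rw [map_pow, TT_tt, add_pow_char_pow, map_pow]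
  congr 1
  split_ifs
  · rfl
  · rw [zero_pow (pow_ne_zero _ (Fact.out (p := p.Prime)).ne_zero)]

theorem TT_cop [Fact p.Prime] (hn : Prk I n K) (b n' r : ℕ) (hr : r < p ^ K) :
    (TT p n (cop p I b (n' + 1))).coeff r = if r = 0 then cop p I b (n' + 1) else
      if b = 0 ∧ n' = n ∧ r = 1 then 1 else 0 := by
  have h1 : ∀ k ∈ range (n' + 1 + 1), (TT p n (tt p (b + 1) k ^ p ^ J I b (n' + 1) *
      tt p b (n' + 1 - k) ^ p ^ (k + J I b (n' + 1) - J I b (n' + 1 - k)))).coeff r =
      (if r = 0 then tt p (b + 1) k ^ p ^ J I b (n' + 1) *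
      tt p b (n' + 1 - k) ^ p ^ (k + J I b (n' + 1) - J I b (n' + 1 - k)) else 0) +
      if k = 0 ∧ b = 0 ∧ n' = n ∧ r = 1 then 1 else 0 := by
    intro k hk
    rw [mem_range] at hk
    rw [map_mul, TT_tt_pow, TT_tt_pow, if_neg (by omega), add_zero, mul_add, ← map_mul,
      Polynomial.coeff_add, Polynomial.coeff_C, Polynomial.coeff_C_mul]
    congr 1
    by_cases h : b = 0 ∧ n' + 1 - k = n + 1
    · rw [if_pos h, Polynomial.coeff_X_pow]
      obtain ⟨rfl, h⟩ := h
      rcases Nat.eq_zero_or_pos k with rfl | hk0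
      · obtain rfl : n' = n := by omega
        simp [J]
      · have h2 := hn n' (by omega)
        have h3 : K ≤ k + J I 0 (n' + 1) - J I 0 (n' + 1 - k) := by
          rw [h]; simp only [J, if_true]; omega
        have h4 := Nat.pow_le_pow_right (Fact.out (p := p.Prime)).pos h3
        rw [if_neg (by omega), if_neg (by omega), mul_zero]
    · rw [if_neg h, Polynomial.coeff_zero, mul_zero, if_neg]
      rintro ⟨rfl, h2, rfl, -⟩
      exact h ⟨h2, by omega⟩
  conv_lhs => rw [cop, map_sum, Polynomial.finsetSum_coeff, sum_congr rfl h1, sum_add_distrib]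
  by_cases hr0 : r = 0
  · subst hr0
    simp [cop]
  · simp only [hr0, if_false, sum_const_zero, zero_add]
    by_cases h : b = 0 ∧ n' = n ∧ r = 1
    · rw [if_pos h, sum_eq_single 0]
      · rw [if_pos ⟨rfl, h⟩]
      · intro k _ hk; rw [if_neg (fun h' => hk h'.1)]
      · simp
    · rw [if_neg h]
      exact sum_eq_zero fun k _ => if_neg fun h' => h h'.2

/-- The coefficients of the translation commute with the faces. -/
theorem TT_ph [Fact p.Prime] (hn : Prk I n K) (i : ℕ) (f : KP p) : ∀ r < p ^ K,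
    (TT p n (ph p I i f)).coeff r = ph p I i ((TT p n f).coeff r) := by
  induction f using MvPolynomial.induction_on with
  | C a =>
    intro r _
    have h1 : ph p I i (C a) = C a := by rw [← algebraMap_eq]; exact AlgHom.commutes _ _
    have h2 : TT p n (C a) = Polynomial.C (C a) := by
      rw [← algebraMap_eq, AlgHom.commutes]; rfl
    rw [h1, h2, Polynomial.coeff_C]
    split_ifs
    · rw [h1]
    · rw [map_zero]
  | add f g hf hg =>
    intro r hr
    rw [map_add, map_add, map_add, Polynomial.coeff_add, Polynomial.coeff_add, map_add, hf r hr,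
      hg r hr]
  | mul_X f x hf =>
    intro r hr
    rw [map_mul, map_mul, map_mul, Polynomial.coeff_mul, Polynomial.coeff_mul, map_sum]
    refine sum_congr rfl fun a ha => ?_
    rw [HasAntidiagonal.mem_antidiagonal] at ha
    rw [map_mul, hf a.1 (by omega)]
    congr 1
    have hr2 : a.2 < p ^ K := by omega
    generalize a.2 = r at hr2
    obtain ⟨b, n'⟩ := x
    have hX : TT p n (X (b, n')) = Polynomial.C (X (b, n')) +
        if b = 0 ∧ n' = n then Polynomial.X else 0 := by
      have := TT_tt (p := p) (n := n) b (n' + 1)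
      simpa using this
    rw [hX, Polynomial.coeff_add, Polynomial.coeff_C]
    have hif : (if b = 0 ∧ n' = n then (Polynomial.X : Polynomial (KP p)) else 0).coeff r =
        if b = 0 ∧ n' = n ∧ r = 1 then 1 else 0 := by
      by_cases h : b = 0 ∧ n' = n
      · rw [if_pos h, Polynomial.coeff_X]
        by_cases h1 : 1 = r
        · rw [if_pos h1, if_pos ⟨h.1, h.2, h1.symm⟩]
        · rw [if_neg h1, if_neg (fun h' => h1 h'.2.2.symm)]
      · rw [if_neg h, if_neg (fun h' => h ⟨h'.1, h'.2.1⟩), Polynomial.coeff_zero]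
    rw [hif, map_add]
    have h3 : ph p I i (if b = 0 ∧ n' = n ∧ r = 1 then 1 else 0 : KP p) =
        if b = 0 ∧ n' = n ∧ r = 1 then 1 else 0 := by split_ifs <;> simp
    rw [h3]
    rcases lt_trichotomy b i with hb | rfl | hb
    · have h4 : ph p I i (X (b, n')) = X (b, n') := by
        rw [← tt_succ]; exact ph_tt_lt hb _
      rw [h4, hX, Polynomial.coeff_add, Polynomial.coeff_C, hif]
      congr 1
      split_ifs
      · rw [h4]
      · rw [map_zero]
    · have h4 : ph p I b (X (b, n')) = cop p I b (n' + 1) := by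
        rw [← tt_succ]; exact ph_tt_eq _ _
      rw [h4, TT_cop hn _ _ _ hr2]
      by_cases h5 : r = 0
      · subst h5
        simp [h4]
      · simp [h5]
    · have h4 : ph p I i (X (b, n')) = X (b + 1, n') := by
        rw [← tt_succ, ph_tt_gt hb, tt_succ]
      have hX' : TT p n (X (b + 1, n')) = Polynomial.C (X (b + 1, n')) := by
        have := TT_tt (p := p) (n := n) (b + 1) (n' + 1)
        simpa using this
      rw [h4, hX', Polynomial.coeff_C, if_neg (show ¬ (b = 0 ∧ n' = n ∧ r = 1) by omega), add_zero]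
      split_ifs
      · rw [h4]
      · rw [map_zero]

/-- The divided power operator of order `p ^ j`. -/
noncomputable def HD (p n j : ℕ) : KP p →+ KP p where
  toFun f := (TT p n f).coeff (p ^ j)
  map_zero' := by simp
  map_add' f g := by rw [map_add, Polynomial.coeff_add]

theorem HD_apply (n j : ℕ) (f : KP p) : HD p n j f = (TT p n f).coeff (p ^ j) := rfl

theorem HD_ph [Fact p.Prime] (hn : Prk I n K) {j : ℕ} (hj : j < K) (i : ℕ) (f : KP p) :
    HD p n j (ph p I i f) = ph p I i (HD p n j f) :=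
  TT_ph hn i f _ (Nat.pow_lt_pow_right (Fact.out (p := p.Prime)).one_lt hj)

theorem HD_dd [Fact p.Prime] (hn : Prk I n K) {j : ℕ} (hj : j < K) (s : ℕ) (f : KP p) :
    HD p n j (dd p I s f) = dd p I s (HD p n j f) := by
  rw [dd_apply, dd_apply, map_sum]
  refine sum_congr rfl fun i _ => ?_
  rw [map_zsmul, HD_ph hn hj]

theorem choose_pow [Fact p.Prime] (a j : ℕ) :
    ((a.choose (p ^ j) : ℕ) : ZMod p) = ((a / p ^ j : ℕ) : ZMod p) := by
  have hp := (Fact.out (p := p.Prime))
  induction j generalizing a with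
  | zero => simp
  | succ j ih =>
    have h1 := Choose.choose_modEq_choose_mod_mul_choose_div_nat (n := a) (k := p ^ (j + 1)) (p := p)
    rw [pow_succ, Nat.mul_mod_left, Nat.choose_zero_right, one_mul,
      Nat.mul_div_cancel _ hp.pos] at h1
    have h2 : ((a.choose (p ^ j * p) : ℕ) : ZMod p) = (((a / p).choose (p ^ j) : ℕ) : ZMod p) :=
      (ZMod.natCast_eq_natCast_iff _ _ _).2 h1
    rw [pow_succ, h2, ih, Nat.div_div_eq_div_mul, mul_comm p]

theorem TT_monomial_ne (e : ℕ × ℕ →₀ ℕ) (he : e (0, n) = 0) (c : ZMod p) :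
    TT p n (monomial e c) = Polynomial.C (monomial e c) := by
  rw [TT, aeval_monomial, monomial_eq, map_mul, Finsupp.prod, Finsupp.prod, map_prod]
  congr 1
  refine prod_congr rfl fun x hx => ?_
  rw [Finsupp.mem_support_iff] at hx
  rw [if_neg (by rintro rfl; exact hx he), map_pow]

theorem HD_monomial [Fact p.Prime] (j : ℕ) (e : ℕ × ℕ →₀ ℕ) (c : ZMod p) :
    HD p n j (monomial e c) =
      monomial (e - Finsupp.single (0, n) (p ^ j)) (c * ((e (0, n) / p ^ j : ℕ) : ZMod p)) := by
  have hp := (Fact.out (p := p.Prime))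
  have h1 : monomial e c = monomial (e.erase (0, n)) c * X (0, n) ^ (e (0, n)) := by
    rw [X_pow_eq_monomial, monomial_mul, mul_one, Finsupp.erase_add_single]
  rw [HD_apply, h1, map_mul, TT_monomial_ne _ (Finsupp.erase_same), map_pow]
  have h2 : TT p n (X (0, n)) = Polynomial.X + Polynomial.C (X (0, n)) := by
    simp [TT, add_comm]
  rw [h2, Polynomial.coeff_C_mul, Polynomial.coeff_X_add_C_pow]
  by_cases h : e (0, n) < p ^ j
  · rw [Nat.choose_eq_zero_of_lt h, Nat.div_eq_of_lt h]
    simp
  · have h3 : (((e (0, n)).choose (p ^ j) : ℕ) : KP p) = C (((e (0, n) / p ^ j : ℕ) : ZMod p)) := by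
      rw [← choose_pow, map_natCast]
    rw [h3, mul_comm (X (0, n) ^ _), ← mul_assoc, mul_comm _ (C _), C_mul_monomial,
      X_pow_eq_monomial, monomial_mul, mul_one, mul_comm c]
    have h4 : e.erase (0, n) + Finsupp.single (0, n) (e (0, n) - p ^ j) =
        e - Finsupp.single (0, n) (p ^ j) := by
      refine Finsupp.ext fun x => ?_
      rw [Finsupp.add_apply, Finsupp.tsub_apply, Finsupp.single_apply, Finsupp.single_apply]
      by_cases hx : (0, n) = x
      · subst hx; simp
      · rw [if_neg hx, if_neg hx, Finsupp.erase_ne (Ne.symm hx)]; simp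
    rw [h4]

theorem coeff_HD [Fact p.Prime] (j : ℕ) (f : KP p) (e : ℕ × ℕ →₀ ℕ) :
    coeff e (HD p n j f) = coeff (e + Finsupp.single (0, n) (p ^ j)) f *
      ((e (0, n) / p ^ j + 1 : ℕ) : ZMod p) := by
  classical
  have hp := (Fact.out (p := p.Prime))
  induction f using MvPolynomial.induction_on' with
  | monomial e' a =>
    rw [HD_monomial, coeff_monomial, coeff_monomial]
    by_cases h : e' = e + Finsupp.single (0, n) (p ^ j)
    · subst h
      rw [if_pos (add_tsub_cancel_right _ _), if_pos rfl]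
      congr 2
      rw [Finsupp.add_apply, Finsupp.single_eq_same, Nat.add_div_right _ (pow_pos hp.pos _)]
    · rw [if_neg h, zero_mul]
      split_ifs with h1
      · have h2 : e' (0, n) < p ^ j := by
          by_contra h3
          apply h
          rw [← h1]
          refine Finsupp.ext fun x => ?_
          rw [Finsupp.add_apply, Finsupp.tsub_apply, Finsupp.single_apply]
          split_ifs with hx
          · subst hx; omega
          · omega
        rw [Nat.div_eq_of_lt h2]; simp
      · rfl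
  | add f g hf hg => rw [map_add, coeff_add, coeff_add, hf, hg, add_mul]

theorem coeff_HD_iter [Fact p.Prime] (j k : ℕ) (f : KP p) (e : ℕ × ℕ →₀ ℕ) :
    coeff e ((HD p n j)^[k] f) = coeff (e + Finsupp.single (0, n) (k * p ^ j)) f *
      (((e (0, n) / p ^ j + k).descFactorial k : ℕ) : ZMod p) := by
  have hp := (Fact.out (p := p.Prime))
  induction k generalizing e with
  | zero => simp
  | succ k ih =>
    rw [Function.iterate_succ_apply', coeff_HD, ih, add_assoc, ← Finsupp.single_add, mul_assoc]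
    congr 2
    · congr 2; ring
    · rw [Finsupp.add_apply, Finsupp.single_eq_same, Nat.add_div_right _ (pow_pos hp.pos _),
        ← Nat.cast_mul]
      congr 1
      generalize e (0, n) / p ^ j = q
      rw [Nat.descFactorial_succ, show q.succ + k = q + (k + 1) by omega,
        show q + (k + 1) - k = q + 1 by omega]
      ring

theorem HD_iter_p [Fact p.Prime] (j : ℕ) (f : KP p) : (HD p n j)^[p] f = 0 := by
  have hp := (Fact.out (p := p.Prime))
  ext e
  rw [coeff_HD_iter, coeff_zero]
  have : (((e (0, n) / p ^ j + p).descFactorial p : ℕ) : ZMod p) = 0 := by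
    rw [ZMod.natCast_eq_zero_iff]
    exact (Nat.dvd_factorial hp.pos le_rfl).trans (Nat.factorial_dvd_descFactorial _ _)
  rw [this, mul_zero]

theorem HD_eq_zero [Fact p.Prime] (j : ℕ) (f : KP p) :
    HD p n j f = 0 ↔ ∀ e ∈ f.support, p ∣ e (0, n) / p ^ j := by
  have hp := (Fact.out (p := p.Prime))
  constructor
  · intro h e he
    by_cases h1 : e (0, n) < p ^ j
    · rw [Nat.div_eq_of_lt h1]; exact dvd_zero _
    have h2 := coeff_HD (n := n) j f (e - Finsupp.single (0, n) (p ^ j))
    have h3 : e - Finsupp.single (0, n) (p ^ j) + Finsupp.single (0, n) (p ^ j) = e := by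
      refine Finsupp.ext fun x => ?_
      rw [Finsupp.add_apply, Finsupp.tsub_apply, Finsupp.single_apply]
      split_ifs with hx
      · subst hx; omega
      · omega
    have h4 : (e - Finsupp.single (0, n) (p ^ j) : ℕ × ℕ →₀ ℕ) (0, n) / p ^ j + 1 =
        e (0, n) / p ^ j := by
      rw [Finsupp.tsub_apply, Finsupp.single_eq_same, ← Nat.add_div_right _ (pow_pos hp.pos _)]
      congr 1; omega
    rw [h, h3, h4, coeff_zero] at h2
    rcases mul_eq_zero.1 h2.symm with h5 | h5
    · rw [mem_support_iff] at he; exact absurd h5 he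
    · rwa [ZMod.natCast_eq_zero_iff] at h5
  · intro h
    ext e
    rw [coeff_HD, coeff_zero]
    by_cases h1 : coeff (e + Finsupp.single (0, n) (p ^ j)) f = 0
    · rw [h1, zero_mul]
    · have h2 := h _ (mem_support_iff.2 h1)
      rw [Finsupp.add_apply, Finsupp.single_eq_same, Nat.add_div_right _ (pow_pos hp.pos _)] at h2
      rw [(ZMod.natCast_eq_zero_iff _ _).2 h2, mul_zero]

/-- The exponents under the operator. -/
theorem HD_mem [Fact p.Prime] {j : ℕ} {f : KP p} (hf : f ∈ KK p m I s N) :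
    HD p n j f ∈ KK p m I s (N - p ^ j * wI p I (0, n)) := by
  intro e he
  rw [mem_support_iff, coeff_HD] at he
  have h1 := hf (e + Finsupp.single (0, n) (p ^ j)) (by
    rw [mem_support_iff]; intro h; rw [h, zero_mul] at he; exact he rfl)
  refine ⟨fun y hy => h1.1 y ?_, ?_⟩
  · rw [Finsupp.mem_support_iff] at hy ⊢
    simp [hy]
  · have h2 := h1.2
    rw [Finsupp.sum_add_index' (by simp) (by intros; ring),
      Finsupp.sum_single_index (by simp)] at h2
    push_cast at h2 ⊢
    linarith

/-- The cochains whose coefficients have `y`-exponents `< p ^ j` modulo `p ^ K`. -/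
noncomputable def KT (p m : ℕ) (I : ℕ → ℕ) (n K j s : ℕ) (N : ℤ) : AddSubgroup (KP p) where
  carrier := {f | f ∈ KK p m I s N ∧ ∀ e ∈ f.support, e (0, n) % p ^ K < p ^ j}
  zero_mem' := by simp
  add_mem' := by
    classical
    rintro f g ⟨hf, hf'⟩ ⟨hg, hg'⟩
    refine ⟨add_mem hf hg, fun e he => ?_⟩
    rcases mem_union.1 (support_add he) with h | h
    · exact hf' e h
    · exact hg' e h
  neg_mem' := by
    rintro f ⟨hf, hf'⟩
    exact ⟨neg_mem hf, fun e he => hf' e (by rwa [support_neg] at he)⟩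

theorem mem_KT {j : ℕ} {f : KP p} : f ∈ KT p m I n K j s N ↔
    f ∈ KK p m I s N ∧ ∀ e ∈ f.support, e (0, n) % p ^ K < p ^ j := Iff.rfl

theorem KT_top [Fact p.Prime] : KT p m I n K K s N = KK p m I s N := by
  have hp := (Fact.out (p := p.Prime))
  ext f
  rw [mem_KT]
  exact ⟨fun h => h.1, fun h => ⟨h, fun e _ => Nat.mod_lt _ (pow_pos hp.pos _)⟩⟩

theorem digit_iff (hp : 2 ≤ p) {j : ℕ} (hj : j < K) (a : ℕ) :
    a % p ^ K < p ^ j ↔ a % p ^ K < p ^ (j + 1) ∧ p ∣ a / p ^ j := by
  have h0 : 0 < p ^ j := pow_pos (by omega) _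
  have h1 : p ∣ a / p ^ j ↔ p ∣ a % p ^ K / p ^ j := by
    obtain ⟨k, hk⟩ : ∃ k, K = j + (k + 1) := ⟨K - j - 1, by omega⟩
    have h2 : a / p ^ j = a % p ^ K / p ^ j + p * (p ^ k * (a / p ^ K)) := by
      conv_lhs => rw [← Nat.mod_add_div a (p ^ K)]
      have : p ^ K * (a / p ^ K) = p ^ j * (p * (p ^ k * (a / p ^ K))) := by
        rw [← mul_assoc p, ← pow_succ', ← mul_assoc, ← pow_add, ← hk]
      rw [this, Nat.add_mul_div_left _ _ h0]
    rw [h2]
    exact Nat.dvd_add_left (dvd_mul_right _ _)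
  rw [h1]
  constructor
  · intro h
    refine ⟨h.trans_le (Nat.pow_le_pow_right (by omega) (by omega)), ?_⟩
    rw [Nat.div_eq_of_lt h]; exact dvd_zero _
  · rintro ⟨h2, h3⟩
    have h4 : a % p ^ K / p ^ j < p := by
      rw [Nat.div_lt_iff_lt_mul h0, ← pow_succ']; exact h2
    have h5 := Nat.eq_zero_of_dvd_of_lt h3 h4
    rw [Nat.div_eq_zero_iff] at h5
    omega

theorem KT_succ [Fact p.Prime] {j : ℕ} (hj : j < K) {f : KP p} : f ∈ KT p m I n K j s N ↔
    f ∈ KT p m I n K (j + 1) s N ∧ HD p n j f = 0 := by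
  have hp := (Fact.out (p := p.Prime))
  rw [mem_KT, mem_KT, HD_eq_zero, and_assoc]
  refine and_congr_right fun _ => ?_
  constructor
  · intro h
    exact ⟨fun e he => ((digit_iff hp.two_le hj _).1 (h e he)).1,
      fun e he => ((digit_iff hp.two_le hj _).1 (h e he)).2⟩
  · rintro ⟨h1, h2⟩ e he
    exact (digit_iff hp.two_le hj _).2 ⟨h1 e he, h2 e he⟩

theorem dd_mem_KT [Fact p.Prime] (hI : Ok I) (hn : Prk I n K) {j : ℕ} (hj : j ≤ K) {f : KP p}
    (hf : f ∈ KT p m I n K j s N) : dd p I s f ∈ KT p m I n K j (s + 1) N := by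
  obtain ⟨d, hd⟩ : ∃ d, K = j + d := ⟨K - j, by omega⟩
  induction d generalizing j with
  | zero =>
    obtain rfl : K = j := hd
    rw [KT_top] at hf ⊢
    exact (KI p m I hI).d_mem _ _ _ hf
  | succ d ih =>
    rw [KT_succ (by omega)] at hf ⊢
    exact ⟨ih (by omega) hf.1 (by omega), by rw [HD_dd hn (by omega), hf.2, map_zero]⟩

/-- The complex with truncated coefficients. -/
noncomputable def KTI (p : ℕ) [Fact p.Prime] (m : ℕ) (I : ℕ → ℕ) (hI : Ok I) (n K : ℕ)
    (hn : Prk I n K) (j : ℕ) (hj : j ≤ K) : Cpx (KP p) where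
  K s N := KT p m I n K j s N
  d := dd p I
  d_mem _ _ _ hf := dd_mem_KT hI hn hj hf
  d_d s N f _ := dd_dd hI s f

theorem mod_add (hp : 2 ≤ p) {j : ℕ} (hj : j < K) {a c : ℕ} (h : a % p ^ K < p ^ (j + 1))
    (hc : a / p ^ j % p + c < p) : (a + c * p ^ j) % p ^ K < p ^ (j + 1) := by
  have h0 : 0 < p ^ j := pow_pos (by omega) _
  have h1 : a / p ^ j % p = a % p ^ K / p ^ j := by
    obtain ⟨k, hk⟩ : ∃ k, K = j + (k + 1) := ⟨K - j - 1, by omega⟩
    have h2 : a / p ^ j = a % p ^ K / p ^ j + p * (p ^ k * (a / p ^ K)) := by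
      conv_lhs => rw [← Nat.mod_add_div a (p ^ K)]
      have : p ^ K * (a / p ^ K) = p ^ j * (p * (p ^ k * (a / p ^ K))) := by
        rw [← mul_assoc p, ← pow_succ', ← mul_assoc, ← pow_add, ← hk]
      rw [this, Nat.add_mul_div_left _ _ h0]
    rw [h2, Nat.add_mul_mod_self_left]
    refine Nat.mod_eq_of_lt ?_
    rw [Nat.div_lt_iff_lt_mul h0, ← pow_succ']; exact h
  rw [h1] at hc
  have h3 : a % p ^ K + c * p ^ j < p ^ (j + 1) := by
    have h4 := Nat.div_add_mod (a % p ^ K) (p ^ j)
    have h5 := Nat.mod_lt (a % p ^ K) h0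
    have h6 : (a % p ^ K / p ^ j + c + 1) * p ^ j ≤ p * p ^ j := Nat.mul_le_mul_right _ (by omega)
    rw [pow_succ']
    nlinarith
  have h7 : p ^ (j + 1) ≤ p ^ K := Nat.pow_le_pow_right (by omega) (by omega)
  rw [← Nat.mod_add_mod, Nat.mod_eq_of_lt (by omega)]
  exact h3

theorem HD_mem_KT [Fact p.Prime] {j : ℕ} (hj : j < K) {f : KP p}
    (hf : f ∈ KT p m I n K (j + 1) s N) :
    HD p n j f ∈ KT p m I n K (j + 1) s (N - p ^ j * wI p I (0, n)) := by
  have hp := (Fact.out (p := p.Prime))
  refine ⟨HD_mem hf.1, fun e he => ?_⟩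
  rw [mem_support_iff, coeff_HD] at he
  have h1 := hf.2 (e + Finsupp.single (0, n) (p ^ j)) (by
    rw [mem_support_iff]; intro h; rw [h, zero_mul] at he; exact he rfl)
  rw [Finsupp.add_apply, Finsupp.single_eq_same] at h1
  have h2 : ¬ p ∣ e (0, n) / p ^ j + 1 := by
    intro h; rw [(ZMod.natCast_eq_zero_iff _ _).2 h, mul_zero] at he; exact he rfl
  by_contra h3
  have h4 : (e (0, n) + p ^ j) % p ^ K < p ^ (j + 1) ∧ ¬ p ∣ (e (0, n) + p ^ j) / p ^ j := by
    refine ⟨h1, ?_⟩
    rwa [Nat.add_div_right _ (pow_pos hp.pos _)]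
  have h5 : p ^ j ≤ (e (0, n) + p ^ j) % p ^ K := by
    by_contra h6
    exact h4.2 ((digit_iff hp.two_le hj _).1 (by omega)).2
  have h6 : p ^ j < p ^ K := Nat.pow_lt_pow_right hp.one_lt hj
  have h7 : (e (0, n) + p ^ j) % p ^ K = (e (0, n) % p ^ K + p ^ j) % p ^ K := by
    rw [Nat.mod_add_mod]
  have h8 := Nat.mod_lt (e (0, n)) (show 0 < p ^ K by omega)
  rw [h7] at h5 h1
  rcases Nat.lt_or_ge (e (0, n) % p ^ K + p ^ j) (p ^ K) with h9 | h9
  · rw [Nat.mod_eq_of_lt h9] at h1; omega
  · rw [Nat.mod_eq_sub_mod h9, Nat.mod_eq_of_lt (by omega)] at h5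
    omega

theorem descFactorial_ne [Fact p.Prime] {a : ℕ} (h : p ∣ a + 1) :
    ((a.descFactorial (p - 1) : ℕ) : ZMod p) = -1 := by
  have hp := (Fact.out (p := p.Prime))
  have h1 : ((a + 1 : ℕ) : ZMod p) = 0 := (ZMod.natCast_eq_zero_iff _ _).2 h
  have h2 : ∀ k < p, ((a.descFactorial k : ℕ) : ZMod p) =
      (((p - 1).descFactorial k : ℕ) : ZMod p) := by
    intro k
    induction k with
    | zero => simp
    | succ k ih =>
      intro hk
      rw [Nat.descFactorial_succ, Nat.descFactorial_succ, Nat.cast_mul, Nat.cast_mul, ih (by omega)]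
      congr 1
      have h3 : k ≤ a := by
        have := Nat.le_of_dvd (Nat.succ_pos _) h
        omega
      have h4 : ((p - 1 - k : ℕ) : ZMod p) = -1 - k := by
        rw [Nat.sub_sub, Nat.cast_sub (show 1 + k ≤ p by omega), ZMod.natCast_self]
        push_cast; ring
      rw [Nat.cast_sub h3, h4]
      push_cast at h1
      linear_combination h1
  have hp2 := hp.two_le
  rw [h2 (p - 1) (by omega), Nat.descFactorial_self, ZMod.wilsons_lemma]

/-- The operator of order `p ^ j` on the complex with exponents `< p ^ (j + 1)`. -/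
theorem derH [Fact p.Prime] (hI : Ok I) (hm : n < m) (hn : Prk I n K) {j : ℕ} (hj : j < K) :
    Cpx.Der (KTI p m I hI n K hn (j + 1) hj) p (p ^ j * wI p I (0, n)) (HD p n j) where
  mem s N f hf := HD_mem_KT hj hf
  comm s N f _ := HD_dd hn hj s f
  pow s N f _ := HD_iter_p j f
  ex1 s N f hf hD := by
    classical
    have hp := (Fact.out (p := p.Prime))
    have key : ∀ e ∈ f.support, ¬ p ∣ e (0, n) / p ^ j + 1 := by
      intro e he hd
      have h0 : (p - 1) * p ^ j ≤ e (0, n) := by
        rw [← Nat.le_div_iff_mul_le (pow_pos hp.pos _)]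
        have := Nat.le_of_dvd (Nat.succ_pos _) hd
        generalize e (0, n) / p ^ j = q at this ⊢
        omega
      have h1 := coeff_HD_iter (n := n) j (p - 1) f (e - Finsupp.single (0, n) ((p - 1) * p ^ j))
      have h3 : e - Finsupp.single (0, n) ((p - 1) * p ^ j) +
          Finsupp.single (0, n) ((p - 1) * p ^ j) = e := by
        refine Finsupp.ext fun x => ?_
        rw [Finsupp.add_apply, Finsupp.tsub_apply, Finsupp.single_apply]
        split_ifs with hx
        · subst hx; omega
        · omega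
      have h4 : (e - Finsupp.single (0, n) ((p - 1) * p ^ j) : ℕ × ℕ →₀ ℕ) (0, n) / p ^ j +
          (p - 1) = e (0, n) / p ^ j := by
        rw [Finsupp.tsub_apply, Finsupp.single_eq_same, ← Nat.add_mul_div_right _ _
          (pow_pos hp.pos _)]
        congr 1; omega
      have hD' : (HD p n j)^[p - 1] f = 0 := hD
      rw [hD', h3, h4, descFactorial_ne hd, coeff_zero, mul_neg, mul_one] at h1
      rw [mem_support_iff] at he
      exact he (neg_eq_zero.1 h1.symm)
    refine ⟨∑ e ∈ f.support, monomial (e + Finsupp.single (0, n) (p ^ j))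
      (coeff e f * ((e (0, n) / p ^ j + 1 : ℕ) : ZMod p)⁻¹), sum_mem fun e he => ⟨?_, ?_⟩, ?_⟩
    · intro e' he'
      have h1 := support_monomial_subset he'
      rw [Finset.mem_singleton] at h1
      subst h1
      obtain ⟨h2, h3⟩ := hf.1 e he
      refine ⟨fun x hx => ?_, ?_⟩
      · rcases mem_union.1 (Finsupp.support_add hx) with h | h
        · exact h2 x h
        · have := Finsupp.support_single_subset h
          rw [Finset.mem_singleton] at this
          subst this
          exact ⟨Nat.zero_le _, hm⟩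
      · rw [Finsupp.sum_add_index' (by simp) (by intros; ring),
          Finsupp.sum_single_index (by simp)]
        push_cast at h3 ⊢
        linarith
    · intro e' he'
      have h1 := support_monomial_subset he'
      rw [Finset.mem_singleton] at h1
      subst h1
      have h2 := hf.2 e he
      have h3 := key e he
      rw [Finsupp.add_apply, Finsupp.single_eq_same]
      have := mod_add (c := 1) hp.two_le hj h2 (by
        have h4 := Nat.mod_lt (e (0, n) / p ^ j) hp.pos
        rcases Nat.lt_or_ge (e (0, n) / p ^ j % p + 1) p with h5 | h5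
        · exact h5
        · exfalso
          apply h3
          rw [Nat.dvd_iff_mod_eq_zero, Nat.add_mod, Nat.mod_eq_of_lt (show 1 < p from hp.one_lt),
            show e (0, n) / p ^ j % p + 1 = p by omega, Nat.mod_self])
      rwa [one_mul] at this
    · rw [map_sum]
      conv_rhs => rw [f.as_sum]
      refine sum_congr rfl fun e he => ?_
      rw [HD_monomial, add_tsub_cancel_right, Finsupp.add_apply, Finsupp.single_eq_same,
        Nat.add_div_right _ (pow_pos hp.pos _), mul_assoc, inv_mul_cancel₀, mul_one]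
      rw [Ne, ZMod.natCast_eq_zero_iff]
      exact key e he
  ex2 s N f hf hD := by
    classical
    have hp := (Fact.out (p := p.Prime))
    have hD' : HD p n j f = 0 := hD
    rw [HD_eq_zero] at hD'
    have hpe : ((p - 1 : ℕ) : ℤ) = (p - 1 : ℤ) := by
      push_cast [Nat.cast_sub hp.one_le]; ring
    refine ⟨-(X (0, n) ^ ((p - 1) * p ^ j) * f), neg_mem ⟨?_, ?_⟩, ?_⟩
    · have h1 := KK.mul (KK.pow (KK.X (p := p) (I := I) (s := s) (x := (0, n)) (by simp) hm)
        ((p - 1) * p ^ j)) hf.1
      rwa [show (((p - 1) * p ^ j : ℕ) : ℤ) * wI p I (0, n) + N =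
        N + (p - 1 : ℤ) * ((p : ℤ) ^ j * wI p I (0, n)) by
        push_cast [hpe]; ring] at h1
    · intro e he
      rw [X_pow_eq_monomial] at he
      obtain ⟨a, ha, b, hb, rfl⟩ := mem_add.1 (support_mul _ _ he)
      have h1 := support_monomial_subset ha
      rw [Finset.mem_singleton] at h1
      subst h1
      rw [Finsupp.add_apply, Finsupp.single_eq_same, add_comm]
      refine mod_add hp.two_le hj (hf.2 b hb) ?_
      rw [Nat.dvd_iff_mod_eq_zero.1 (hD' b hb)]
      omega
    · have h1 : ∀ k (g : KP p), (HD p n j)^[k] (-g) = - (HD p n j)^[k] g := by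
        intro k
        induction k with
        | zero => intro g; rfl
        | succ k ih =>
          intro g
          rw [Function.iterate_succ_apply', ih, map_neg, Function.iterate_succ_apply']
      change (HD p n j)^[p - 1] _ = f
      rw [h1]
      ext e
      rw [coeff_neg, coeff_HD_iter, X_pow_eq_monomial, add_comm e, coeff_monomial_mul, one_mul]
      by_cases he : coeff e f = 0
      · rw [he, zero_mul, neg_zero]
      · have h2 := hD' e (mem_support_iff.2 he)
        rw [descFactorial_ne (by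
          rw [show e (0, n) / p ^ j + (p - 1) + 1 = e (0, n) / p ^ j + p by
            have := hp.one_le; omega]
          exact dvd_add h2 dvd_rfl)]
        ring

/-- The kernel of the operator of order `p ^ j` is the next complex. -/
theorem iso_KTI [Fact p.Prime] (hI : Ok I) (hm : n < m) (hn : Prk I n K) {j : ℕ} (hj : j < K) :
    Cpx.Iso (KTI p m I hI n K hn j hj.le) ((KTI p m I hI n K hn (j + 1) hj).Ker (derH hI hm hn hj))
      (AddMonoidHom.id _) where
  mem s N f hf := (KT_succ hj).1 hf
  comm s N f _ := rfl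
  inj := fun _ _ h => h
  surj s N g hg := ⟨g, (KT_succ hj).2 hg, rfl⟩

/-- One step of the tower. -/
theorem towerH [Fact p.Prime] (hI : Ok I) (hm : n < m) (hn : Prk I n K) {j : ℕ} (hj : j < K)
    (s : ℕ) (N : ℤ) (H : ∀ s' ε k : ℕ, ε ≤ 1 → s = s' + ε + 2 * k →
      (KTI p m I hI n K hn (j + 1) hj).Ex s' (N - (ε + p * k) * (p ^ j * wI p I (0, n)))) :
    (KTI p m I hI n K hn j hj.le).Ex s N :=
  (iso_KTI hI hm hn hj).ex_iff.1
    ((derH hI hm hn hj).tower (Fact.out (p := p.Prime)).one_le s N H)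

/-- `y ↦ y ^ p` identifies the bottom complexes. -/
theorem iso_bot [Fact p.Prime] (hI : Ok I) (hn : Prk I n (K + 1)) :
    Cpx.Iso (KTI p m (up I n) (up_ok hI (hn.mono (by omega))) n K hn.up 0 (Nat.zero_le _))
      (KTI p m I hI n (K + 1) hn 0 (Nat.zero_le _)) (rho p n).toRingHom.toAddMonoidHom where
  mem s N f hf := by
    have hp := (Fact.out (p := p.Prime))
    refine ⟨(rho_mem_iff n).2 hf.1, fun e he => ?_⟩
    have h1 : rho p n f = ∑ e ∈ f.support, monomial (ex p n e) (coeff e f) := by
      conv_lhs => rw [f.as_sum, map_sum]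
      exact sum_congr rfl fun e _ => rho_monomial n e _
    change e ∈ (rho p n f).support at he
    rw [h1] at he
    obtain ⟨e', he', he2⟩ := mem_biUnion.1 (support_sum he)
    have h2 := support_monomial_subset he2
    rw [Finset.mem_singleton] at h2
    subst h2
    have h3 := hf.2 e' he'
    have h4 : ex p n e' (0, n) = p * e' (0, n) := by
      rw [ex, Finsupp.add_apply, Finsupp.single_eq_same]
      obtain ⟨q, hq⟩ : ∃ q, p = q + 1 := ⟨p - 1, by have := hp.one_le; omega⟩
      rw [hq, Nat.add_sub_cancel]; ring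
    rw [h4, pow_succ', Nat.mul_mod_mul_left]
    rw [pow_zero] at h3 ⊢
    rw [Nat.lt_one_iff.1 h3, mul_zero]; exact Nat.one_pos
  comm s N f _ := by
    change rho p n (dd p (up I n) s f) = dd p I s (rho p n f)
    rw [dd_apply, dd_apply, map_sum]
    refine sum_congr rfl fun i _ => ?_
    rw [map_zsmul, rho_ph hI (hn.mono (by omega))]
  inj := rho_inj n
  surj s N g hg := by
    have hp := (Fact.out (p := p.Prime))
    have hg0 : pderiv ((0, n) : ℕ × ℕ) g = 0 := by
      ext e
      rw [coeff_pderiv, coeff_zero]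
      by_cases h : coeff (e + Finsupp.single (0, n) 1) g = 0
      · rw [h, zero_mul]
      · have h1 := hg.2 _ (mem_support_iff.2 h)
        rw [pow_zero, Nat.lt_one_iff, ← Nat.dvd_iff_mod_eq_zero] at h1
        have h2 : p ∣ (e + Finsupp.single (0, n) 1 : ℕ × ℕ →₀ ℕ) (0, n) :=
          (dvd_pow_self p (Nat.succ_ne_zero K)).trans h1
        rw [Finsupp.add_apply, Finsupp.single_eq_same] at h2
        have h3 := (ZMod.natCast_eq_zero_iff _ _).2 h2
        push_cast at h3
        rw [h3, mul_zero]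
    obtain ⟨f, rfl⟩ := rho_surj n hg0
    refine ⟨f, ⟨(rho_mem_iff n).1 hg.1, fun e he => ?_⟩, rfl⟩
    have h1 := hg.2 (ex p n e) (by rwa [mem_support_iff, coeff_rho, ← mem_support_iff])
    have h4 : ex p n e (0, n) = p * e (0, n) := by
      rw [ex, Finsupp.add_apply, Finsupp.single_eq_same]
      obtain ⟨q, hq⟩ : ∃ q, p = q + 1 := ⟨p - 1, by have := hp.one_le; omega⟩
      rw [hq, Nat.add_sub_cancel]; ring
    rw [h4, pow_succ', Nat.mul_mod_mul_left, pow_zero, Nat.lt_one_iff, Nat.mul_eq_zero] at h1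
    rcases h1 with h1 | h1
    · exact absurd h1 hp.ne_zero
    · rw [h1, pow_zero]; exact Nat.one_pos

/-- The threshold of `t_(n+1)` is raised by `K`. -/
def upn (I : ℕ → ℕ) (n : ℕ) : ℕ → ℕ → ℕ
  | 0 => I
  | K + 1 => up (upn I n K) n

theorem upn_succ (I : ℕ → ℕ) (n K : ℕ) : upn (up I n) n K = upn I n (K + 1) := by
  induction K with
  | zero => rfl
  | succ K ih => rw [upn, ih]; rfl

theorem upn_apply (I : ℕ → ℕ) (n K a : ℕ) :
    upn I n K a = if a = n + 1 then I a + K else I a := by
  induction K with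
  | zero => simp [upn]
  | succ K ih =>
    rw [upn, up, ih]
    split_ifs <;> rfl

theorem upn_ok (hI : Ok I) (hn : Prk I n K) : Ok (upn I n K) := by
  intro a b
  rw [upn_apply, upn_apply]
  have h1 := hI a b
  split_ifs with h2 h3
  · omega
  · have := hn (a + b - 1) (by omega)
    rw [h2] at *
    rw [show n + 1 + b - 1 + 1 = n + 1 + b by omega] at this
    omega
  · omega
  · omega

/-- The complex with exponents `≡ 0 mod p ^ K`. -/
theorem ex_bot [Fact p.Prime] (K : ℕ) {I : ℕ → ℕ} (hI : Ok I) (hn : Prk I n K) {s : ℕ} {N : ℤ} :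
    (KTI p m I hI n K hn 0 (Nat.zero_le _)).Ex s N ↔ (KI p m (upn I n K) (upn_ok hI hn)).Ex s N := by
  induction K generalizing I with
  | zero =>
    have h : ∀ s N f, f ∈ KT p m I n 0 0 s N ↔ f ∈ KK p m I s N := fun s N f => by rw [KT_top]
    have : Cpx.Iso (KTI p m I hI n 0 hn 0 (Nat.zero_le _)) (KI p m (upn I n 0) (upn_ok hI hn))
        (AddMonoidHom.id _) :=
      ⟨fun s N f hf => (h s N f).1 hf, fun _ _ _ _ => rfl, fun _ _ h => h,
        fun s N g hg => ⟨g, (h s N g).2 hg, rfl⟩⟩
    exact this.ex_iff.symm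
  | succ K ih =>
    rw [(iso_bot hI hn).ex_iff, ih]
    have := upn_succ I n K
    congr! 3

end Vale.Agent.P257.B
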