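import Mathlib
import Vale.Agent.P257.B.Hasse
import Vale.Agent.P257.N.Basic

/-! Exactness of the complexes with coefficients in all of `P`, and exactness by counting. -/

namespace Vale.Agent.P257.B

open MvPolynomial Finset Vale.Agent.P257.Q.PC Vale.Agent.P257.X Vale.Agent.P257.N

variable {p m : ℕ} {I : ℕ → ℕ} {s : ℕ} {N M : ℤ} {n K : ℕ}

/-- Kill block `0` and shift. -/
noncomputable def sg (p : ℕ) : KP p →ₐ[ZMod p] KP p :=
  aeval fun x => if x.1 = 0 then 0 else X (x.1 - 1, x.2)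

theorem sg_tt_zero (k : ℕ) : sg p (tt p 0 k) = if k = 0 then 1 else 0 := by
  cases k with
  | zero => simp
  | succ k => simp [sg]

theorem sg_tt_succ (j k : ℕ) : sg p (tt p (j + 1) k) = tt p j k := by
  cases k with
  | zero => simp
  | succ k => simp [sg]

theorem J_zero (i k : ℕ) : J (fun _ => 0) i k = 0 := by simp [J]

theorem ok_zero : Ok (fun _ => 0) := fun _ _ => Nat.zero_le _

theorem sg_cop_zero (hp : p ≠ 0) (k : ℕ) : sg p (cop p (fun _ => 0) 0 k) = tt p 0 k := by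
  unfold cop
  rw [map_sum, sum_eq_single k]
  · simp [J_zero, sg_tt_succ]
  · intro l hl hlk
    rw [mem_range] at hl
    rw [map_mul, map_pow, map_pow, sg_tt_zero, if_neg (by omega), zero_pow (pow_ne_zero _ hp),
      mul_zero]
  · simp

theorem sg_cop_succ (i k : ℕ) : sg p (cop p (fun _ => 0) (i + 1) k) = cop p (fun _ => 0) i k := by
  unfold cop
  rw [map_sum]
  refine sum_congr rfl fun l _ => ?_
  rw [map_mul, map_pow, map_pow, sg_tt_succ, sg_tt_succ]
  simp only [J_zero]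

theorem sg_ph_zero (hp : p ≠ 0) (f : KP p) : sg p (ph p (fun _ => 0) 0 f) = f := by
  suffices H : (sg p).comp (ph p (fun _ => 0) 0) = AlgHom.id _ _ from
    congrArg (fun g : KP p →ₐ[ZMod p] KP p => g f) H
  ext1 ⟨b, k⟩
  rw [AlgHom.comp_apply, AlgHom.id_apply, ← tt_succ]
  cases b with
  | zero => rw [ph_tt_eq, sg_cop_zero hp]
  | succ b => rw [ph_tt_gt (Nat.succ_pos _), sg_tt_succ]

theorem sg_ph_succ (hp : p ≠ 0) (i : ℕ) (f : KP p) :
    sg p (ph p (fun _ => 0) (i + 1) f) = ph p (fun _ => 0) i (sg p f) := by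
  suffices H : (sg p).comp (ph p (fun _ => 0) (i + 1)) = (ph p (fun _ => 0) i).comp (sg p) from
    congrArg (fun g : KP p →ₐ[ZMod p] KP p => g f) H
  ext1 ⟨b, k⟩
  rw [AlgHom.comp_apply, AlgHom.comp_apply, ← tt_succ]
  rcases b with _ | b
  · rw [ph_tt_lt (Nat.succ_pos _), sg_tt_zero, if_neg (by omega), map_zero]
  rw [sg_tt_succ]
  rcases lt_trichotomy b i with h | rfl | h
  · rw [ph_tt_lt (Nat.succ_lt_succ h), sg_tt_succ, ph_tt_lt h]
  · rw [ph_tt_eq, ph_tt_eq, sg_cop_succ]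
  · rw [ph_tt_gt (Nat.succ_lt_succ h), sg_tt_succ, ph_tt_gt h]

theorem sg_mem {f : KP p} (hf : f ∈ KK p m (fun _ => 0) (s + 1) N) :
    sg p f ∈ KK p m (fun _ => 0) s N := by
  refine KK.map _ ?_ hf
  rintro ⟨b, k⟩ h1 h2
  rcases b with _ | b
  · simp only [sg, aeval_X, if_true]; exact zero_mem _
  · have : sg p (X (b + 1, k)) = X (b, k) := by simp [sg]
    rw [this, show wI p (fun _ => 0) (b + 1, k) = wI p (fun _ => 0) (b, k) by simp [wI, J_zero]]
    exact KK.X (x := (b, k)) (by simpa using h1) h2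

/-- A polynomial in block `0` is killed by `sg`, up to the constant term. -/
theorem sg_zero {f : KP p} (hf : f ∈ KK p m (fun _ => 0) 0 N) : sg p f = C (coeff 0 f) := by
  classical
  conv_lhs => rw [f.as_sum, map_sum]
  have h1 : ∀ e ∈ f.support, sg p (monomial e (coeff e f)) = if e = 0 then C (coeff 0 f) else 0 := by
    intro e he
    split_ifs with h
    · subst h
      rw [sg, aeval_monomial]; simp
    · obtain ⟨x, hx⟩ := Finsupp.support_nonempty_iff.2 h
      have h2 := ((hf e he).1 x hx).1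
      rw [sg, aeval_monomial, Finsupp.prod, prod_eq_zero hx, mul_zero]
      rw [if_pos (by omega), zero_pow (Finsupp.mem_support_iff.1 hx)]
  rw [sum_congr rfl h1, sum_ite_eq']
  split_ifs with h
  · rfl
  · rw [notMem_support_iff.1 h, map_zero]

theorem coeff_zero_of_ne {f : KP p} (hf : f ∈ KK p m I s N) (hN : N ≠ 0) : coeff 0 f = 0 := by
  by_contra h
  have := (hf 0 (mem_support_iff.2 h)).2
  rw [Finsupp.sum_zero_index] at this
  exact hN this.symm

/-- The complex with coefficients in all of `P` is exact except in degree `(0, 0)`. -/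
theorem ex_top [Fact p.Prime] (h : s ≠ 0 ∨ N ≠ 0) : (KI p m (fun _ => 0) ok_zero).Ex s N := by
  have hp := (Fact.out (p := p.Prime)).ne_zero
  intro f hf
  obtain ⟨h1, h2⟩ := hf
  change dd p (fun _ => 0) s f = 0 at h2
  rw [dd_apply] at h2
  cases s with
  | zero =>
    change f = 0
    rw [sum_range_succ, sum_range_one] at h2
    simp only [pow_zero, one_smul, pow_one, neg_smul] at h2
    have h3 := congrArg (sg p) (sub_eq_zero.1 ((sub_eq_add_neg _ _).trans h2))
    rw [sg_ph_zero hp, sg_ph_succ hp, sg_zero h1, coeff_zero_of_ne h1 (by tauto), C_0, map_zero]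
      at h3
    exact h3
  | succ s =>
    refine ⟨sg p f, sg_mem h1, ?_⟩
    change dd p (fun _ => 0) s (sg p f) = f
    rw [dd_apply]
    have h3 := congrArg (sg p) h2
    have h4 : ∀ i ∈ range (s + 2), sg p ((-1 : ℤ) ^ (i + 1) • ph p (fun _ => 0) (i + 1) f) =
        - ((-1 : ℤ) ^ i • ph p (fun _ => 0) i (sg p f)) := by
      intro i _
      rw [map_zsmul, sg_ph_succ hp, pow_succ, mul_neg, mul_one, neg_smul]
    rw [map_zero, map_sum, sum_range_succ', sum_congr rfl h4, sum_neg_distrib, map_zsmul,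
      sg_ph_zero hp, pow_zero, one_smul] at h3
    exact neg_add_eq_zero.1 h3

theorem KK_neg {f : KP p} (hf : f ∈ KK p m I s N) (hN : N < 0) : f = 0 := by
  rw [← support_eq_empty, Finset.eq_empty_iff_forall_notMem]
  intro e he
  have := (hf e he).2
  omega

/-- Exactness by counting. -/
structure ExL (p : ℕ) (C : Cpx (KP p)) (L : List (ℕ × ℕ)) : Prop where
  neg : ∀ s (N : ℤ), N < 0 → C.Ex s N
  nn : ∀ s (N : ℕ), ¬ Mon p L s N → C.Ex s N

theorem ex_of_neg {C : Cpx (KP p)} (h : ∀ f ∈ C.K s N, f = 0) : C.Ex s N := by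
  intro f hf
  rw [h f hf.1]
  exact Cpx.B.zero _ _

theorem exL_top [Fact p.Prime] : ExL p (KI p m (fun _ => 0) ok_zero) [] := by
  refine ⟨fun s N hN => ex_of_neg fun f hf => KK_neg hf hN, fun s N h => ex_top ?_⟩
  rw [Mon] at h
  by_contra h'
  push Not at h'
  exact h ⟨h'.1, by exact_mod_cast h'.2⟩

theorem ExL.step {C C' : Cpx (KP p)} {L : List (ℕ × ℕ)} (h : ExL p C L) (x : ℕ × ℕ) {e : ℤ}
    (he : e = lw p x) (hneg : ∀ s (N : ℤ), N < 0 → C'.Ex s N)
    (ht : ∀ s N, (∀ s' ε j : ℕ, ε ≤ 1 → s = s' + ε + 2 * j → C.Ex s' (N - (ε + p * j) * e)) →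
      C'.Ex s N) : ExL p C' (x :: L) := by
  refine ⟨hneg, fun s N hM => ht s N fun s' ε j hε hs => ?_⟩
  rcases lt_or_ge ((N : ℤ) - (ε + p * j) * e) 0 with h1 | h1
  · exact h.neg _ _ h1
  · obtain ⟨N', hN'⟩ := Int.eq_ofNat_of_zero_le h1
    rw [hN']
    refine h.nn _ _ fun hM' => hM ?_
    rw [Mon]
    refine ⟨ε, j, s', N', hε, by omega, ?_, hM'⟩
    subst he
    have : (N : ℤ) = ((ε + p * j) * lw p x + N' : ℕ) := by push_cast; linarith
    exact_mod_cast this

/-- Raising a threshold adds a letter. -/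
theorem ExL.up [Fact p.Prime] {hI : Ok I} {L : List (ℕ × ℕ)} (h : ExL p (KI p m I hI) L)
    (hn : Pr I n) (hm : n < m) : ExL p (KI p m (up I n) (up_ok hI hn)) ((n, I (n + 1)) :: L) :=
  h.step _ (e := wI p I (0, n)) (by simp [wI, lw, J])
    (fun _ _ hN => ex_of_neg fun _ hf => KK_neg hf hN) (fun s N H => tower hI hn hm s N H)

theorem ExL.congr [Fact p.Prime] {I' : ℕ → ℕ} {hI : Ok I} {hI' : Ok I'} {L : List (ℕ × ℕ)}
    (h : ExL p (KI p m I hI) L) (hI2 : I = I') : ExL p (KI p m I' hI') L := by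
  subst hI2; exact h

theorem ExL.hasse [Fact p.Prime] {hI : Ok I} {L : List (ℕ × ℕ)} {hn : Prk I n K} (hm : n < m)
    {j : ℕ} (hj : j < K) (h : ExL p (KTI p m I hI n K hn (j + 1) hj) L) :
    ExL p (KTI p m I hI n K hn j hj.le) ((n, j + I (n + 1)) :: L) :=
  h.step _ (e := p ^ j * wI p I (0, n)) (by
      simp only [wI, lw, J, if_true]
      push_cast
      rw [← mul_assoc, ← pow_add])
    (fun _ _ hN => ex_of_neg fun _ hf => KK_neg hf.1 hN)
    (fun s N H => towerH hI hm hn hj s N H)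

theorem ExL.hasse_top [Fact p.Prime] {hI : Ok I} {L : List (ℕ × ℕ)} (hn : Prk I n K)
    (h : ExL p (KI p m I hI) L) : ExL p (KTI p m I hI n K hn K le_rfl) L := by
  have : Cpx.Iso (KTI p m I hI n K hn K le_rfl) (KI p m I hI) (AddMonoidHom.id _) :=
    ⟨fun s N f hf => hf.1, fun _ _ _ _ => rfl, fun _ _ h => h,
      fun s N g hg => ⟨g, by change g ∈ KT p m I n K K s N; rw [KT_top]; exact hg, rfl⟩⟩
  exact ⟨fun s N hN => this.ex_iff.1 (h.neg s N hN), fun s N hN => this.ex_iff.1 (h.nn s N hN)⟩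

/-- The profile. -/
def pf (a b c : ℕ) : ℕ → ℕ := fun n => if n = 1 then a else if n = 2 then b else
  if n = 3 then c else 0

theorem pf_zero : pf 0 0 0 = fun _ => 0 := by
  funext n; unfold pf; split_ifs <;> rfl

theorem up_pf0 (a b c : ℕ) : up (pf a b c) 0 = pf (a + 1) b c := by
  funext n; unfold up pf; split_ifs <;> omega

theorem up_pf1 (a b c : ℕ) : up (pf a b c) 1 = pf a (b + 1) c := by
  funext n; unfold up pf; split_ifs <;> omega

theorem up_pf2 (a b c : ℕ) : up (pf a b c) 2 = pf a b (c + 1) := by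
  funext n; unfold up pf; split_ifs <;> omega

theorem upn_pf0 (a b c K : ℕ) : upn (pf a b c) 0 K = pf (a + K) b c := by
  funext n; rw [upn_apply]; unfold pf; split_ifs <;> omega

theorem ok_pf {a b c : ℕ} (h1 : a ≤ b + 1) (h2 : a ≤ c + 2) (h3 : b ≤ c + 1) (h4 : a ≤ 3)
    (h5 : b ≤ 2) (h6 : c ≤ 1) : Ok (pf a b c) := by
  intro x y
  unfold pf
  split_ifs <;> omega

end Vale.Agent.P257.B
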