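import Mathlib
import Vale.Agent.P257.B.Ex
import Vale.Agent.P257.X.Gen

/-! The operator `S`: slant product with the bar cycle `[ξ^(p-1) | ξ]`, `ξ` dual to `t_3`. -/

namespace Vale.Agent.P257.B

open MvPolynomial Finset Vale.Agent.P257.Q.PC Vale.Agent.P257.X

section Abstract

variable {A : Type*} [AddCommGroup A]

/-- Alternating sums. -/
def alt (φ : ℕ → A →+ A) (n : ℕ) : A →+ A := ∑ j ∈ range n, (-1 : ℤ) ^ j • φ j

theorem alt_zero (φ : ℕ → A →+ A) (x : A) : alt φ 0 x = 0 := by simp [alt]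

theorem alt_succ (φ : ℕ → A →+ A) (n : ℕ) (x : A) :
    alt φ (n + 1) x = alt φ n x + (-1 : ℤ) ^ n • φ n x := by
  simp [alt, sum_range_succ]

/-- The relations between faces, insertions and derivations. -/
structure Rel (W : AddSubgroup A) (φ E D : ℕ → A →+ A) : Prop where
  r1 : ∀ k j, k + 1 ≤ j → ∀ x ∈ W, E k (φ (j + 1) x) = φ j (E k x)
  r2 : ∀ k, ∀ x ∈ W, E k (φ (k + 1) x) = D (k + 1) x
  r2' : ∀ k, ∀ x ∈ W, E (k + 1) (φ (k + 1) x) = D (k + 1) x
  r3 : ∀ k j, j ≤ k → ∀ x ∈ W, E (k + 1) (φ j x) = φ j (E k x)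
  r4 : ∀ x ∈ W, E 0 (φ 0 x) = 0

variable {W : AddSubgroup A} {φ E D F D' : ℕ → A →+ A}

theorem Rel.l1 (h : Rel W φ F D') (k : ℕ) : ∀ x ∈ W,
    alt F (k + 1) (alt φ (k + 1) x) = - alt φ k (alt F k x) := by
  induction k with
  | zero =>
    intro x hx
    rw [alt_succ, alt_zero, zero_add, alt_succ, alt_zero, zero_add, alt_zero, pow_zero, one_smul,
      one_smul, h.r4 x hx, neg_zero]
  | succ k ih =>
    intro x hx
    have e1 : alt F (k + 1) (φ (k + 1) x) = φ k (alt F k x) + (-1 : ℤ) ^ k • D' (k + 1) x := by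
      rw [alt_succ, h.r2 k x hx]
      congr 1
      simp only [alt, AddMonoidHom.finsetSum_apply, map_sum, AddMonoidHom.smul_apply, map_zsmul]
      refine sum_congr rfl fun i hi => ?_
      rw [mem_range] at hi
      rw [h.r1 i k (by omega) x hx]
    have e2 : F (k + 1) (alt φ (k + 1) x) = alt φ (k + 1) (F k x) := by
      simp only [alt, AddMonoidHom.finsetSum_apply, map_sum, AddMonoidHom.smul_apply, map_zsmul]
      refine sum_congr rfl fun i hi => ?_
      rw [mem_range] at hi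
      rw [h.r3 k i (by omega) x hx]
    rw [alt_succ F (k + 1), alt_succ φ (k + 1) x, map_add, map_add, ih x hx, map_zsmul, map_zsmul,
      e1, e2, h.r2' k x hx, alt_succ F k x, map_add, map_zsmul, alt_succ φ k (alt F k x)]
    simp only [smul_add, smul_smul, ← pow_add]
    have s1 : (-1 : ℤ) ^ (k + 1 + k) = -1 := by
      rw [show k + 1 + k = 2 * k + 1 by ring, pow_succ, pow_mul]; simp
    have s2 : (-1 : ℤ) ^ (k + 1 + (k + 1)) = 1 := by
      rw [← two_mul, pow_mul]; simp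
    rw [s1, s2, pow_succ]
    module

theorem Rel.l2 (h : Rel W φ E D) (n r : ℕ) : ∀ x ∈ W,
    E (n + 1) (alt φ (n + 3 + r) x) = alt φ (n + 1) (E n x) + (-1 : ℤ) ^ (n + 1) • D (n + 1) x +
      (-1 : ℤ) ^ (n + 2) • D (n + 2) x -
      (alt φ (n + 2 + r) (E (n + 1) x) - alt φ (n + 2) (E (n + 1) x)) := by
  induction r with
  | zero =>
    intro x hx
    rw [sub_self, sub_zero, add_zero, alt_succ, alt_succ, map_add, map_add, map_zsmul, map_zsmul,
      h.r2' n x hx, h.r2 (n + 1) x hx]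
    congr 2
    simp only [alt, AddMonoidHom.finsetSum_apply, map_sum, AddMonoidHom.smul_apply, map_zsmul]
    refine sum_congr rfl fun i hi => ?_
    rw [mem_range] at hi
    rw [h.r3 n i (by omega) x hx]
  | succ r ih =>
    intro x hx
    rw [show n + 3 + (r + 1) = (n + 2 + r + 1) + 1 by ring, alt_succ φ (n + 2 + r + 1), map_add,
      show n + 2 + r + 1 = n + 3 + r by ring, ih x hx, map_zsmul,
      show n + 3 + r = (n + 2 + r) + 1 by ring, h.r1 (n + 1) (n + 2 + r) (by omega) x hx,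
      show n + 2 + (r + 1) = (n + 2 + r) + 1 by ring, alt_succ φ (n + 2 + r) (E (n + 1) x),
      pow_succ _ (n + 2 + r)]
    module

theorem Rel.l3 (h : Rel W φ F D') (k r : ℕ) : ∀ y ∈ W,
    alt F k (alt φ (k + 1 + r) y) - alt F k (alt φ (k + 1) y) =
      - (alt φ (k + r) (alt F k y) - alt φ k (alt F k y)) := by
  induction r with
  | zero => intro y _; simp
  | succ r ih =>
    intro y hy
    have e1 : alt F k (φ (k + r + 1) y) = φ (k + r) (alt F k y) := by
      simp only [alt, AddMonoidHom.finsetSum_apply, map_sum, AddMonoidHom.smul_apply, map_zsmul]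
      refine sum_congr rfl fun i hi => ?_
      rw [mem_range] at hi
      rw [h.r1 i (k + r) (by omega) y hy]
    rw [show k + 1 + (r + 1) = (k + r + 1) + 1 by ring, alt_succ φ (k + r + 1), map_add, map_zsmul,
      e1, show k + (r + 1) = k + r + 1 by ring, alt_succ φ (k + r) (alt F k y), add_sub_right_comm,
      show k + r + 1 = k + 1 + r by ring, ih y hy, show k + 1 + r = k + r + 1 by ring,
      pow_succ _ (k + r)]
    module

/-- The operator. -/
def SS (E F : ℕ → A →+ A) (s : ℕ) : A →+ A :=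
  ∑ k ∈ range s, (-1 : ℤ) ^ k • (alt F k).comp (E k)

theorem SS_apply (s : ℕ) (x : A) :
    SS E F s x = ∑ k ∈ range s, (-1 : ℤ) ^ k • alt F k (E k x) := by
  simp [SS]

theorem SS_succ (s : ℕ) (x : A) :
    SS E F (s + 1) x = SS E F s x + (-1 : ℤ) ^ s • alt F s (E s x) := by
  rw [SS_apply, SS_apply, sum_range_succ]

/-- `S` is a map of complexes. -/
theorem SS_comm (h : Rel W φ E D) (h' : Rel W φ F D') (hE : ∀ k, ∀ x ∈ W, E k x ∈ W)
    (hFD : ∀ k, ∀ x ∈ W, F k (D (k + 1) x) = 0) (s : ℕ) {x : A} (hx : x ∈ W)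
    (hs : D (s + 1) x = 0) :
    SS E F (s + 1) (alt φ (s + 2) x) = alt φ s (SS E F s x) := by
  have key : ∀ n, n ≤ s → SS E F (n + 1) (alt φ (s + 2) x) = alt φ s (SS E F (n + 1) x) -
      (-1 : ℤ) ^ n • alt φ n (alt F n (E n x)) - alt F n (D (n + 1) x) := by
    intro n
    induction n with
    | zero => intro _; simp [SS_apply, alt_zero]
    | succ n ih =>
      intro hn
      obtain ⟨r, hr⟩ : ∃ r, s = n + 1 + r := ⟨s - n - 1, by omega⟩
      have h1 := h.l2 n r x hx
      have h2 := h'.l3 (n + 1) r (E (n + 1) x) (hE _ x hx)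
      have h3 := h'.l1 n (E n x) (hE _ x hx)
      have h4 : alt F (n + 1) (D (n + 1) x) = alt F n (D (n + 1) x) := by
        rw [alt_succ, hFD n x hx, smul_zero, add_zero]
      rw [SS_succ (n + 1), ih (by omega), SS_succ (n + 1), map_add, map_zsmul]
      rw [show s + 2 = n + 3 + r by omega, h1]
      simp only [map_add, map_sub, map_zsmul]
      rw [show n + 1 + 1 + r = n + 2 + r by ring, show n + 1 + 1 = n + 2 by ring] at h2
      rw [h2, h3, h4, show s = n + 1 + r from hr]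
      simp only [smul_add, smul_sub, smul_smul, smul_neg, ← pow_add]
      have s1 : (-1 : ℤ) ^ (n + 1 + (n + 1)) = 1 := by rw [← two_mul, pow_mul]; simp
      have s2 : (-1 : ℤ) ^ (n + 1 + (n + 2)) = -1 := by
        rw [show n + 1 + (n + 2) = 2 * (n + 1) + 1 by ring, pow_succ, pow_mul]; simp
      rw [s1, s2, pow_succ]
      module
  have h1 := key s le_rfl
  rw [h1, hs, map_zero, sub_zero, SS_succ, map_add, map_zsmul]
  abel

end Abstract

variable {p m : ℕ} {I : ℕ → ℕ} {s : ℕ} {N M : ℤ} {n K : ℕ}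

/-- Kill block `b` and shift. -/
noncomputable def kl (p b : ℕ) : KP p →ₐ[ZMod p] KP p :=
  aeval fun x => if x.1 < b then X x else if x.1 = b then 0 else X (x.1 - 1, x.2)

theorem kl_tt_lt {b j : ℕ} (h : j < b) (k : ℕ) : kl p b (tt p j k) = tt p j k := by
  cases k with
  | zero => simp
  | succ k => simp [kl, h]

theorem kl_tt_eq (b k : ℕ) : kl p b (tt p b k) = if k = 0 then 1 else 0 := by
  cases k with
  | zero => simp
  | succ k => simp [kl]

theorem kl_tt_gt {b j : ℕ} (h : b ≤ j) (k : ℕ) : kl p b (tt p (j + 1) k) = tt p j k := by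
  cases k with
  | zero => simp
  | succ k => simp [kl, show ¬ j + 1 < b by omega, show j + 1 ≠ b by omega]

theorem kl_cop_gt {i b : ℕ} (h : i + 1 < b) (k : ℕ) : kl p b (cop p I i k) = cop p I i k := by
  unfold cop
  rw [map_sum]
  refine sum_congr rfl fun l _ => ?_
  rw [map_mul, map_pow, map_pow, kl_tt_lt (by omega), kl_tt_lt (by omega)]

theorem kl_cop_lt {i b : ℕ} (hb : 1 ≤ b) (h : b ≤ i) (k : ℕ) :
    kl p b (cop p I (i + 1) k) = cop p I i k := by
  unfold cop
  rw [map_sum]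
  refine sum_congr rfl fun l _ => ?_
  rw [map_mul, map_pow, map_pow, kl_tt_gt (by omega), kl_tt_gt h]
  obtain ⟨i, rfl⟩ : ∃ i', i = i' + 1 := ⟨i - 1, by omega⟩
  simp only [J_succ]

theorem kl_cop_succ (hp : p ≠ 0) (i k : ℕ) : kl p (i + 1) (cop p I i k) = tt p i k := by
  unfold cop
  rw [map_sum, sum_eq_single 0]
  · simp [kl_tt_lt (Nat.lt_succ_self i)]
  · intro l hl hlk
    rw [map_mul, map_pow, map_pow, kl_tt_eq, if_neg hlk, zero_pow (pow_ne_zero _ hp), zero_mul]
  · simp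

theorem kl_cop_self (hp : p ≠ 0) {i : ℕ} (hi : 1 ≤ i) (k : ℕ) :
    kl p i (cop p I i k) = tt p i k := by
  unfold cop
  rw [map_sum, sum_eq_single k]
  · obtain ⟨i, rfl⟩ : ∃ i', i = i' + 1 := ⟨i - 1, by omega⟩
    simp [J_succ, kl_tt_gt le_rfl]
  · intro l hl hlk
    rw [mem_range] at hl
    rw [map_mul, map_pow, map_pow, kl_tt_eq, if_neg (by omega), zero_pow (pow_ne_zero _ hp),
      mul_zero]
  · simp

theorem algHom_ext_tt {f g : KP p →ₐ[ZMod p] KP p} (h : ∀ j k, f (tt p j k) = g (tt p j k)) :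
    f = g := by
  ext1 ⟨b, k⟩
  rw [← tt_succ, h]

/-- `kl b ∘ φ_j = φ_(j-1) ∘ kl b` for `b < j`. -/
theorem kl_ph_gt {b j : ℕ} (hb : 1 ≤ b) (h : b ≤ j) (f : KP p) :
    kl p b (ph p I (j + 1) f) = ph p I j (kl p b f) := by
  suffices H : (kl p b).comp (ph p I (j + 1)) = (ph p I j).comp (kl p b) from
    congrArg (fun g : KP p →ₐ[ZMod p] KP p => g f) H
  refine algHom_ext_tt fun i k => ?_
  rw [AlgHom.comp_apply, AlgHom.comp_apply]
  rcases lt_trichotomy i b with hi | rfl | hi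
  · rw [ph_tt_lt (by omega), kl_tt_lt hi, ph_tt_lt (by omega)]
  · rw [ph_tt_lt (by omega), kl_tt_eq]
    split_ifs <;> simp
  · obtain ⟨i, rfl⟩ : ∃ i', i = i' + 1 := ⟨i - 1, by omega⟩
    rw [kl_tt_gt (show b ≤ i by omega)]
    rcases lt_trichotomy i j with hj | rfl | hj
    · rw [ph_tt_lt (by omega), kl_tt_gt (by omega), ph_tt_lt hj]
    · rw [ph_tt_eq, ph_tt_eq, kl_cop_lt hb h]
    · rw [ph_tt_gt (by omega), kl_tt_gt (by omega), ph_tt_gt hj]

/-- `kl b ∘ φ_j = φ_j ∘ kl (b-1)` for `j < b - 1`. -/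
theorem kl_ph_lt {b j : ℕ} (h : j < b) (f : KP p) :
    kl p (b + 1) (ph p I j f) = ph p I j (kl p b f) := by
  suffices H : (kl p (b + 1)).comp (ph p I j) = (ph p I j).comp (kl p b) from
    congrArg (fun g : KP p →ₐ[ZMod p] KP p => g f) H
  refine algHom_ext_tt fun i k => ?_
  rw [AlgHom.comp_apply, AlgHom.comp_apply]
  rcases lt_trichotomy i j with hj | rfl | hj
  · rw [ph_tt_lt hj, kl_tt_lt (by omega), kl_tt_lt (by omega), ph_tt_lt hj]
  · rw [ph_tt_eq, kl_cop_gt (by omega), kl_tt_lt h, ph_tt_eq]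
  · rw [ph_tt_gt hj]
    rcases lt_trichotomy i b with hi | rfl | hi
    · rw [kl_tt_lt (by omega), kl_tt_lt hi, ph_tt_gt hj]
    · rw [kl_tt_eq, kl_tt_eq]
      split_ifs <;> simp
    · obtain ⟨i, rfl⟩ : ∃ i', i = i' + 1 := ⟨i - 1, by omega⟩
      rw [kl_tt_gt (by omega), kl_tt_gt (by omega), ph_tt_gt (by omega)]

theorem kl_ph_self (hp : p ≠ 0) {b : ℕ} (hb : 1 ≤ b) (f : KP p) : kl p b (ph p I b f) = f := by
  suffices H : (kl p b).comp (ph p I b) = AlgHom.id _ _ from
    congrArg (fun g : KP p →ₐ[ZMod p] KP p => g f) H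
  refine algHom_ext_tt fun i k => ?_
  rw [AlgHom.comp_apply, AlgHom.id_apply]
  rcases lt_trichotomy i b with hi | rfl | hi
  · rw [ph_tt_lt hi, kl_tt_lt hi]
  · rw [ph_tt_eq, kl_cop_self hp hb]
  · rw [ph_tt_gt hi, kl_tt_gt hi.le]

theorem kl_ph_succ (hp : p ≠ 0) (b : ℕ) (f : KP p) : kl p (b + 1) (ph p I b f) = f := by
  suffices H : (kl p (b + 1)).comp (ph p I b) = AlgHom.id _ _ from
    congrArg (fun g : KP p →ₐ[ZMod p] KP p => g f) H
  refine algHom_ext_tt fun i k => ?_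
  rw [AlgHom.comp_apply, AlgHom.id_apply]
  rcases lt_trichotomy i b with hi | rfl | hi
  · rw [ph_tt_lt hi, kl_tt_lt (by omega)]
  · rw [ph_tt_eq, kl_cop_succ hp]
  · rw [ph_tt_gt hi, kl_tt_gt (by omega)]

/-- The polynomials in `t_1, t_2, t_3`. -/
noncomputable def W3 (p : ℕ) : Subalgebra (ZMod p) (KP p) := supported (ZMod p) {x | x.2 < 3}

theorem X_mem_W3 {x : ℕ × ℕ} (h : x.2 < 3) : (X x : KP p) ∈ W3 p := by
  rw [W3, supported_eq_adjoin_X]
  exact Algebra.subset_adjoin ⟨x, h, rfl⟩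

theorem tt_mem_W3 {j k : ℕ} (h : k ≤ 3) : tt p j k ∈ W3 p := by
  cases k with
  | zero => rw [tt_zero]; exact one_mem _
  | succ k => rw [tt_succ]; exact X_mem_W3 (by simpa using h)

theorem KK_le_W3 {f : KP p} (hf : f ∈ KK p 3 I s N) : f ∈ W3 p :=
  mem_supported_iff.2 fun u hu x hx => ((hf u hu).1 x hx).2

theorem map_W3 (φ : KP p →ₐ[ZMod p] KP p) (h : ∀ j k, k ≤ 3 → φ (tt p j k) ∈ W3 p) {f : KP p}
    (hf : f ∈ W3 p) : φ f ∈ W3 p :=
  supported_map φ (fun x (hx : x.2 < 3) => by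
    obtain ⟨j, k⟩ := x
    rw [← tt_succ]
    exact h j (k + 1) hx) hf

theorem cop_mem_W3 (i : ℕ) {k : ℕ} (hk : k ≤ 3) : cop p I i k ∈ W3 p := by
  unfold cop
  refine sum_mem fun l hl => ?_
  rw [mem_range] at hl
  exact mul_mem (pow_mem (tt_mem_W3 (by omega)) _) (pow_mem (tt_mem_W3 (by omega)) _)

theorem ph_mem_W3 (i : ℕ) {f : KP p} (hf : f ∈ W3 p) : ph p I i f ∈ W3 p := by
  refine map_W3 _ (fun j k hk => ?_) hf
  rcases lt_trichotomy j i with h | rfl | h
  · rw [ph_tt_lt h]; exact tt_mem_W3 hk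
  · rw [ph_tt_eq]; exact cop_mem_W3 _ hk
  · rw [ph_tt_gt h]; exact tt_mem_W3 hk

theorem kl_mem_W3 (b : ℕ) {f : KP p} (hf : f ∈ W3 p) : kl p b f ∈ W3 p := by
  refine map_W3 _ (fun j k hk => ?_) hf
  rcases lt_trichotomy j b with h | rfl | h
  · rw [kl_tt_lt h]; exact tt_mem_W3 hk
  · rw [kl_tt_eq]; split_ifs
    · exact one_mem _
    · exact zero_mem _
  · obtain ⟨j, rfl⟩ : ∃ i', j = i' + 1 := ⟨j - 1, by omega⟩
    rw [kl_tt_gt (by omega)]; exact tt_mem_W3 hk

theorem pderiv_mem_W3 (x : ℕ × ℕ) {f : KP p} (hf : f ∈ W3 p) : pderiv x f ∈ W3 p :=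
  pderiv_supported x hf

theorem iter_mem_W3 (x : ℕ × ℕ) (k : ℕ) {f : KP p} (hf : f ∈ W3 p) :
    (pderiv x)^[k] f ∈ W3 p := by
  induction k with
  | zero => exact hf
  | succ k ih => rw [Function.iterate_succ_apply']; exact pderiv_mem_W3 x ih

/-- Derivations and algebra homomorphisms on `W3`. -/
theorem pderiv_comm_W3 (φ : KP p →ₐ[ZMod p] KP p) (x y : ℕ × ℕ)
    (h : ∀ j k, k ≤ 3 → pderiv y (φ (tt p j k)) = φ (pderiv x (tt p j k))) {f : KP p}
    (hf : f ∈ W3 p) : pderiv y (φ f) = φ (pderiv x f) := by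
  rw [W3, supported_eq_adjoin_X] at hf
  induction hf using Algebra.adjoin_induction with
  | mem z hz =>
    obtain ⟨⟨j, k⟩, hz, rfl⟩ := hz
    rw [← tt_succ]
    exact h j (k + 1) hz
  | algebraMap r => rw [AlgHom.commutes, algebraMap_eq, pderiv_C, pderiv_C, map_zero]
  | add a b _ _ ha hb => rw [map_add, map_add, map_add, map_add, ha, hb]
  | mul a b _ _ ha hb => rw [map_mul, pderiv_mul, pderiv_mul, map_add, map_mul, map_mul, ha, hb]

theorem pderiv_zero_W3 (φ : KP p →ₐ[ZMod p] KP p) (y : ℕ × ℕ)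
    (h : ∀ j k, k ≤ 3 → pderiv y (φ (tt p j k)) = 0) {f : KP p}
    (hf : f ∈ W3 p) : pderiv y (φ f) = 0 := by
  rw [W3, supported_eq_adjoin_X] at hf
  induction hf using Algebra.adjoin_induction with
  | mem z hz =>
    obtain ⟨⟨j, k⟩, hz, rfl⟩ := hz
    rw [← tt_succ]
    exact h j (k + 1) hz
  | algebraMap r => rw [AlgHom.commutes, algebraMap_eq, pderiv_C]
  | add a b _ _ ha hb => rw [map_add, map_add, ha, hb, add_zero]
  | mul a b _ _ ha hb => rw [map_mul, pderiv_mul, ha, hb]; simp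

theorem pderiv_tt (b j k : ℕ) : pderiv (b, 2) (tt p j k) = if j = b ∧ k = 3 then 1 else 0 := by
  split_ifs with h
  · rw [h.1, h.2, tt_succ, pderiv_X_self]
  · refine pderiv_tt_ne ?_
    rcases Nat.eq_zero_or_pos k with hk | hk
    · exact Or.inr hk
    · left
      simp only [ne_eq, Prod.mk.injEq]
      omega

theorem pderiv_tt_pow [Fact p.Prime] (b j k a : ℕ) (ha : 0 < a) :
    pderiv (b, 2) (tt p j k ^ p ^ a) = 0 := pderiv_pow_p _ ha

theorem pderiv_cop_ne {b i : ℕ} (h1 : i ≠ b) (h2 : i + 1 ≠ b) (k : ℕ) :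
    pderiv (b, 2) (cop p I i k) = 0 := by
  unfold cop
  rw [map_sum]
  refine sum_eq_zero fun l _ => ?_
  rw [pderiv_mul, pderiv_pow, pderiv_pow, pderiv_tt, pderiv_tt, if_neg (by tauto),
    if_neg (by tauto)]
  simp

theorem pderiv_cop_self [Fact p.Prime] {i k : ℕ} (hi : 1 ≤ i) (hk : k ≤ 3) :
    pderiv (i, 2) (cop p I i k) = if k = 3 then 1 else 0 := by
  obtain ⟨i, rfl⟩ : ∃ i', i = i' + 1 := ⟨i - 1, by omega⟩
  unfold cop
  rw [map_sum, sum_eq_single 0]
  · simp only [J_succ, pow_zero, pow_one, tt_zero, one_mul, tsub_zero, add_zero, pderiv_tt,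
      true_and]
  · intro l hl hl0
    rw [pderiv_mul, pderiv_pow, pderiv_tt, if_neg (by omega), J_succ, J_succ,
      pderiv_tt_pow _ _ _ _ (by omega)]
    simp
  · simp

theorem pderiv_cop_succ [Fact p.Prime] {i k : ℕ} (hi : 1 ≤ i) (hk : k ≤ 3) :
    pderiv (i + 1, 2) (cop p I i k) = if k = 3 then 1 else 0 := by
  obtain ⟨i, rfl⟩ : ∃ i', i = i' + 1 := ⟨i - 1, by omega⟩
  unfold cop
  rw [map_sum, sum_eq_single k]
  · simp only [J_succ, pow_zero, pow_one, tt_zero, one_pow, mul_one, tsub_self, pderiv_tt,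
      true_and]
  · intro l hl hl0
    rw [mem_range] at hl
    rw [pderiv_mul, J_succ, pow_zero, pow_one, pderiv_tt, if_neg (by omega), pderiv_pow,
      pderiv_tt, if_neg (by omega)]
    simp
  · simp

theorem pderiv_cop_zero [Fact p.Prime] (hI : 1 ≤ I 3) {k : ℕ} (hk : k ≤ 3) :
    pderiv (1, 2) (cop p I 0 k) = 0 := by
  unfold cop
  rw [map_sum]
  refine sum_eq_zero fun l hl => ?_
  rw [mem_range] at hl
  have h0 : ∀ a, pderiv (1, 2) (tt p 0 (k - l) ^ a) = 0 := fun a => by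
    rw [pderiv_pow, pderiv_tt, if_neg (by omega), mul_zero]
  rw [pderiv_mul, h0, mul_zero, add_zero]
  by_cases h : l = 3
  · obtain rfl : k = 3 := by omega
    rw [pderiv_tt_pow _ _ _ _ (by simp only [J, if_true]; omega)]
    simp
  · rw [pderiv_pow, pderiv_tt, if_neg (by omega)]
    simp

/-- `∂_b φ_j = φ_j ∂_b` for `b ≤ j`. -/
theorem pderiv_ph_ge [Fact p.Prime] {b j : ℕ} (hb : 1 ≤ b) (h : b ≤ j) {f : KP p}
    (hf : f ∈ W3 p) : pderiv (b, 2) (ph p I j f) = ph p I j (pderiv (b, 2) f) := by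
  refine pderiv_comm_W3 _ _ _ (fun i k hk => ?_) hf
  rw [pderiv_tt]
  have h1 : ph p I j (if i = b ∧ k = 3 then 1 else 0 : KP p) = if i = b ∧ k = 3 then 1 else 0 := by
    split_ifs <;> simp
  rw [h1]
  rcases lt_trichotomy i j with hi | rfl | hi
  · rw [ph_tt_lt hi, pderiv_tt]
  · rw [ph_tt_eq]
    rcases h.eq_or_lt with rfl | hlt
    · rw [pderiv_cop_self hb hk]; simp
    · rw [pderiv_cop_ne (by omega) (by omega), if_neg (by omega)]
  · rw [ph_tt_gt hi, pderiv_tt, if_neg (by omega), if_neg (by omega)]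

/-- `∂_(b+1) φ_j = φ_j ∂_b` for `j ≤ b`. -/
theorem pderiv_ph_le [Fact p.Prime] {b j : ℕ} (hb : 1 ≤ b) (h : j ≤ b) {f : KP p}
    (hf : f ∈ W3 p) : pderiv (b + 1, 2) (ph p I j f) = ph p I j (pderiv (b, 2) f) := by
  refine pderiv_comm_W3 _ _ _ (fun i k hk => ?_) hf
  rw [pderiv_tt]
  have h1 : ph p I j (if i = b ∧ k = 3 then 1 else 0 : KP p) = if i = b ∧ k = 3 then 1 else 0 := by
    split_ifs <;> simp
  rw [h1]
  rcases lt_trichotomy i j with hi | rfl | hi
  · rw [ph_tt_lt hi, pderiv_tt, if_neg (by omega), if_neg (by omega)]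
  · rw [ph_tt_eq]
    rcases h.eq_or_lt with rfl | hlt
    · rw [pderiv_cop_succ hb hk]; simp
    · rw [pderiv_cop_ne (by omega) (by omega), if_neg (by omega)]
  · rw [ph_tt_gt hi, pderiv_tt]
    simp only [Nat.add_right_cancel_iff]

theorem pderiv_ph_zero [Fact p.Prime] (hI : 1 ≤ I 3) {f : KP p} (hf : f ∈ W3 p) :
    pderiv (1, 2) (ph p I 0 f) = 0 := by
  refine pderiv_zero_W3 _ _ (fun i k hk => ?_) hf
  rcases Nat.eq_zero_or_pos i with rfl | hi
  · rw [ph_tt_eq, pderiv_cop_zero hI hk]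
  · rw [ph_tt_gt hi, pderiv_tt, if_neg (by omega)]

theorem iter_ph_ge [Fact p.Prime] {b j : ℕ} (hb : 1 ≤ b) (h : b ≤ j) (k : ℕ) {f : KP p}
    (hf : f ∈ W3 p) :
    (pderiv (b, 2))^[k] (ph p I j f) = ph p I j ((pderiv (b, 2))^[k] f) := by
  induction k with
  | zero => rfl
  | succ k ih =>
    rw [Function.iterate_succ_apply', ih, pderiv_ph_ge hb h (iter_mem_W3 _ _ hf),
      Function.iterate_succ_apply']

theorem iter_ph_le [Fact p.Prime] {b j : ℕ} (hb : 1 ≤ b) (h : j ≤ b) (k : ℕ) {f : KP p}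
    (hf : f ∈ W3 p) :
    (pderiv (b + 1, 2))^[k] (ph p I j f) = ph p I j ((pderiv (b, 2))^[k] f) := by
  induction k with
  | zero => rfl
  | succ k ih =>
    rw [Function.iterate_succ_apply', ih, pderiv_ph_le hb h (iter_mem_W3 _ _ hf),
      Function.iterate_succ_apply']

theorem iter_zero (x : ℕ × ℕ) (k : ℕ) : (pderiv x)^[k] (0 : KP p) = 0 := by
  induction k with
  | zero => rfl
  | succ k ih => rw [Function.iterate_succ_apply', ih, map_zero]

theorem iter_neg (x : ℕ × ℕ) (k : ℕ) (f : KP p) : (pderiv x)^[k] (-f) = -(pderiv x)^[k] f := by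
  induction k with
  | zero => rfl
  | succ k ih => rw [Function.iterate_succ_apply', ih, map_neg, Function.iterate_succ_apply']

theorem iter_ph_zero [Fact p.Prime] (hI : 1 ≤ I 3) (k : ℕ) {f : KP p} (hf : f ∈ W3 p) :
    (pderiv (1, 2))^[k + 1] (ph p I 0 f) = 0 := by
  rw [Function.iterate_succ_apply, pderiv_ph_zero hI hf, iter_zero]

/-- The face as an additive map. -/
noncomputable def phA (p : ℕ) (I : ℕ → ℕ) (i : ℕ) : KP p →+ KP p :=
  (ph p I i).toRingHom.toAddMonoidHom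

theorem phA_apply (i : ℕ) (f : KP p) : phA p I i f = ph p I i f := rfl

/-- The iterated derivative in block `b`. -/
noncomputable def DDb (p r b : ℕ) : KP p →+ KP p where
  toFun f := (pderiv (b, 2))^[r] f
  map_zero' := iter_zero _ _
  map_add' f g := iter_add _ _ f g

theorem DDb_apply (r b : ℕ) (f : KP p) : DDb p r b f = (pderiv (b, 2))^[r] f := rfl

/-- Insertion of the functional `ξ ^ r` at block `k + 1`. -/
noncomputable def EE (p r k : ℕ) : KP p →+ KP p :=
  ((kl p (k + 1)).toRingHom.toAddMonoidHom).comp (DDb p r (k + 1))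

theorem EE_apply (r k : ℕ) (f : KP p) :
    EE p r k f = kl p (k + 1) ((pderiv (k + 1, 2))^[r] f) := rfl

theorem rel [Fact p.Prime] (hI : 1 ≤ I 3) (r : ℕ) (hr : 1 ≤ r) :
    Rel (W3 p).toSubmodule.toAddSubgroup (phA p I) (EE p r) (DDb p r) where
  r1 k j h x hx := by
    have hx : x ∈ W3 p := hx
    rw [EE_apply, EE_apply, phA_apply, phA_apply, iter_ph_ge (by omega) (by omega) _ hx,
      kl_ph_gt (by omega) h]
  r2 k x hx := by
    have hx : x ∈ W3 p := hx
    rw [EE_apply, phA_apply, iter_ph_ge (by omega) le_rfl _ hx,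
      kl_ph_self (Fact.out (p := p.Prime)).ne_zero (by omega), DDb_apply]
  r2' k x hx := by
    have hx : x ∈ W3 p := hx
    rw [EE_apply, phA_apply, iter_ph_le (by omega) le_rfl _ hx,
      kl_ph_succ (Fact.out (p := p.Prime)).ne_zero, DDb_apply]
  r3 k j h x hx := by
    have hx : x ∈ W3 p := hx
    rw [EE_apply, EE_apply, phA_apply, phA_apply, iter_ph_le (by omega) (by omega) _ hx,
      kl_ph_lt (by omega)]
  r4 x hx := by
    have hx : x ∈ W3 p := hx
    obtain ⟨r, rfl⟩ : ∃ r', r = r' + 1 := ⟨r - 1, by omega⟩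
    rw [EE_apply, phA_apply, iter_ph_zero hI _ hx, map_zero]

/-- The operator `S` on `s`-cochains. -/
noncomputable def Sop (p s : ℕ) : KP p →+ KP p := SS (EE p 1) (EE p (p - 1)) s

theorem dd_eq_alt (s : ℕ) (f : KP p) : dd p I s f = alt (phA p I) (s + 2) f := by
  rw [dd_apply]
  simp [alt, phA_apply]

/-- Polynomials in blocks `≤ s` have no derivative in block `s + 1`. -/
theorem pderiv_of_lt {f : KP p} (hf : f ∈ KK p m I s N) {x : ℕ × ℕ} (hx : s < x.1) :
    pderiv x f = 0 := by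
  ext e
  rw [coeff_pderiv, coeff_zero]
  by_cases h : coeff (e + Finsupp.single x 1) f = 0
  · rw [h, zero_mul]
  · have h1 := (hf _ (mem_support_iff.2 h)).1 x (by
      rw [Finsupp.mem_support_iff, Finsupp.add_apply, Finsupp.single_eq_same]; omega)
    omega

theorem Sop_dd [Fact p.Prime] (hI : 1 ≤ I 3) {f : KP p} (hf : f ∈ KK p 3 I (s + 2) N) :
    Sop p (s + 3) (dd p I (s + 2) f) = dd p I s (Sop p (s + 2) f) := by
  have hp := (Fact.out (p := p.Prime)).two_le
  rw [dd_eq_alt, dd_eq_alt]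
  refine SS_comm (rel hI 1 le_rfl) (rel hI (p - 1) (by omega)) ?_ ?_ _ (KK_le_W3 hf) ?_
  · intro k x hx
    exact kl_mem_W3 _ (iter_mem_W3 _ _ hx)
  · intro k x hx
    rw [EE_apply, DDb_apply, Function.iterate_one, ← Function.iterate_succ_apply,
      show (p - 1).succ = p by omega, iter_p, map_zero]
  · rw [DDb_apply, Function.iterate_one]
    exact pderiv_of_lt hf (by simp)

theorem Sop_low [Fact p.Prime] (hI : 1 ≤ I 3) {f : KP p} (hf : f ∈ KK p 3 I 1 N) :
    Sop p 2 (dd p I 1 f) = 0 := by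
  have hp := (Fact.out (p := p.Prime)).two_le
  rw [dd_eq_alt]
  have := SS_comm (rel (I := I) hI 1 le_rfl) (rel hI (p - 1) (by omega)) (fun k x hx =>
    kl_mem_W3 _ (iter_mem_W3 _ _ hx)) (fun k x hx => by
      rw [EE_apply, DDb_apply, Function.iterate_one, ← Function.iterate_succ_apply,
        show (p - 1).succ = p by omega, iter_p, map_zero]) 1 (KK_le_W3 hf) (by
      rw [DDb_apply, Function.iterate_one]
      exact pderiv_of_lt hf (by simp))
  rw [Sop, this]
  simp [SS_apply, alt_zero]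

/-- Degrees. -/
theorem kl_mem {b : ℕ} (hb : 1 ≤ b) (hs : b ≤ s + 1) {f : KP p} (hf : f ∈ KK p m I (s + 1) N) :
    kl p b f ∈ KK p m I s N := by
  refine KK.map _ ?_ hf
  rintro ⟨j, k⟩ h1 h2
  rw [← tt_succ]
  rcases lt_trichotomy j b with h | rfl | h
  · rw [kl_tt_lt h]
    simpa using KK.X (x := (j, k)) (by simp; omega) h2
  · rw [kl_tt_eq, if_neg (by omega)]; exact zero_mem _
  · obtain ⟨j, rfl⟩ : ∃ i', j = i' + 1 := ⟨j - 1, by omega⟩
    rw [kl_tt_gt (by omega), show wI p I (j + 1, k) = wI p I (j, k) by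
      simp [wI, J, show j ≠ 0 by omega]]
    simpa using KK.X (x := (j, k)) (by simpa using h1) h2

theorem EE_mem {k r : ℕ} (hk : k ≤ s) {f : KP p} (hf : f ∈ KK p m I (s + 1) N) :
    EE p r k f ∈ KK p m I s (N - r * wt p 2) := by
  rw [EE_apply]
  refine kl_mem (by omega) (by omega) ?_
  have := KK.iter hf (k + 1, 2) r
  rwa [show wI p I (k + 1, 2) = wt p 2 by simp [wI, J]] at this

theorem Sop_mem [Fact p.Prime] {f : KP p} (hf : f ∈ KK p m I (s + 2) N) :
    Sop p (s + 2) f ∈ KK p m I s (N - p * wt p 2) := by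
  have hp := (Fact.out (p := p.Prime)).two_le
  rw [Sop, SS_apply]
  refine sum_mem fun k hk => zsmul_mem ?_ _
  rw [mem_range] at hk
  simp only [alt, AddMonoidHom.finsetSum_apply, AddMonoidHom.smul_apply]
  refine sum_mem fun i hi => zsmul_mem ?_ _
  rw [mem_range] at hi
  have h1 := EE_mem (r := 1) (k := k) (s := s + 1) (by omega) hf
  have h2 := EE_mem (r := p - 1) (k := i) (s := s) (by omega) h1
  rwa [show N - ((1 : ℕ) : ℤ) * wt p 2 - ((p - 1 : ℕ) : ℤ) * wt p 2 = N - p * wt p 2 by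
    rw [Nat.cast_sub (by omega)]; push_cast; ring] at h2

/-! Compatibility with the operators in the coefficients. -/

theorem TT_kl {b : ℕ} (hb : 1 ≤ b) (f : KP p) (r : ℕ) :
    (TT p n (kl p b f)).coeff r = kl p b ((TT p n f).coeff r) := by
  suffices H : (TT p n).comp (kl p b) = (Polynomial.mapAlgHom (kl p b)).comp (TT p n) by
    have := congrArg (fun g : KP p →ₐ[ZMod p] Polynomial (KP p) => (g f).coeff r) H
    simpa using this
  ext1 ⟨i, k⟩
  rw [AlgHom.comp_apply, AlgHom.comp_apply, ← tt_succ]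
  rcases lt_trichotomy i b with h | rfl | h
  · rw [kl_tt_lt h, TT_tt, map_add]
    congr 1
    · simp [kl, h]
    · split_ifs <;> simp
  · rw [kl_tt_eq, if_neg (by omega), map_zero, TT_tt, if_neg (by omega), add_zero]
    simp [kl]
  · obtain ⟨i, rfl⟩ : ∃ i', i = i' + 1 := ⟨i - 1, by omega⟩
    rw [kl_tt_gt (by omega), TT_tt, TT_tt, if_neg (by omega), if_neg (by omega), add_zero,
      add_zero]
    simp [kl, show ¬ i + 1 < b by omega, show i + 1 ≠ b by omega]

theorem TT_pderiv {x : ℕ × ℕ} (hx : 1 ≤ x.1) (f : KP p) : ∀ r,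
    (TT p n (pderiv x f)).coeff r = pderiv x ((TT p n f).coeff r) := by
  induction f using MvPolynomial.induction_on with
  | C a =>
    intro r
    have h2 : TT p n (C a) = Polynomial.C (C a) := by
      rw [← algebraMap_eq, AlgHom.commutes]; rfl
    rw [pderiv_C, map_zero, Polynomial.coeff_zero, h2, Polynomial.coeff_C]
    split_ifs
    · rw [pderiv_C]
    · rw [map_zero]
  | add f g hf hg =>
    intro r
    rw [map_add, map_add, map_add, Polynomial.coeff_add, Polynomial.coeff_add, map_add, hf r, hg r]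
  | mul_X f y hf =>
    intro r
    have hy : ∀ r, (TT p n (pderiv x (X y))).coeff r = pderiv x ((TT p n (X y)).coeff r) := by
      intro r
      obtain ⟨b, k⟩ := y
      have hX : TT p n (X (b, k)) = Polynomial.C (X (b, k)) +
          if b = 0 ∧ k = n then Polynomial.X else 0 := by
        have := TT_tt (p := p) (n := n) b (k + 1)
        simpa using this
      rw [hX, Polynomial.coeff_add, Polynomial.coeff_C, map_add]
      have h1 : pderiv x ((if b = 0 ∧ k = n then (Polynomial.X : Polynomial (KP p)) else 0).coeff r)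
          = 0 := by
        split_ifs
        · rw [Polynomial.coeff_X]
          split_ifs
          · rw [pderiv_one]
          · rw [map_zero]
        · rw [Polynomial.coeff_zero, map_zero]
      rw [h1, add_zero]
      by_cases h : (b, k) = x
      · subst h
        rw [pderiv_X_self, map_one, Polynomial.coeff_one]
        split_ifs
        · rw [pderiv_X_self]
        · rw [map_zero]
      · rw [pderiv_X_of_ne h, map_zero, Polynomial.coeff_zero]
        split_ifs
        · rw [pderiv_X_of_ne h]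
        · rw [map_zero]
    rw [pderiv_mul, map_add, map_mul, map_mul, map_mul, Polynomial.coeff_add, Polynomial.coeff_mul,
      Polynomial.coeff_mul, Polynomial.coeff_mul, map_sum, ← sum_add_distrib]
    refine sum_congr rfl fun a _ => ?_
    rw [pderiv_mul, hf, hy]

theorem HD_EE [Fact p.Prime] (j r k : ℕ) (f : KP p) : HD p n j (EE p r k f) = EE p r k (HD p n j f) := by
  rw [EE_apply, EE_apply, HD_apply, TT_kl (by omega), HD_apply]
  congr 1
  induction r with
  | zero => rfl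
  | succ r ih =>
    rw [Function.iterate_succ_apply', Function.iterate_succ_apply', TT_pderiv (by simp), ih]

theorem HD_Sop [Fact p.Prime] (j s : ℕ) (f : KP p) :
    HD p n j (Sop p s f) = Sop p s (HD p n j f) := by
  rw [Sop, SS_apply, SS_apply, map_sum]
  refine sum_congr rfl fun k _ => ?_
  rw [map_zsmul]
  simp only [alt, AddMonoidHom.finsetSum_apply, AddMonoidHom.smul_apply, map_sum, map_zsmul]
  congr 1
  refine sum_congr rfl fun i _ => ?_
  rw [HD_EE, HD_EE]

theorem Sop_mem_KT [Fact p.Prime] {j : ℕ} (hj : j ≤ K) {f : KP p}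
    (hf : f ∈ KT p m I n K j (s + 2) N) :
    Sop p (s + 2) f ∈ KT p m I n K j s (N - p * wt p 2) := by
  obtain ⟨d, hd⟩ : ∃ d, K = j + d := ⟨K - j, by omega⟩
  induction d generalizing j with
  | zero =>
    obtain rfl : K = j := hd
    rw [KT_top] at hf ⊢
    exact Sop_mem hf
  | succ d ih =>
    rw [KT_succ (by omega)] at hf ⊢
    exact ⟨ih (by omega) hf.1 (by omega), by rw [HD_Sop, hf.2, map_zero]⟩

end Vale.Agent.P257.B
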