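import Mathlib
import Vale.Agent.P257.B.S
import Vale.Agent.P257.E.Gam

/-! Products of cochains and the transpotence of a `1`-cocycle. -/

namespace Vale.Agent.P257.B

open MvPolynomial Finset Vale.Agent.P257.Q.PC Vale.Agent.P257.X Vale.Agent.P257.E

variable {p m : ℕ} {I : ℕ → ℕ} {s : ℕ} {N M : ℤ} {n K : ℕ}

/-- Iterates of the first face. -/
noncomputable def pz (p : ℕ) (I : ℕ → ℕ) : ℕ → (KP p →ₐ[ZMod p] KP p)
  | 0 => AlgHom.id _ _
  | r + 1 => (ph p I 0).comp (pz p I r)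

theorem pz_zero (z : KP p) : pz p I 0 z = z := rfl

theorem pz_succ (r : ℕ) (z : KP p) : pz p I (r + 1) z = ph p I 0 (pz p I r z) := rfl

theorem pz_succ' (r : ℕ) (z : KP p) : pz p I (r + 1) z = pz p I r (ph p I 0 z) := by
  induction r with
  | zero => rfl
  | succ r ih => rw [pz_succ, ih, pz_succ]

theorem ph_pz_le [Fact p.Prime] (hI : Ok I) (r i : ℕ) (h : i ≤ r) (z : KP p) :
    ph p I i (pz p I r z) = pz p I (r + 1) z := by
  induction r generalizing i with
  | zero =>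
    obtain rfl : i = 0 := by omega
    rfl
  | succ r ih =>
    rcases i with _ | i
    · rfl
    · rw [pz_succ, ph_ph hI (Nat.zero_le i), ih i (by omega)]; rfl

theorem ph_pz_ge [Fact p.Prime] (hI : Ok I) (r i : ℕ) (z : KP p) :
    ph p I (r + i) (pz p I r z) = pz p I r (ph p I i z) := by
  induction r with
  | zero => rw [zero_add]; rfl
  | succ r ih =>
    rw [pz_succ, show r + 1 + i = (r + i) + 1 by ring, ph_ph hI (Nat.zero_le _), ih]; rfl

/-- The Leibniz rule. -/
theorem dd_star [Fact p.Prime] (hI : Ok I) (s r : ℕ) (z b : KP p)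
    (hb : ∀ i, r < i → ph p I i b = b) :
    dd p I (s + r) (pz p I r z * b) = pz p I (r + 1) z * dd p I r b +
      (-1 : ℤ) ^ r • (pz p I r (dd p I s z) * b) := by
  have e1 : dd p I (s + r) (pz p I r z * b) =
      pz p I (r + 1) z * ∑ i ∈ range (r + 1), (-1 : ℤ) ^ i • ph p I i b +
      (-1 : ℤ) ^ (r + 1) • (pz p I r (∑ i ∈ range (s + 1), (-1 : ℤ) ^ i • ph p I (i + 1) z) * b) := by
    rw [dd_apply, show s + r + 2 = (r + 1) + (s + 1) by ring, sum_range_add]
    congr 1
    · rw [mul_sum]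
      refine sum_congr rfl fun i hi => ?_
      rw [mem_range] at hi
      rw [map_mul, ph_pz_le hI r i (by omega), mul_smul_comm]
    · rw [map_sum, sum_mul, smul_sum]
      refine sum_congr rfl fun i hi => ?_
      rw [map_mul, show r + 1 + i = r + (i + 1) by ring, ph_pz_ge hI, hb _ (by omega), map_zsmul,
        smul_mul_assoc, smul_smul, ← pow_add]
      congr 2; ring
  have e2 : dd p I r b = ∑ i ∈ range (r + 1), (-1 : ℤ) ^ i • ph p I i b +
      (-1 : ℤ) ^ (r + 1) • b := by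
    rw [dd_apply, sum_range_succ, hb _ (Nat.lt_succ_self r)]
  have e3 : dd p I s z = - (∑ i ∈ range (s + 1), (-1 : ℤ) ^ i • ph p I (i + 1) z) + ph p I 0 z := by
    rw [dd_apply, sum_range_succ', pow_zero, one_smul, ← sum_neg_distrib]
    congr 1
    refine sum_congr rfl fun i _ => ?_
    rw [pow_succ, mul_neg_one, neg_smul]
  rw [e1, e2, e3, map_add, map_neg, ← pz_succ', pow_succ, mul_add, mul_neg_one, neg_smul, neg_smul,
    mul_neg, mul_smul_comm, add_mul, neg_mul, smul_add, smul_neg]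
  abel

theorem ph_of_lt {f : KP p} (hf : f ∈ KK p m I s N) {i : ℕ} (hi : s < i) : ph p I i f = f := by
  have h1 : f ∈ supported (ZMod p) {x : ℕ × ℕ | x.1 ≤ s} :=
    mem_supported_iff.2 fun u hu x hx => ((hf u hu).1 x hx).1
  have := eqOn_supported (ph p I i) (AlgHom.id _ _) (V := {x : ℕ × ℕ | x.1 ≤ s})
    (fun x (hx : x.1 ≤ s) => by
      rw [AlgHom.id_apply]
      obtain ⟨j, k⟩ := x
      rw [← tt_succ, ph_tt_lt (lt_of_le_of_lt hx hi)]) h1
  exact this

/-- The transpotence of `a`. -/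
noncomputable def tr (p : ℕ) (I : ℕ → ℕ) (a : KP p) : KP p := gam p a (ph p I 0 a)

/-- A `1`-cocycle. -/
structure Cyc (p : ℕ) (I : ℕ → ℕ) (a : KP p) : Prop where
  one : ph p I 1 a = ph p I 0 a + a
  two : ph p I 2 a = a

theorem gam_ph (i : ℕ) (x y : KP p) : ph p I i (gam p x y) = gam p (ph p I i x) (ph p I i y) :=
  map_gam (ph p I i).toRingHom x y

theorem dd_one (f : KP p) : dd p I 1 f = ph p I 0 f - ph p I 1 f + ph p I 2 f := by
  rw [dd_apply]
  simp [sum_range_succ, sub_eq_add_neg]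

theorem dd_zero (f : KP p) : dd p I 0 f = ph p I 0 f - ph p I 1 f := by
  rw [dd_apply]
  simp [sum_range_succ, sub_eq_add_neg]

theorem dd_two (f : KP p) : dd p I 2 f = ph p I 0 f - ph p I 1 f + ph p I 2 f - ph p I 3 f := by
  rw [dd_apply]
  simp [sum_range_succ, sub_eq_add_neg, pow_succ]

theorem Cyc.dd {a : KP p} (h : Cyc p I a) : dd p I 1 a = 0 := by
  rw [dd_one, h.one, h.two]; ring

theorem Cyc.of_mem [Fact p.Prime] {a : KP p} (ha : a ∈ KK p m I 1 N) (h : B.dd p I 1 a = 0) :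
    Cyc p I a := by
  have h2 : ph p I 2 a = a := ph_of_lt ha (by omega)
  refine ⟨?_, h2⟩
  rw [dd_one, h2] at h
  linear_combination -h

theorem Cyc.dd_tr [Fact p.Prime] (hI : Ok I) {a : KP p} (h : Cyc p I a)
    (h3 : ph p I 3 (tr p I a) = tr p I a) : B.dd p I 2 (tr p I a) = 0 := by
  have hp := Fact.out (p := p.Prime)
  rw [dd_two, h3]
  unfold tr
  rw [gam_ph, gam_ph, gam_ph, h.one, h.two, ph_ph hI le_rfl, ph_ph hI (Nat.zero_le 1), h.one,
    map_add]
  have := gam_assoc hp a (ph p I 0 a) (ph p I 0 (ph p I 0 a))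
  rw [add_comm (ph p I 0 a) a, add_comm (ph p I 0 (ph p I 0 a)) (ph p I 0 a)]
  linear_combination -this

/-- The transpotence of a coboundary. -/
theorem dd_gam [Fact p.Prime] (hI : Ok I) {τ : KP p} (h1 : ph p I 1 τ = τ) (h2 : ph p I 2 τ = τ) :
    B.dd p I 1 (gam p τ (ph p I 0 τ - τ)) = tr p I (ph p I 0 τ - τ) := by
  have hp := Fact.out (p := p.Prime)
  rw [dd_one, tr, gam_ph, gam_ph, gam_ph]
  simp only [map_sub, h1, h2, ph_ph hI le_rfl, ph_ph hI (Nat.zero_le 1)]
  set x := ph p I 0 τ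
  set y := ph p I 0 x
  have := gam_assoc hp τ (x - τ) (y - x)
  rw [show τ + (x - τ) = x by ring, show x - τ + (y - x) = y - τ by ring] at this
  linear_combination this

/-- Two cohomologous cocycles have cohomologous transpotences. -/
theorem tr_sub_tr [Fact p.Prime] (hI : Ok I) {a u : KP p} (ha : Cyc p I a) (h1 : ph p I 1 u = u)
    (h2 : ph p I 2 u = u) :
    tr p I a - tr p I (a + (ph p I 0 u - u)) =
      B.dd p I 1 (gam p a (ph p I 0 u) - gam p (a + (ph p I 0 u - u)) u) := by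
  have hp := Fact.out (p := p.Prime)
  rw [dd_one, tr, tr, map_sub, map_sub, map_sub]
  simp only [gam_ph, map_add, map_sub, h1, h2, ha.one, ha.two, ph_ph hI le_rfl,
    ph_ph hI (Nat.zero_le 1)]
  set x2 := ph p I 0 a
  set x4 := ph p I 0 u
  set x5 := ph p I 0 x4
  have i1 := gam_assoc hp a x2 x5
  have i2 := gam_assoc hp a x4 (x2 + (x5 - x4))
  have i3 := gam_assoc hp (a + (x4 - u)) u (x2 + (x5 - x4))
  have i4 := gam_assoc hp (a + (x4 - u)) (x2 + (x5 - x4)) u
  rw [show x4 + (x2 + (x5 - x4)) = x2 + x5 by ring] at i2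
  rw [show a + (x4 - u) + u = a + x4 by ring] at i3
  rw [show u + (x2 + (x5 - x4)) = x2 + (x5 - x4) + u by ring] at i3
  rw [gam_comm (x2 + (x5 - x4)) x4, show x2 + a + (x5 - u) = a + (x4 - u) + (x2 + (x5 - x4)) by ring,
    add_comm x2 a]
  rw [gam_comm (x2 + (x5 - x4)) u] at i4
  linear_combination i1 - i2 + i3 - i4

end Vale.Agent.P257.B
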