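import Mathlib
import Vale.Agent.P257.B.Star

/-! The explicit cochains: `gG = d (t_2 - t_1^(1+p))`, `om = d t_3`, `al = d (t_3 - t_1 t_2^p)`. -/

namespace Vale.Agent.P257.B

open MvPolynomial Finset Vale.Agent.P257.Q.PC Vale.Agent.P257.X Vale.Agent.P257.E

/-- `d (t_2 - t_1 ^ (1 + p))`. -/
noncomputable def gG (p : ℕ) : KP p :=
  X (1, 1) - X (1, 0) ^ (1 + p) - X (0, 0) * X (1, 0) ^ p

/-- `d t_3`, in the profiles `(0, 1, *)`. -/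
noncomputable def om (p : ℕ) : KP p :=
  X (1, 2) + X (1, 1) * X (0, 0) ^ p ^ 2 + X (1, 0) * X (0, 1)

/-- `d (t_3 - t_1 t_2 ^ p)`. -/
noncomputable def al (p : ℕ) : KP p :=
  X (1, 2) + X (1, 1) * X (0, 0) ^ p ^ 2 -
    (X (0, 0) + X (1, 0)) * (X (1, 0) ^ p * X (0, 0) ^ p ^ 2 + X (1, 1) ^ p)

end Vale.Agent.P257.B
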