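import Mathlib
import Vale.Agent.P257.B.Ex
import Vale.Agent.P257.B.Elts
import Vale.Agent.P257.N.CountC

/-! The profiles used for `C1` and `C2`, and the exactness statements obtained by counting. -/

namespace Vale.Agent.P257.B

open MvPolynomial Finset Vale.Agent.P257.Q.PC Vale.Agent.P257.X Vale.Agent.P257.N

variable {p : ℕ} {s : ℕ} {N M : ℤ}

theorem hOt : Ok (pf 0 1 0) :=
  ok_pf (by omega) (by omega) (by omega) (by omega) (by omega) (by omega)

theorem hOb : Ok (pf 0 1 1) :=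
  ok_pf (by omega) (by omega) (by omega) (by omega) (by omega) (by omega)

theorem hO : Ok (pf 0 2 1) :=
  ok_pf (by omega) (by omega) (by omega) (by omega) (by omega) (by omega)

theorem hF : Ok (pf 3 2 1) :=
  ok_pf (by omega) (by omega) (by omega) (by omega) (by omega) (by omega)

theorem hPrk : Prk (pf 0 2 1) 0 3 := by
  intro n' hn'
  unfold pf
  split_ifs <;> omega

theorem pr000_1 : Pr (pf 0 0 0) 1 := by
  intro n' hn'
  unfold pf
  split_ifs <;> omega

theorem pr010_2 : Pr (pf 0 1 0) 2 := by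
  intro n' hn'
  unfold pf
  split_ifs <;> omega

theorem pr011_1 : Pr (pf 0 1 1) 1 := by
  intro n' hn'
  unfold pf
  split_ifs <;> omega

/-- The digit complexes on the coefficients `{t_1 ^ a} ⊗ F_p[t_2 ^ (p ^ 2), t_3 ^ p]`. -/
noncomputable abbrev cT (p : ℕ) [Fact p.Prime] (j : ℕ) (hj : j ≤ 3) : Cpx (KP p) :=
  KTI p 3 (pf 0 2 1) hO 0 3 hPrk j hj

variable [Fact p.Prime]

theorem exL_000 (h : Ok (pf 0 0 0)) : ExL p (KI p 3 (pf 0 0 0) h) [] :=
  exL_top.congr pf_zero.symm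

theorem exL_010 : ExL p (KI p 3 (pf 0 1 0) hOt) [(1, 0)] := by
  have h0 : Ok (pf 0 0 0) :=
    ok_pf (by omega) (by omega) (by omega) (by omega) (by omega) (by omega)
  exact ((exL_000 h0).up pr000_1 (by omega)).congr (up_pf1 0 0 0)

theorem exL_011 : ExL p (KI p 3 (pf 0 1 1) hOb) [(2, 0), (1, 0)] :=
  (exL_010.up pr010_2 (by omega)).congr (up_pf2 0 1 0)

theorem exL_021 : ExL p (KI p 3 (pf 0 2 1) hO) [(1, 1), (2, 0), (1, 0)] :=
  (exL_011.up pr011_1 (by omega)).congr (up_pf1 0 1 1)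

theorem exL_T3 : ExL p (cT p 3 le_rfl) [(1, 1), (2, 0), (1, 0)] :=
  exL_021.hasse_top hPrk

theorem exL_T2 : ExL p (cT p 2 (by omega)) [(0, 2), (1, 1), (2, 0), (1, 0)] :=
  exL_T3.hasse (by omega) (by omega)

theorem exL_T1 : ExL p (cT p 1 (by omega)) [(0, 1), (0, 2), (1, 1), (2, 0), (1, 0)] :=
  exL_T2.hasse (by omega) (by omega)

/-- Exactness from the absence of monomials. -/
theorem ExL.of_int {C : Cpx (KP p)} {L : List (ℕ × ℕ)} (h : ExL p C L)
    (H : ∀ N' : ℕ, (N' : ℤ) = N → ¬ Mon p L s N') : C.Ex s N := by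
  rcases lt_or_ge N 0 with h1 | h1
  · exact h.neg _ _ h1
  · obtain ⟨N', rfl⟩ := Int.eq_ofNat_of_zero_le h1
    exact h.nn _ _ (H N' rfl)

/-- `D k = 1 + p + k (p + p² + p³)`. -/
def dK (p : ℕ) (k : ℕ) : ℤ := 1 + p + k * (p + p ^ 2 + p ^ 3)

omit [Fact p.Prime] in
theorem dK_cast (k : ℕ) : (P257.N.DD p k : ℤ) = dK p k := by
  unfold P257.N.DD dK; push_cast; ring

section Count

variable (hp : 11 ≤ p) {k : ℕ}
include hp

theorem exK4a (hk : 1 ≤ k) (hk' : k ≤ p - 2) :
    (KI p 3 (pf 0 2 1) hO).Ex (2 * k) (dK p k - p ^ 2) :=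
  exL_021.of_int fun N' hN' => K4a hp (by decide) (by decide) (by decide) (by decide) hk
    (by omega) (by zify; rw [dK_cast]; linarith)

theorem exK4b (hk : 1 ≤ k) (hk' : k ≤ p - 2) :
    (cT p 2 (by omega)).Ex (2 * k - 1) (dK p k - p ^ 3) :=
  exL_T2.of_int fun N' hN' => K4b hp (by decide) (by decide) (by decide) hk
    (by omega) (by zify; rw [dK_cast]; linarith)

theorem exK4c : (KI p 3 (pf 0 1 1) hOb).Ex (2 * k) (dK p k - p - p ^ 2) :=
  exL_011.of_int fun N' hN' => K4c hp (by decide) (by decide) (by decide) (by decide) (by decide)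
    (by zify; rw [dK_cast]; linarith)

theorem exK4d (hk : 1 ≤ k) (hk' : k ≤ p - 2) :
    (KI p 3 (pf 0 2 1) hO).Ex (2 * k - 1) (dK p k - p ^ 2 - p ^ 3) :=
  exL_021.of_int fun N' hN' => K4d hp (by decide) (by decide) (by decide) (by decide) hk
    (by omega) (by zify; rw [dK_cast]; linarith)

theorem exK5a (hk : 1 ≤ k) : (KI p 3 (pf 0 1 0) hOt).Ex (2 * k + 1) (dK p k) :=
  exL_010.of_int fun N' hN' => by
    obtain rfl : N' = P257.N.DD p k := by zify; rw [dK_cast, hN']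
    exact K5a hp (by decide) (by decide) hk

theorem exK5b (hk : 1 ≤ k) :
    (KI p 3 (pf 0 1 0) hOt).Ex (2 * k) (dK p k - (1 + p + p ^ 2)) :=
  exL_010.of_int fun N' hN' => K5b hp (by decide) (by decide) hk
    (by zify; rw [dK_cast]; linarith)

theorem exK6 : (KI p 3 (pf 0 2 1) hO).Ex 2 (1 + 2 * p + p ^ 3) :=
  exL_021.of_int fun N' hN' => by
    obtain rfl : N' = 1 + 2 * p + p ^ 3 := by exact_mod_cast hN'
    exact K6 hp (by decide) (by decide) (by decide) (by decide)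

end Count

end Vale.Agent.P257.B
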