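import Mathlib
import Vale.Agent.P257.B.Prof

/-! `H^(1, 1 + p)` with coefficients in `F_p[t_1, t_2 ^ p, t_3 ^ p]`. -/

namespace Vale.Agent.P257.B

open MvPolynomial Finset Vale.Agent.P257.Q.PC Vale.Agent.P257.X Vale.Agent.P257.N

variable {p : ℕ} {I : ℕ → ℕ} {s : ℕ} {N M : ℤ}

theorem cop_one (hI : I 1 = 0) (i : ℕ) : cop p I i 1 = tt p i 1 + tt p (i + 1) 1 := by
  have hJ : J I i 1 = 0 := by unfold J; split_ifs <;> simp [hI]
  unfold cop
  simp [sum_range_succ, hJ]

/-- On the variables `t_1` the faces do not depend on the thresholds. -/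
theorem ph_congr_one {I' : ℕ → ℕ} (hI : I 1 = 0) (hI' : I' 1 = 0) (i : ℕ) {f : KP p}
    (hf : f ∈ KK p 1 I s N) : ph p I i f = ph p I' i f := by
  have h1 : f ∈ supported (ZMod p) {x : ℕ × ℕ | x.2 < 1} :=
    mem_supported_iff.2 fun u hu x hx => ((hf u hu).1 x hx).2
  refine eqOn_supported (ph p I i) (ph p I' i) (V := {x : ℕ × ℕ | x.2 < 1}) (fun x hx => ?_) h1
  obtain ⟨j, k⟩ := x
  obtain rfl : k = 0 := by
    have : k < 1 := hx
    omega
  rw [← tt_succ]
  rcases lt_trichotomy j i with h | rfl | h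
  · rw [ph_tt_lt h, ph_tt_lt h]
  · rw [ph_tt_eq, ph_tt_eq, zero_add, cop_one hI, cop_one hI']
  · rw [ph_tt_gt h, ph_tt_gt h]

theorem wI_congr_one {I' : ℕ → ℕ} (hI : I 1 = 0) (hI' : I' 1 = 0) (j : ℕ) :
    wI p I (j, 0) = wI p I' (j, 0) := by
  have hJ : J I j 1 = J I' j 1 := by unfold J; rw [hI, hI']
  unfold wI
  rw [zero_add, hJ]

theorem KK_congr_one {I' : ℕ → ℕ} (hI : I 1 = 0) (hI' : I' 1 = 0) {f : KP p}
    (hf : f ∈ KK p 1 I s N) : f ∈ KK p 1 I' s N := by
  intro e he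
  obtain ⟨h1, h2⟩ := hf e he
  refine ⟨h1, ?_⟩
  rw [← h2]
  congr 1
  refine Finsupp.sum_congr fun x hx => ?_
  have h3 := (h1 x hx).2
  obtain ⟨j, k⟩ := x
  obtain rfl : k = 0 := by
    have : k < 1 := h3
    omega
  rw [wI_congr_one hI hI']

theorem ex_one [Fact p.Prime] (hI : I 1 = 0) {f : KP p}
    (hf : f ∈ KK p 1 I (s + 1) N) (hd : dd p I (s + 1) f = 0) :
    ∃ g ∈ KK p 1 I s N, dd p I s g = f := by
  obtain ⟨g, hg, hg'⟩ := ex_top (p := p) (m := 1) (s := s + 1) (N := N) (Or.inl (by omega)) f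
    ⟨KK_congr_one (I' := fun _ => 0) hI rfl hf, by
      change dd p (fun _ => 0) (s + 1) f = 0
      rw [← hd, dd_apply, dd_apply]
      exact sum_congr rfl fun i _ => by rw [ph_congr_one (I' := fun _ => 0) hI rfl i hf]⟩
  have hg1 : g ∈ KK p 1 (fun _ => 0) s N := hg
  refine ⟨g, KK_congr_one (I := fun _ => 0) rfl hI hg, ?_⟩
  change dd p (fun _ => 0) s g = f at hg'
  rw [← hg', dd_apply, dd_apply]
  exact sum_congr rfl fun i _ => by rw [ph_congr_one (I := fun _ => 0) rfl hI i hg1]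

/-- `gG` is a cocycle. -/
theorem dd_gG [Fact p.Prime] (h1 : I 1 = 0) : dd p I 1 (gG p) = 0 := by
  have e10 : ∀ i, tt p i 1 = X (i, 0) := fun i => tt_succ i 0
  have e20 : ∀ i, tt p i 2 = X (i, 1) := fun i => tt_succ i 1
  have hJ : J I 0 1 = 0 := by simp [J, h1]
  have a0 : ph p I 0 (X (0, 0)) = X (0, 0) + X (1, 0) := by
    rw [← e10, ph_tt_eq, cop_one h1, e10, zero_add, e10]
  have a1 : ∀ k, ph p I 0 (X (1, k)) = X (2, k) := fun k => by
    rw [← tt_succ, ph_tt_gt (by omega), tt_succ]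
  have b0 : ph p I 1 (X (0, 0)) = X (0, 0) := by rw [← e10, ph_tt_lt (by omega)]
  have b1 : ph p I 1 (X (1, 0)) = X (1, 0) + X (2, 0) := by
    rw [← e10, ph_tt_eq, cop_one h1, e10, e10]
  have b2 : ph p I 1 (X (1, 1)) = X (1, 1) + X (2, 0) * X (1, 0) ^ p + X (2, 1) := by
    rw [← e20, ph_tt_eq]
    unfold cop
    simp [sum_range_succ, J_succ]
  have c0 : ∀ k, ph p I 2 (X (0, k)) = X (0, k) := fun k => by
    rw [← tt_succ, ph_tt_lt (by omega)]
  have c1 : ∀ k, ph p I 2 (X (1, k)) = X (1, k) := fun k => by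
    rw [← tt_succ, ph_tt_lt (by omega)]
  rw [dd_one, gG]
  simp only [map_sub, map_mul, map_pow, a0, a1, b0, b1, b2, c0, c1]
  rw [pow_add (X (1, 0) + X (2, 0)), pow_one, add_pow_char]
  ring

theorem wI_zero (h1 : I 1 = 0) (j : ℕ) : wI p I (j, 0) = 1 := by
  have hJ : J I j (0 + 1) = 0 := by unfold J; split_ifs <;> simp [h1]
  unfold wI
  simp only [hJ]
  simp [wt]

theorem wI_one_one : wI p I (1, 1) = 1 + p := by
  unfold wI
  simp [J, wt, sum_range_succ]

theorem gG_mem (h1 : I 1 = 0) : gG p ∈ KK p 3 I 1 (1 + p) := by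
  have e0 : ∀ j, j ≤ 1 → (X (j, 0) : KP p) ∈ KK p 3 I 1 1 := fun j hj => by
    have := KK.X (p := p) (m := 3) (I := I) (s := 1) (x := (j, 0)) hj (by norm_num)
    rwa [wI_zero h1] at this
  have e1 : (X (1, 1) : KP p) ∈ KK p 3 I 1 (1 + p) := by
    have := KK.X (p := p) (m := 3) (I := I) (s := 1) (x := (1, 1)) (by norm_num) (by norm_num)
    rw [wI_one_one] at this
    exact_mod_cast this
  unfold gG
  refine sub_mem (sub_mem e1 ?_) ?_
  · have := KK.pow (e0 1 le_rfl) (1 + p)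
    rwa [show (((1 + p : ℕ) : ℤ) * 1) = 1 + p by push_cast; ring] at this
  · have := KK.mul (e0 0 (by norm_num)) (KK.pow (e0 1 le_rfl) p)
    rwa [mul_one] at this

theorem coeff_gG : coeff (Finsupp.single (1, 1) 1) (gG p) = 1 := by
  classical
  have h1 : (X (0, 0) * X (1, 0) ^ p : KP p) =
      monomial (Finsupp.single (0, 0) 1 + Finsupp.single (1, 0) p) 1 := by
    rw [X_pow_eq_monomial, X, monomial_mul, mul_one]
  have n1 : Finsupp.single ((1, 0) : ℕ × ℕ) (1 + p) ≠ Finsupp.single (1, 1) 1 := by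
    intro h
    have := DFunLike.congr_fun h (1, 1)
    simp at this
  have n2 : Finsupp.single ((0, 0) : ℕ × ℕ) 1 + Finsupp.single (1, 0) p ≠
      Finsupp.single (1, 1) 1 := by
    intro h
    have := DFunLike.congr_fun h (1, 1)
    simp at this
  rw [gG, coeff_sub, coeff_sub, h1, coeff_X_pow, if_neg n1, coeff_monomial, if_neg n2, coeff_X]
  simp

theorem wI_lt (hp : 2 ≤ p) {j k : ℕ} (hk : 1 ≤ k) (hk3 : k < 3) (hjk : (j, k) ≠ (1, 1))
    (hj : j ≤ 1) : 1 + p < wI p (pf 0 1 1) (j, k) := by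
  have hp2 : p ^ 2 = p * p := by ring
  have h2 : 2 * p ≤ p * p := Nat.mul_le_mul_right _ hp
  obtain rfl | rfl : k = 1 ∨ k = 2 := by omega
  · obtain rfl : j = 0 := by
      rcases Nat.lt_or_ge 0 j with h | h
      · exact absurd (by rw [show j = 1 by omega]) hjk
      · omega
    simp only [wI, J, pf, wt, sum_range_succ, sum_range_zero]
    simp
    nlinarith
  · rcases Nat.lt_or_ge 0 j with h | h
    · obtain rfl : j = 1 := by omega
      simp only [wI, J, pf, wt, sum_range_succ, sum_range_zero]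
      simp
      nlinarith
    · obtain rfl : j = 0 := by omega
      simp only [wI, J, pf, wt, sum_range_succ, sum_range_zero]
      simp
      nlinarith [Nat.zero_le (p * p ^ 2)]

/-- The group `H^(1, 1 + p)`. -/
theorem base [Fact p.Prime] {z : KP p} (hz : (KI p 3 (pf 0 1 1) hOb).Z 1 (1 + p) z) :
    ∃ c : ZMod p, (KI p 3 (pf 0 1 1) hOb).B 1 (1 + p) (z - c • gG p) := by
  have hp := (Fact.out (p := p.Prime)).two_le
  have h1 : pf 0 1 1 1 = 0 := rfl
  obtain ⟨hz1, hz2⟩ := hz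
  change z ∈ KK p 3 (pf 0 1 1) 1 (1 + p) at hz1
  change dd p (pf 0 1 1) 1 z = 0 at hz2
  refine ⟨coeff (Finsupp.single (1, 1) 1) z, ?_⟩
  set c := coeff (Finsupp.single (1, 1) 1) z with hc
  have hm : z - c • gG p ∈ KK p 3 (pf 0 1 1) 1 (1 + p) := sub_mem hz1 (KK.smul (gG_mem h1) c)
  have hc0 : coeff (Finsupp.single (1, 1) 1) (z - c • gG p) = 0 := by
    rw [coeff_sub, coeff_smul, coeff_gG, smul_eq_mul, mul_one, ← hc, sub_self]
  have hm1 : z - c • gG p ∈ KK p 1 (pf 0 1 1) 1 (1 + p) := by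
    intro e he
    obtain ⟨h2, h3⟩ := hm e he
    refine ⟨fun x hx => ⟨(h2 x hx).1, ?_⟩, h3⟩
    by_contra hk
    have h4 : (e.sum fun x a => a * wI p (pf 0 1 1) x) = 1 + p := by exact_mod_cast h3
    have h5 : e x * wI p (pf 0 1 1) x ≤ 1 + p := by
      rw [← h4]
      exact single_le_sum (f := fun x => e x * wI p (pf 0 1 1) x) (fun _ _ => Nat.zero_le _) hx
    have h6 : 1 ≤ e x := Nat.one_le_iff_ne_zero.2 (Finsupp.mem_support_iff.1 hx)
    obtain ⟨j, k⟩ := x
    by_cases hjk : (j, k) = (1, 1)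
    · rw [hjk, wI_one_one] at h5
      rw [hjk] at h6 hx
      have h7 : e (1, 1) = 1 := by
        by_contra h8
        have : 2 * (1 + p) ≤ e (1, 1) * (1 + p) := Nat.mul_le_mul_right _ (by omega)
        omega
      have h8 : e = Finsupp.single (1, 1) 1 := by
        refine Finsupp.ext fun y => ?_
        rw [Finsupp.single_apply]
        split_ifs with hy
        · rw [← hy, h7]
        · by_contra h9
          have hy' : y ∈ e.support := Finsupp.mem_support_iff.2 h9
          have h10 : e (1, 1) * wI p (pf 0 1 1) (1, 1) + e y * wI p (pf 0 1 1) y ≤ 1 + p := by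
            rw [← h4]
            have := sum_le_sum_of_subset (f := fun x => e x * wI p (pf 0 1 1) x)
              (show {(1, 1), y} ⊆ e.support by
                intro w hw
                rw [Finset.mem_insert, Finset.mem_singleton] at hw
                rcases hw with rfl | rfl
                · exact hx
                · exact hy')
            rw [sum_pair hy] at this
            exact this
          have h11 : 0 < wI p (pf 0 1 1) y := by
            unfold wI
            refine Nat.mul_pos (pow_pos (by omega) _) ?_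
            rw [wt_eq]
            exact sum_pos (fun i _ => pow_pos (by omega) _) ⟨0, by simp⟩
          have h12 : 0 < e y * wI p (pf 0 1 1) y := Nat.mul_pos (Nat.pos_of_ne_zero h9) h11
          rw [h7, wI_one_one] at h10
          omega
      rw [h8, mem_support_iff] at he
      exact he hc0
    · have h7 := wI_lt hp (show 1 ≤ k from not_lt.1 hk) (h2 _ hx).2 hjk (h2 _ hx).1
      have h8 : 1 * wI p (pf 0 1 1) (j, k) ≤ e (j, k) * wI p (pf 0 1 1) (j, k) :=
        Nat.mul_le_mul_right _ h6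
      omega
  obtain ⟨g, hg, hg'⟩ := ex_one (s := 0) h1 hm1 (by
    rw [map_sub, hz2]
    have : dd p (pf 0 1 1) 1 (c • gG p) = c • dd p (pf 0 1 1) 1 (gG p) := by
      rw [dd_apply, dd_apply, smul_sum]
      exact sum_congr rfl fun i _ => by rw [map_smul, smul_comm]
    rw [this, dd_gG h1, smul_zero, sub_zero])
  exact ⟨g, KK.mono hg (by omega) le_rfl, hg'⟩

end Vale.Agent.P257.B
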