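import Mathlib
import Vale.Agent.P257.B.Elts

/-! The operator `bet`: product with the transpotence of `om = d t_3`, in the profile `(0, 1, 1)`. -/

namespace Vale.Agent.P257.B

open MvPolynomial Finset Vale.Agent.P257.Q.PC Vale.Agent.P257.X Vale.Agent.P257.E

variable {p m : ℕ} {I : ℕ → ℕ} {s : ℕ} {N M : ℤ} {n K : ℕ}

theorem okt : Ok (pf 0 1 0) := ok_pf (by omega) (by omega) (by omega) (by omega) (by omega)
  (by omega)

theorem okb : Ok (pf 0 1 1) := ok_pf (by omega) (by omega) (by omega) (by omega) (by omega)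
  (by omega)

theorem prt : Pr (pf 0 1 0) 2 := by
  intro n' hn'
  unfold pf
  split_ifs <;> omega

theorem ph_zero_X00 (h1 : I 1 = 0) : ph p I 0 (X (0, 0)) = X (0, 0) + X (1, 0) := by
  rw [← tt_succ, ph_tt_eq]
  simp [cop, sum_range_succ, J, h1]

theorem ph_zero_tau : ph p (pf 0 1 0) 0 (X (0, 2)) = om p + X (0, 2) := by
  rw [← tt_succ, ph_tt_eq]
  simp only [cop, sum_range_succ, range_zero, sum_empty, J, pf]
  simp [om]
  ring

theorem om_mem {c : ℕ} : om p ∈ KK p 3 (pf 0 1 c) 1 (1 + p + p ^ 2) := by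
  unfold om
  have w0 : (wI p (pf 0 1 c) (1, 2) : ℤ) = 1 + p + p ^ 2 := by
    simp [wI, J, wt, sum_range_succ]
  have w1 : (wI p (pf 0 1 c) (1, 1) : ℤ) = 1 + p := by
    simp [wI, J, wt, sum_range_succ]
  have w2 : (wI p (pf 0 1 c) (0, 0) : ℤ) = 1 := by
    simp [wI, J, wt, pf]
  have w3 : (wI p (pf 0 1 c) (1, 0) : ℤ) = 1 := by
    simp [wI, J, wt]
  have w4 : (wI p (pf 0 1 c) (0, 1) : ℤ) = p * (1 + p) := by
    simp [wI, J, wt, pf, sum_range_succ]
  have a0 := KK.X (p := p) (m := 3) (I := pf 0 1 c) (s := 1) (x := (1, 2)) le_rfl (by norm_num)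
  have a1 := KK.X (p := p) (m := 3) (I := pf 0 1 c) (s := 1) (x := (1, 1)) le_rfl (by norm_num)
  have a2 := KK.X (p := p) (m := 3) (I := pf 0 1 c) (s := 1) (x := (0, 0)) (by norm_num)
    (by norm_num)
  have a3 := KK.X (p := p) (m := 3) (I := pf 0 1 c) (s := 1) (x := (1, 0)) le_rfl (by norm_num)
  have a4 := KK.X (p := p) (m := 3) (I := pf 0 1 c) (s := 1) (x := (0, 1)) (by norm_num)
    (by norm_num)
  rw [w0] at a0
  rw [w1] at a1
  rw [w2] at a2
  rw [w3] at a3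
  rw [w4] at a4
  refine add_mem (add_mem a0 ?_) ?_
  · have := KK.mul a1 (KK.pow a2 (p ^ 2))
    rwa [show (1 + p + ((p ^ 2 : ℕ) : ℤ) * 1 : ℤ) = 1 + p + p ^ 2 by push_cast; ring] at this
  · have := KK.mul a3 a4
    rwa [show (1 + (p : ℤ) * (1 + p) : ℤ) = 1 + p + p ^ 2 by ring] at this

theorem dd_tau : dd p (pf 0 1 0) 0 (X (0, 2)) = om p := by
  rw [dd_zero, ph_zero_tau]
  have : ph p (pf 0 1 0) 1 (X (0, 2)) = X (0, 2) := by
    rw [← tt_succ, ph_tt_lt (by norm_num)]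
  rw [this, add_sub_cancel_right]

theorem cyc_om_t [Fact p.Prime] : Cyc p (pf 0 1 0) (om p) := by
  refine Cyc.of_mem om_mem ?_
  have := dd_dd (p := p) okt 0 (X (0, 2))
  rwa [dd_tau] at this

theorem rho_om : rho p 2 (om p) = om p := by
  simp [om, rho]

theorem up_t : up (pf 0 1 0) 2 = pf 0 1 1 := up_pf2 0 1 0

theorem rho_ph_b [Fact p.Prime] (i : ℕ) (f : KP p) :
    rho p 2 (ph p (pf 0 1 1) i f) = ph p (pf 0 1 0) i (rho p 2 f) := by
  have := rho_ph okt prt i f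
  rwa [up_t] at this

theorem cyc_om [Fact p.Prime] : Cyc p (pf 0 1 1) (om p) := by
  refine ⟨rho_inj 2 ?_, rho_inj 2 ?_⟩
  · rw [rho_ph_b, map_add, rho_ph_b, rho_om, cyc_om_t.one]
  · rw [rho_ph_b, rho_om, cyc_om_t.two]

theorem KK.gam {f g : KP p} (hf : f ∈ KK p m I s N) (hg : g ∈ KK p m I s N) :
    gam p f g ∈ KK p m I s (p * N) := by
  unfold E.gam
  refine sum_mem fun i hi => ?_
  rw [mem_Ioo] at hi
  have h1 := KK.mul (KK.pow hf i) (KK.pow hg (p - i))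
  rw [show (i : ℤ) * N + ((p - i : ℕ) : ℤ) * N = p * N by
    rw [Nat.cast_sub hi.2.le]; ring] at h1
  have h2 : ((p.choose i / p : ℕ) : KP p) = MvPolynomial.C ((p.choose i / p : ℕ) : ZMod p) := by simp
  rw [mul_assoc, h2]
  exact KK.smulC h1 _

theorem KK.pz (hI : Ok I) (r : ℕ) {f : KP p} (hf : f ∈ KK p m I s N) :
    pz p I r f ∈ KK p m I (s + r) N := by
  induction r with
  | zero => exact hf
  | succ r ih => rw [pz_succ]; exact KK.ph hI ih

theorem tr_mem (hI : Ok I) {a : KP p} (ha : a ∈ KK p m I 1 N) :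
    tr p I a ∈ KK p m I 2 (p * N) :=
  KK.gam (KK.mono ha le_rfl (by norm_num)) (KK.ph hI ha)

theorem rho_pz [Fact p.Prime] (r : ℕ) (f : KP p) :
    rho p 2 (pz p (pf 0 1 1) r f) = pz p (pf 0 1 0) r (rho p 2 f) := by
  induction r with
  | zero => rfl
  | succ r ih => rw [pz_succ, rho_ph_b, ih, pz_succ]

theorem rho_tr [Fact p.Prime] : rho p 2 (tr p (pf 0 1 1) (om p)) = tr p (pf 0 1 0) (om p) := by
  unfold tr
  have := map_gam (p := p) (rho p 2).toRingHom (om p) (ph p (pf 0 1 1) 0 (om p))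
  have h2 : rho p 2 (gam p (om p) (ph p (pf 0 1 1) 0 (om p))) =
    gam p (rho p 2 (om p)) (rho p 2 (ph p (pf 0 1 1) 0 (om p))) := this
  rw [h2, rho_ph_b, rho_om]

/-- Product with minus the transpotence of `a`. -/
noncomputable def betI (p : ℕ) (I : ℕ → ℕ) (a : KP p) : KP p →+ KP p where
  toFun f := -(pz p I 2 f * tr p I a)
  map_zero' := by simp
  map_add' f g := by rw [map_add]; ring

theorem betI_apply (a f : KP p) : betI p I a f = -(pz p I 2 f * tr p I a) := rfl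

theorem rho_bet [Fact p.Prime] (f : KP p) :
    rho p 2 (betI p (pf 0 1 1) (om p) f) = betI p (pf 0 1 0) (om p) (rho p 2 f) := by
  rw [betI_apply, betI_apply, map_neg, map_mul, rho_pz, rho_tr]

theorem betI_mem (hI : Ok I) {a f : KP p} (ha : a ∈ KK p m I 1 M) (hf : f ∈ KK p m I s N) :
    betI p I a f ∈ KK p m I (s + 2) (N + p * M) := by
  rw [betI_apply]
  refine neg_mem (KK.mul (KK.pz hI 2 hf) ?_)
  exact KK.mono (tr_mem hI ha) le_rfl (by omega)

theorem betI_dd [Fact p.Prime] (hI : Ok I) {a : KP p} (ha : a ∈ KK p m I 1 M) (hc : Cyc p I a)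
    (f : KP p) : betI p I a (dd p I s f) = dd p I (s + 2) (betI p I a f) := by
  have h1 : ∀ i, 2 < i → ph p I i (tr p I a) = tr p I a := fun i hi => ph_of_lt (tr_mem hI ha) hi
  rw [betI_apply, betI_apply, map_neg, dd_star hI s 2 f _ h1, hc.dd_tr hI (h1 3 (by norm_num)),
    mul_zero, zero_add]
  norm_num

theorem DD_pz [Fact p.Prime] {k : ℕ} (hk : Pr I k) (r : ℕ) (f : KP p) :
    DD p k (pz p I r f) = pz p I r (DD p k f) := by
  induction r with
  | zero => rfl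
  | succ r ih => rw [pz_succ, DD_apply, pderiv_ph hk, ← DD_apply, ih, pz_succ]

theorem DD_om (k : ℕ) (hk : k = 2) : DD p k (om p) = 0 := by
  subst hk
  rw [DD_apply, om]
  simp only [map_add, pderiv_mul, pderiv_pow]
  rw [pderiv_X_of_ne (by simp), pderiv_X_of_ne (by simp), pderiv_X_of_ne (by simp),
    pderiv_X_of_ne (by simp), pderiv_X_of_ne (by simp)]
  simp

theorem pderiv_gam [Fact p.Prime] (x : ℕ × ℕ) (f g : KP p) : pderiv x (gam p f g) =
    (f + g) ^ (p - 1) * (pderiv x f + pderiv x g) - f ^ (p - 1) * pderiv x f -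
      g ^ (p - 1) * pderiv x g :=
  derivation_gam (Fact.out (p := p.Prime)) (pderiv x) f g

theorem DD_tr [Fact p.Prime] : DD p 2 (tr p (pf 0 1 0) (om p)) = 0 := by
  have h1 : pderiv ((0, 2) : ℕ × ℕ) (om p) = 0 := DD_om 2 rfl
  rw [DD_apply, tr, pderiv_gam, pderiv_ph prt, h1]
  simp

theorem op_t [Fact p.Prime] : Cpx.Op ((KI p 3 (pf 0 1 0) okt).Ker (der okt prt (by norm_num)))
    (p * (1 + p + p ^ 2)) (betI p (pf 0 1 0) (om p)) where
  mem s N f hf := by
    refine ⟨betI_mem okt om_mem hf.1, ?_⟩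
    change DD p 2 _ = 0
    have h1 : DD p 2 f = 0 := hf.2
    rw [betI_apply, map_neg, DD_apply, pderiv_mul, ← DD_apply, ← DD_apply, DD_pz prt, h1, DD_tr]
    simp
  comm s N f _ := betI_dd okt om_mem cyc_om_t f

theorem wI_t : (wI p (pf 0 1 0) (0, 2) : ℤ) = 1 + p + p ^ 2 := by
  simp [wI, J, wt, pf, sum_range_succ]

/-- The two connecting homomorphisms. -/
theorem cone_t [Fact p.Prime] {s : ℕ} {N : ℤ} (h1 : (KI p 3 (pf 0 1 0) okt).Ex s N)
    (h2 : ∀ s', s = s' + 1 → (KI p 3 (pf 0 1 0) okt).Ex s' (N - (1 + p + p ^ 2))) :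
    (((KI p 3 (pf 0 1 0) okt).Ker (der okt prt (by norm_num))).Cone op_t).Ex s N := by
  have hp := Fact.out (p := p.Prime)
  have hp1 : ((p - 1 : ℕ) : ℤ) = (p - 1 : ℤ) := by
    rw [Nat.cast_sub hp.one_le]; push_cast; ring
  refine (der okt prt (by norm_num)).cone_ker hp.one_le (by rw [wI_t]) op_t ?_ h1
    (fun s' hs' => by rw [wI_t]; exact h2 s' hs')
  intro s N z hz
  have hz1 : z ∈ KK p 3 (pf 0 1 0) s N := hz.1.1
  have hz2 : pderiv ((0, 2) : ℕ × ℕ) z = 0 := hz.1.2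
  have hz3 : dd p (pf 0 1 0) s z = 0 := hz.2
  have hτ : ∀ i, 0 < i → ph p (pf 0 1 0) i (X (0, 2) : KP p) = X (0, 2) := by
    intro i hi
    rw [← tt_succ, ph_tt_lt hi]
  have hτm : (X (0, 2) : KP p) ∈ KK p 3 (pf 0 1 0) 0 (1 + p + p ^ 2) := by
    have := KK.X (p := p) (m := 3) (I := pf 0 1 0) (s := 0) (x := (0, 2)) le_rfl (by norm_num)
    rwa [wI_t] at this
  have hd : ph p (pf 0 1 0) 0 (X (0, 2)) - X (0, 2) = om p := by
    rw [ph_zero_tau, add_sub_cancel_right]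
  have e1 : dd p (pf 0 1 0) s (z * X (0, 2) ^ (p - 1)) =
      ph p (pf 0 1 0) 0 z * ((X (0, 2) + om p) ^ (p - 1) - X (0, 2) ^ (p - 1)) := by
    have := dd_star okt s 0 z (X (0, 2) ^ (p - 1)) (fun i hi => by rw [map_pow, hτ i hi])
    rw [add_zero, pz_zero] at this
    rw [this, hz3, dd_zero, map_pow, map_pow, hτ 1 (by norm_num), ph_zero_tau, pz_succ, pz_zero,
      map_zero, zero_mul, smul_zero, add_zero, add_comm (om p)]
  have hfac : (((p - 1).factorial : ℕ) : KP p) = -1 := by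
    have h5 : (((p - 1).factorial : ℕ) : KP p) = C (((p - 1).factorial : ℕ) : ZMod p) :=
      (map_natCast _ _).symm
    rw [h5, ZMod.wilsons_lemma p, map_neg, map_one]
  refine ⟨-(z * X (0, 2) ^ (p - 1)), ?_, -(ph p (pf 0 1 0) 0 z * gam p (X (0, 2)) (om p)), ?_,
    ?_, ?_, ?_⟩
  · refine neg_mem ?_
    have := KK.mul hz1 (KK.pow (KK.mono hτm le_rfl (Nat.zero_le s)) (p - 1))
    rwa [hp1, ← wI_t] at this
  · refine neg_mem ?_
    refine KK.mul (KK.ph okt hz1) (KK.gam ?_ ?_)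
    · exact KK.mono hτm le_rfl (Nat.zero_le _)
    · exact KK.mono om_mem le_rfl (by omega)
  · have h3 : (DD p 2)^[p - 1] (-(z * X (0, 2) ^ (p - 1))) =
        - (MvPolynomial.pderiv ((0, 2) : ℕ × ℕ))^[p - 1] (X (0, 2) ^ (p - 1) * z) := by
      rw [DD_iter, iter_neg, mul_comm]
    rw [h3, iter_mul_pow _ _ hz2, Nat.descFactorial_self, Nat.sub_self, pow_zero, one_mul, hfac]
    ring
  · change DD p 2 _ = dd p (pf 0 1 0) s _
    rw [map_neg, map_neg, e1, DD_apply, pderiv_mul, pderiv_ph prt, hz2, map_zero, zero_mul,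
      zero_add, pderiv_gam, pderiv_X_self]
    have h1 : pderiv ((0, 2) : ℕ × ℕ) (om p) = 0 := DD_om 2 rfl
    rw [h1]
    ring
  · change dd p (pf 0 1 0) (s + 1) _ = _
    rw [map_neg, betI_apply]
    have h4 : ∀ i, 1 < i → ph p (pf 0 1 0) i (gam p (X (0, 2)) (om p)) =
        gam p (X (0, 2)) (om p) := by
      intro i hi
      rw [gam_ph, hτ i (by omega), ph_of_lt om_mem hi]
    have := dd_star okt s 1 z (gam p (X (0, 2)) (om p)) h4
    rw [pz_succ, pz_zero] at this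
    rw [this, hz3, map_zero, zero_mul, smul_zero, add_zero]
    congr 2
    have h5 := dd_gam (p := p) okt (τ := X (0, 2)) (hτ 1 (by norm_num)) (hτ 2 (by norm_num))
    rwa [hd] at h5

/-- Surjectivity of the transpotence operator. -/
theorem bet_surj [Fact p.Prime] {s : ℕ} {N : ℤ}
    (h1 : (KI p 3 (pf 0 1 0) okt).Ex (s + 2) (N + p * (1 + p + p ^ 2)))
    (h2 : (KI p 3 (pf 0 1 0) okt).Ex (s + 1) (N + p * (1 + p + p ^ 2) - (1 + p + p ^ 2)))
    {f : KP p} (hf : (KI p 3 (pf 0 1 1) okb).Z (s + 2) (N + p * (1 + p + p ^ 2)) f) :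
    ∃ g, (KI p 3 (pf 0 1 1) okb).Z s N g ∧ (KI p 3 (pf 0 1 1) okb).B (s + 2)
      (N + p * (1 + p + p ^ 2)) (f - betI p (pf 0 1 1) (om p) g) := by
  have hiso : Cpx.Iso (KI p 3 (pf 0 1 1) okb)
      ((KI p 3 (pf 0 1 0) okt).Ker (der okt prt (by norm_num)))
      (rho p 2).toRingHom.toAddMonoidHom := by
    have := iso_up (p := p) (m := 3) okt prt (by norm_num)
    have h : ∀ (I' : ℕ → ℕ) (h' : Ok I'), I' = pf 0 1 1 →
      Cpx.Iso (KI p 3 I' h') ((KI p 3 (pf 0 1 0) okt).Ker (der okt prt (by norm_num)))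
      (rho p 2).toRingHom.toAddMonoidHom → Cpx.Iso (KI p 3 (pf 0 1 1) okb)
      ((KI p 3 (pf 0 1 0) okt).Ker (der okt prt (by norm_num)))
      (rho p 2).toRingHom.toAddMonoidHom := by
      intro I' h' hI' hh
      subst hI'
      exact hh
    exact h _ _ up_t this
  have hf' := (hiso.z_iff hf.1).2 hf
  obtain ⟨g, hg, hg'⟩ := (op_t (p := p)).epi (cone_t h1 (fun s' hs' => by
    obtain rfl : s' = s + 1 := by omega
    exact h2)) hf'
  obtain ⟨g0, hg0, rfl⟩ := hiso.surj _ _ _ hg.1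
  refine ⟨g0, (hiso.z_iff hg0).1 hg, hiso.b_iff.1 ?_⟩
  convert hg' using 1
  rw [map_sub]
  congr 1
  exact rho_bet g0

end Vale.Agent.P257.B
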