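import Mathlib
import Vale.Agent.P257.B.Prof

/-! `C1` and `C2` from the statements `STAR k`. -/

namespace Vale.Agent.P257.B

open MvPolynomial Finset Vale.Agent.P257.Q.PC Vale.Agent.P257.X Vale.Agent.P257.N

variable {p : ℕ} [Fact p.Prime]

/-- Exactness of the complex with coefficients `{t_1 ^ a : a < p ^ 2}` in the degree of
`h20 b30 ^ k`. -/
def STAR (p : ℕ) [Fact p.Prime] (k : ℕ) : Prop :=
  (cT p 2 (by omega)).Ex (2 * k + 1) (dK p k)

omit [Fact p.Prime] in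
theorem wI_021 : wI p (pf 0 2 1) (0, 0) = 1 := by
  simp [wI, J, pf, wt]

theorem ex_cT0 {s : ℕ} {N : ℤ} (h : (cT p 0 (by omega)).Ex s N) :
    (KI p 3 (pf 3 2 1) hF).Ex s N := by
  have h1 := (ex_bot (m := 3) 3 hO hPrk).1 h
  have key : ∀ I (hI : Ok I), I = pf 3 2 1 → (KI p 3 I hI).Ex s N →
      (KI p 3 (pf 3 2 1) hF).Ex s N := by
    rintro I hI rfl h2; exact h2
  exact key _ _ (upn_pf0 0 2 1 3) h1

variable (hp : 11 ≤ p)
include hp

theorem ex_T1_C1 (h : STAR p (p - 2)) : (cT p 1 (by omega)).Ex (2 * p - 3) (dK p (p - 2)) := by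
  refine towerH hO (by omega) hPrk (by omega) _ _ fun s' ε k hε hs => ?_
  rw [wI_021]
  by_cases h0 : ε = 0 ∧ k = 0
  · obtain ⟨rfl, rfl⟩ := h0
    obtain rfl : s' = 2 * (p - 2) + 1 := by omega
    have h' : (cT p 2 (by omega)).Ex (2 * (p - 2) + 1) (dK p (p - 2)) := h
    simpa using h'
  · refine exL_T2.of_int fun N' hN' => K2 hp (by decide) (by decide) (by decide)
      (ε := ε) (j := k) (by omega) hε (by omega) ?_
    zify
    rw [dK_cast, hN']
    push_cast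
    ring

theorem C1 (h : STAR p (p - 2)) :
    (KI p 3 (pf 3 2 1) hF).Ex (2 * p - 3) (1 - p - p ^ 2 - p ^ 3 + p ^ 4) := by
  have e : (1 - p - p ^ 2 - p ^ 3 + p ^ 4 : ℤ) = dK p (p - 2) := by
    unfold dK
    rw [Nat.cast_sub (by omega)]
    push_cast
    ring
  rw [e]
  refine ex_cT0 (towerH hO (by omega) hPrk (by omega) _ _ fun s' ε k hε hs => ?_)
  rw [wI_021]
  by_cases h0 : ε = 0 ∧ k = 0
  · obtain ⟨rfl, rfl⟩ := h0
    obtain rfl : s' = 2 * p - 3 := by omega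
    simpa using ex_T1_C1 hp h
  · refine exL_T1.of_int fun N' hN' => K1a hp (by decide) (by decide)
      (ε := ε) (j := k) (by omega) hε (by omega) ?_
    zify
    rw [dK_cast, hN']
    push_cast
    ring

theorem ex_T1_C2 (h : STAR p (p - 3)) :
    (cT p 1 (by omega)).Ex (2 * p - 4) (p + dK p (p - 3)) := by
  refine towerH hO (by omega) hPrk (by omega) _ _ fun s' ε k hε hs => ?_
  rw [wI_021]
  by_cases h0 : ε = 1 ∧ k = 0
  · obtain ⟨rfl, rfl⟩ := h0
    obtain rfl : s' = 2 * (p - 3) + 1 := by omega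
    have h' : (cT p 2 (by omega)).Ex (2 * (p - 3) + 1) (dK p (p - 3)) := h
    simpa using h'
  · refine exL_T2.of_int fun N' hN' => K3 hp (by decide) (by decide) (by decide)
      (ε := ε) (j := k) (by omega) hε (by omega) ?_
    zify
    rw [dK_cast, hN']
    push_cast
    ring

theorem C2 (h : STAR p (p - 3)) :
    (KI p 3 (pf 3 2 1) hF).Ex (2 * p - 4) (1 - p - 2 * p ^ 2 - 2 * p ^ 3 + p ^ 4) := by
  have e : (1 - p - 2 * p ^ 2 - 2 * p ^ 3 + p ^ 4 : ℤ) = p + dK p (p - 3) := by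
    unfold dK
    rw [Nat.cast_sub (by omega)]
    push_cast
    ring
  rw [e]
  refine ex_cT0 (towerH hO (by omega) hPrk (by omega) _ _ fun s' ε k hε hs => ?_)
  rw [wI_021]
  by_cases h0 : ε = 0 ∧ k = 0
  · obtain ⟨rfl, rfl⟩ := h0
    obtain rfl : s' = 2 * p - 4 := by omega
    simpa using ex_T1_C2 hp h
  · refine exL_T1.of_int fun N' hN' => K1b hp (by decide) (by decide)
      (ε := ε) (j := k) (by omega) hε (by omega) ?_
    zify
    rw [dK_cast, hN']
    push_cast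
    ring

/-- All cases of `STAR` give `C1` and `C2`. -/
theorem C12 (h : ∀ k, 1 ≤ k → k ≤ p - 2 → STAR p k) :
    (KI p 3 (pf 3 2 1) hF).Ex (2 * p - 3) (1 - p - p ^ 2 - p ^ 3 + p ^ 4) ∧
    (KI p 3 (pf 3 2 1) hF).Ex (2 * p - 4) (1 - p - 2 * p ^ 2 - 2 * p ^ 3 + p ^ 4) :=
  ⟨C1 hp (h _ (by omega) le_rfl), C2 hp (h _ (by omega) (by omega))⟩

end Vale.Agent.P257.B
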