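import Mathlib
import Vale.Agent.P257.B.Ex
import Vale.Agent.P257.B.Elts

/-! The explicit cochains `gG`, `al` are cocycles. -/

namespace Vale.Agent.P257.B

open MvPolynomial Finset Vale.Agent.P257.Q.PC Vale.Agent.P257.X Vale.Agent.P257.E

variable {p : ℕ}

theorem ph0_00 {I : ℕ → ℕ} (h1 : I 1 = 0) :
    ph p I 0 (X (0, 0)) = X (0, 0) + X (1, 0) := by
  rw [← tt_succ, ph_tt_eq, cop]
  simp [sum_range_succ, J, h1]

theorem ph0_blk {I : ℕ → ℕ} (j n : ℕ) :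
    ph p I 0 (X (j + 1, n)) = X (j + 2, n) := by
  rw [← tt_succ, ph_tt_gt (Nat.succ_pos j), tt_succ]

theorem ph1_0 {I : ℕ → ℕ} (n : ℕ) : ph p I 1 (X (0, n)) = X (0, n) := by
  rw [← tt_succ, ph_tt_lt Nat.zero_lt_one]

theorem ph1_10 {I : ℕ → ℕ} : ph p I 1 (X (1, 0)) = X (1, 0) + X (2, 0) := by
  rw [← tt_succ, ph_tt_eq, cop]
  simp [sum_range_succ, J]

theorem ph1_11 {I : ℕ → ℕ} :
    ph p I 1 (X (1, 1)) = X (1, 1) + X (2, 0) * X (1, 0) ^ p + X (2, 1) := by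
  rw [← tt_succ, ph_tt_eq, cop]
  simp [sum_range_succ, J]

theorem ph1_12 {I : ℕ → ℕ} :
    ph p I 1 (X (1, 2)) = X (1, 2) + X (2, 0) * X (1, 1) ^ p + X (2, 1) * X (1, 0) ^ p ^ 2 +
      X (2, 2) := by
  rw [← tt_succ, ph_tt_eq, cop]
  simp [sum_range_succ, J]

theorem ph2_lt {I : ℕ → ℕ} {j : ℕ} (hj : j < 2) (n : ℕ) : ph p I 2 (X (j, n)) = X (j, n) := by
  rw [← tt_succ, ph_tt_lt hj]

/-- `gG` is a cocycle. -/
theorem cyc_gG_of [Fact p.Prime] {I : ℕ → ℕ} (h1 : I 1 = 0) : Cyc p I (gG p) := by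
  constructor
  · unfold gG
    simp only [map_sub, map_mul, map_pow, ph0_00 h1, ph0_blk, ph1_0, ph1_10, ph1_11, pow_add,
      pow_one, add_pow_char]
    ring
  · unfold gG
    simp only [map_sub, map_mul, map_pow, ph2_lt (show 0 < 2 by norm_num),
      ph2_lt (show 1 < 2 by norm_num)]

theorem cyc_al_of [Fact p.Prime] {I : ℕ → ℕ} (h1 : I 1 = 0) : Cyc p I (al p) := by
  constructor
  · unfold al
    simp only [map_sub, map_add, map_mul, map_pow, ph0_00 h1, ph0_blk, ph1_0, ph1_10, ph1_11,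
      ph1_12, add_pow_char, add_pow_char_pow, mul_pow, ← pow_mul]
    ring
  · unfold al
    simp only [map_sub, map_add, map_mul, map_pow, ph2_lt (show 0 < 2 by norm_num),
      ph2_lt (show 1 < 2 by norm_num)]

theorem cyc_gG [Fact p.Prime] : Cyc p (pf 0 2 1) (gG p) := cyc_gG_of rfl

theorem cyc_gG' [Fact p.Prime] : Cyc p (pf 0 1 1) (gG p) := cyc_gG_of rfl

theorem cyc_al [Fact p.Prime] : Cyc p (pf 0 2 1) (al p) := cyc_al_of rfl

end Vale.Agent.P257.B
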