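import Mathlib
import Vale.Agent.P257.B.Beta

/-! `S (bet z) = bet (S z) - z`. -/

namespace Vale.Agent.P257.B

open MvPolynomial Finset Vale.Agent.P257.Q.PC Vale.Agent.P257.X Vale.Agent.P257.E

variable {p m : ℕ} {I : ℕ → ℕ} {s : ℕ} {N M : ℤ} {n K : ℕ}

theorem kl_of_lt {f : KP p} (hf : f ∈ KK p m I s N) {b : ℕ} (hb : s < b) : kl p b f = f := by
  have h1 : f ∈ supported (ZMod p) {x : ℕ × ℕ | x.1 ≤ s} :=
    mem_supported_iff.2 fun u hu x hx => ((hf u hu).1 x hx).1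
  have := eqOn_supported (kl p b) (AlgHom.id _ _) (V := {x : ℕ × ℕ | x.1 ≤ s})
    (fun x (hx : x.1 ≤ s) => by
      rw [AlgHom.id_apply]
      obtain ⟨j, k⟩ := x
      rw [← tt_succ, kl_tt_lt (lt_of_le_of_lt hx hb)]) h1
  exact this

theorem iter_mul_const {x : ℕ × ℕ} {f : KP p} (hf : pderiv x f = 0) (r : ℕ) (g : KP p) :
    (pderiv x)^[r] (f * g) = f * (pderiv x)^[r] g := by
  induction r with
  | zero => rfl
  | succ r ih => rw [Function.iterate_succ_apply', ih, pderiv_mul, hf, zero_mul, zero_add,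
      Function.iterate_succ_apply']

theorem iter_mul_const' {x : ℕ × ℕ} {g : KP p} (hg : pderiv x g = 0) (r : ℕ) (f : KP p) :
    (pderiv x)^[r] (f * g) = (pderiv x)^[r] f * g := by
  rw [mul_comm, iter_mul_const hg, mul_comm]

/-- Iterated derivatives of powers of `y` with `y' = 1`. -/
theorem iter_pow_one {x : ℕ × ℕ} {y : KP p} (hy : pderiv x y = 1) (a r : ℕ) :
    (pderiv x)^[r] (y ^ a) = ((a.descFactorial r : ℕ) : KP p) * y ^ (a - r) := by
  induction r with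
  | zero => simp
  | succ r ih =>
    rw [Function.iterate_succ_apply', ih, pderiv_mul, pderiv_pow, hy, Nat.descFactorial_succ]
    have : pderiv x ((a.descFactorial r : ℕ) : KP p) = 0 := by
      have : ((a.descFactorial r : ℕ) : KP p) = C ((a.descFactorial r : ℕ) : ZMod p) := by simp
      rw [this, pderiv_C]
    rw [this, show a - (r + 1) = a - r - 1 by omega]
    push_cast
    ring

theorem iter_sub' (x : ℕ × ℕ) (k : ℕ) (f g : KP p) :
    (pderiv x)^[k] (f - g) = (pderiv x)^[k] f - (pderiv x)^[k] g := by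
  rw [sub_eq_add_neg, iter_add, iter_neg, sub_eq_add_neg]

section

/-- Abbreviation for the transpotence of `om`. -/
noncomputable abbrev trb (p : ℕ) : KP p := tr p (pf 0 1 1) (om p)

theorem om_W3 : om p ∈ W3 p := KK_le_W3 (om_mem (c := 1))

theorem d1_om : pderiv ((1, 2) : ℕ × ℕ) (om p) = 1 := by
  rw [om]
  simp only [map_add, pderiv_mul, pderiv_pow]
  rw [pderiv_X_self, pderiv_X_of_ne (by simp), pderiv_X_of_ne (by simp),
    pderiv_X_of_ne (by simp), pderiv_X_of_ne (by simp)]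
  simp

theorem kl1_om : kl p 1 (om p) = 0 := by
  simp [om, kl]

theorem kl2_om : kl p 2 (om p) = om p := kl_of_lt (om_mem (c := 1)) (by norm_num)

theorem d2_om : pderiv ((2, 2) : ℕ × ℕ) (om p) = 0 := pderiv_of_lt (om_mem (c := 1)) (by norm_num)

theorem i3 : 1 ≤ pf 0 1 1 3 := by simp [pf]

theorem trb_mem : trb p ∈ KK p 3 (pf 0 1 1) 2 (p * (1 + p + p ^ 2)) := tr_mem okb om_mem

variable [Fact p.Prime]

theorem kl1_ph (f : KP p) : kl p 1 (ph p I 0 f) = f :=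
  kl_ph_succ (Fact.out (p := p.Prime)).ne_zero 0 f

theorem pz_mem_W3 (r : ℕ) {f : KP p} (hf : f ∈ W3 p) : pz p I r f ∈ W3 p := by
  induction r with
  | zero => exact hf
  | succ r ih => rw [pz_succ]; exact ph_mem_W3 0 ih

theorem d1_ph_om : pderiv ((1, 2) : ℕ × ℕ) (ph p (pf 0 1 1) 0 (om p)) = 0 :=
  pderiv_ph_zero i3 om_W3

theorem d2_ph_om : pderiv ((2, 2) : ℕ × ℕ) (ph p (pf 0 1 1) 0 (om p)) = 1 := by
  rw [pderiv_ph_le (b := 1) (by norm_num) (by norm_num) om_W3, d1_om, map_one]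

theorem kl1_ph_om : kl p 1 (ph p (pf 0 1 1) 0 (om p)) = om p :=
  kl_ph_succ (Fact.out (p := p.Prime)).ne_zero 0 _

theorem kl2_ph_om : kl p 2 (ph p (pf 0 1 1) 0 (om p)) = 0 := by
  rw [kl_ph_lt (b := 1) (by norm_num), kl1_om, map_zero]

/-- Insertions in the transpotence, block `1`. -/
theorem ins1 {r : ℕ} (hr : r + 1 < p) : kl p 1 ((pderiv (1, 2))^[r + 1] (trb p)) =
    (((p - 1).descFactorial r : ℕ) : KP p) * om p ^ (p - 1 - r) := by
  rw [Function.iterate_succ_apply, trb, tr, pderiv_gam, d1_om, d1_ph_om, add_zero, mul_one,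
    mul_one, mul_zero, sub_zero, iter_sub', iter_pow_one (by rw [map_add, d1_om, d1_ph_om,
    add_zero]), iter_pow_one d1_om, ← mul_sub, map_mul, map_sub, map_pow, map_pow, map_add, kl1_om,
    kl1_ph_om, zero_add, zero_pow (by omega), sub_zero, map_natCast]

/-- Insertions in the transpotence, block `2`. -/
theorem ins2 {r : ℕ} (hr : r + 1 < p) : kl p 2 ((pderiv (2, 2))^[r + 1] (trb p)) =
    (((p - 1).descFactorial r : ℕ) : KP p) * om p ^ (p - 1 - r) := by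
  rw [Function.iterate_succ_apply, trb, tr, pderiv_gam, d2_om, d2_ph_om, zero_add, mul_one,
    mul_one, mul_zero, sub_zero, iter_sub', iter_pow_one (by rw [map_add, d2_om, d2_ph_om,
    zero_add]), iter_pow_one d2_ph_om, ← mul_sub, map_mul, map_sub, map_pow, map_pow, map_add,
    kl2_om, kl2_ph_om, add_zero, zero_pow (by omega), sub_zero, map_natCast]

theorem d1_pz {z : KP p} (hz : z ∈ W3 p) : pderiv ((1, 2) : ℕ × ℕ) (pz p (pf 0 1 1) 2 z) = 0 :=
  pderiv_ph_zero i3 (ph_mem_W3 0 hz)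

theorem d2_pz {z : KP p} (hz : z ∈ W3 p) : pderiv ((2, 2) : ℕ × ℕ) (pz p (pf 0 1 1) 2 z) = 0 := by
  have h1 : pderiv ((1, 2) : ℕ × ℕ) (pz p (pf 0 1 1) 1 z) = 0 := pderiv_ph_zero i3 hz
  have h2 := pderiv_ph_le (I := pf 0 1 1) (b := 1) (j := 0) le_rfl (Nat.zero_le 1)
    (pz_mem_W3 (I := pf 0 1 1) 1 hz)
  rw [pz_succ, h2, h1, map_zero]

theorem EE_pz0 {z : KP p} (hz : z ∈ W3 p) (r : ℕ) (b : KP p) :
    EE p r 0 (pz p (pf 0 1 1) 2 z * b) =
      ph p (pf 0 1 1) 0 z * kl p 1 ((pderiv (1, 2))^[r] b) := by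
  rw [EE_apply, zero_add, iter_mul_const (d1_pz hz), map_mul, pz_succ, kl1_ph]
  rfl

theorem EE_pz1 {z : KP p} (hz : z ∈ W3 p) (r : ℕ) (b : KP p) :
    EE p r 1 (pz p (pf 0 1 1) 2 z * b) =
      ph p (pf 0 1 1) 0 z * kl p 2 ((pderiv (2, 2))^[r] b) := by
  have h1 : kl p 2 (pz p (pf 0 1 1) 2 z) = ph p (pf 0 1 1) 0 z := by
    have := kl_ph_lt (p := p) (I := pf 0 1 1) (b := 1) (j := 0) (by norm_num)
      (pz p (pf 0 1 1) 1 z)
    rw [pz_succ, this, pz_succ, kl1_ph]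
    rfl
  rw [EE_apply, show 1 + 1 = 2 from rfl, iter_mul_const (d2_pz hz), map_mul, h1]

theorem EE_pz2 {z : KP p} (hz : z ∈ W3 p) (r k : ℕ) :
    EE p r (k + 2) (pz p (pf 0 1 1) 2 z * trb p) = pz p (pf 0 1 1) 2 (EE p r k z) * trb p := by
  rw [EE_apply, EE_apply, iter_mul_const' (pderiv_of_lt trb_mem (by simp)), map_mul,
    kl_of_lt trb_mem (by omega)]
  congr 1
  rw [pz_succ, pz_succ, pz_succ, pz_succ, pz_zero, pz_zero,
    iter_ph_le (b := k + 2) (by omega) (by omega) _ (ph_mem_W3 0 hz),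
    iter_ph_le (b := k + 1) (by omega) (by omega) _ hz,
    kl_ph_lt (b := k + 2) (by omega), kl_ph_lt (b := k + 1) (by omega)]

theorem alt_shift {z : KP p} (hz : z ∈ W3 p) (hp : 3 ≤ p) (k : ℕ) :
    alt (EE p (p - 1)) (k + 2) (pz p (pf 0 1 1) 2 z * trb p) =
      pz p (pf 0 1 1) 2 (alt (EE p (p - 1)) k z) * trb p := by
  induction k with
  | zero =>
    rw [alt_succ, alt_succ, alt_zero, alt_zero, EE_pz0 hz, EE_pz1 hz]
    obtain ⟨q, hq⟩ : ∃ q, p - 1 = q + 1 := ⟨p - 2, by omega⟩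
    rw [hq, ins1 (by omega), ins2 (by omega)]
    simp
  | succ k ih =>
    rw [alt_succ, ih, EE_pz2 hz, alt_succ, map_add, add_mul, map_zsmul, smul_mul_assoc,
      show (-1 : ℤ) ^ (k + 2) = (-1) ^ k by rw [pow_add]; norm_num]

theorem Sop_pz {z : KP p} (hz : z ∈ W3 p) (hp : 3 ≤ p) (s : ℕ) :
    Sop p (s + 2) (pz p (pf 0 1 1) 2 z * trb p) =
      pz p (pf 0 1 1) 2 (Sop p s z) * trb p + z := by
  have hpp := Fact.out (p := p.Prime)
  have e1 : EE p 1 1 (pz p (pf 0 1 1) 2 z * trb p) = ph p (pf 0 1 1) 0 z * om p ^ (p - 1) := by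
    rw [EE_pz1 hz, show (1 : ℕ) = 0 + 1 from rfl, ins2 (by omega)]
    simp
  have e2 : EE p (p - 1) 0 (ph p (pf 0 1 1) 0 z * om p ^ (p - 1)) = -z := by
    rw [EE_apply, iter_mul_const (pderiv_ph_zero i3 hz), iter_pow_one d1_om,
      Nat.descFactorial_self, Nat.sub_self, pow_zero, mul_one, map_mul,
      kl_ph_succ hpp.ne_zero 0, map_natCast]
    have hfac : (((p - 1).factorial : ℕ) : KP p) = -1 := by
      have h5 : (((p - 1).factorial : ℕ) : KP p) = C (((p - 1).factorial : ℕ) : ZMod p) :=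
        (map_natCast _ _).symm
      rw [h5, ZMod.wilsons_lemma p, map_neg, map_one]
    rw [hfac, mul_neg_one]
  rw [Sop, Sop, SS_apply, sum_range_succ', sum_range_succ', SS_apply, map_sum, sum_mul, alt_zero,
    smul_zero, add_zero, zero_add, pow_one, e1, show alt (EE p (p - 1)) 1
    (ph p (pf 0 1 1) 0 z * om p ^ (p - 1)) = -z by rw [alt_succ, alt_zero, e2]; simp]
  rw [neg_smul, one_smul, neg_neg]
  congr 1
  refine sum_congr rfl fun k _ => ?_
  rw [show k + 1 + 1 = k + 2 by ring, EE_pz2 hz, alt_shift (z := EE p 1 k z) (kl_mem_W3 _ (iter_mem_W3 _ _ hz)) hp,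
    map_zsmul, smul_mul_assoc, show (-1 : ℤ) ^ (k + 2) = (-1) ^ k by rw [pow_add]; norm_num]

theorem Sop_bet {z : KP p} (hz : z ∈ W3 p) (hp : 3 ≤ p) (s : ℕ) :
    Sop p (s + 2) (betI p (pf 0 1 1) (om p) z) = betI p (pf 0 1 1) (om p) (Sop p s z) - z := by
  rw [betI_apply, betI_apply, map_neg, Sop_pz hz hp]
  ring

end

end Vale.Agent.P257.B
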