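import Mathlib
import Vale.Agent.P257.B.SBeta
import Vale.Agent.P257.B.Phi0

/-! `H^(2k+1)` of the profile `(3, 2, 1)` with coefficients `{t_1 ^ a : a < p ^ 2}` vanishes in
degree `1 + p + k (p + p^2 + p^3)`. -/

namespace Vale.Agent.P257.X.Cpx

variable {A : Type*} [AddCommGroup A] {C : Cpx A} {p : ℕ} {e : ℤ} {D : A →+ A}

/-- Injectivity of the kernel of `D` in the complex. -/
theorem Der.inj (h : Der C p e D) (hp : 1 ≤ p) {s : ℕ} {N : ℤ} (h1 : C.Ex s (N - e))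
    (h2 : ∀ s', s = s' + 1 → (C.Ker h).Ex s' (N - p * e)) {f : A} (hf : (C.Ker h).Z (s + 1) N f)
    (hb : C.B (s + 1) N f) : (C.Ker h).B (s + 1) N f := by
  have hfD : D f = 0 := hf.1.2
  obtain ⟨g, hg, rfl⟩ := hb
  have hz : C.Z s (N - e) (D g) := ⟨h.mem _ _ _ hg, by rw [← h.comm _ _ _ hg, hfD]⟩
  have hw : D^[p - 1] (D g) = 0 := by
    rw [iter_pred' D hp]
    exact h.pow _ _ _ hg
  rcases h.exW hp h1 (fun s' hs' => by
      have := h2 s' hs'
      rwa [show N - e - (p - 1 : ℤ) * e = N - p * e by ring]) hz hw with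
    h0 | ⟨s', hs', k, hk1, hk2, hk3⟩
  · exact ⟨g, ⟨hg, h0⟩, rfl⟩
  · subst hs'
    obtain ⟨g', hg1, hg2⟩ := h.ex1 _ _ _ hk1 hk2
    rw [sub_add_cancel] at hg1
    refine ⟨g - C.d s' g', (mem_ker h).2 ⟨sub_mem hg (C.d_mem _ _ _ hg1), ?_⟩, ?_⟩
    · rw [map_sub, h.comm _ _ _ hg1, hg2, hk3, sub_self]
    · change C.d (s' + 1) _ = _
      rw [map_sub, C.d_d _ _ _ hg1, sub_zero]

end Vale.Agent.P257.X.Cpx

namespace Vale.Agent.P257.B

open MvPolynomial Finset Vale.Agent.P257.Q.PC Vale.Agent.P257.X Vale.Agent.P257.E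

variable {p m : ℕ} {I : ℕ → ℕ} {s : ℕ} {N M : ℤ} {n K : ℕ}

theorem oko : Ok (pf 0 2 1) := ok_pf (by omega) (by omega) (by omega) (by omega) (by omega)
  (by omega)

theorem prb : Pr (pf 0 1 1) 1 := by
  intro n' hn'
  unfold pf
  split_ifs <;> omega

theorem prkT : Prk (pf 0 2 1) 0 3 := by
  intro n' hn'
  unfold pf
  split_ifs <;> omega

/-- The degree. -/
def Dg (p k : ℕ) : ℤ := 1 + p + k * (p + p ^ 2 + p ^ 3)

theorem Dg_zero : Dg p 0 = 1 + p := by simp [Dg]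

theorem Dg_succ (k : ℕ) : Dg p (k + 1) = Dg p k + p * (1 + p + p ^ 2) := by
  unfold Dg; push_cast; ring

theorem iso_b [Fact p.Prime] : Cpx.Iso (KI p 3 (pf 0 2 1) oko)
    ((KI p 3 (pf 0 1 1) okb).Ker (der okb prb (by norm_num)))
    (rho p 1).toRingHom.toAddMonoidHom := by
  have := iso_up (p := p) (m := 3) okb prb (by norm_num)
  have h : ∀ (I' : ℕ → ℕ) (h' : Ok I'), I' = pf 0 2 1 →
    Cpx.Iso (KI p 3 I' h') ((KI p 3 (pf 0 1 1) okb).Ker (der okb prb (by norm_num)))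
    (rho p 1).toRingHom.toAddMonoidHom → Cpx.Iso (KI p 3 (pf 0 2 1) oko)
    ((KI p 3 (pf 0 1 1) okb).Ker (der okb prb (by norm_num)))
    (rho p 1).toRingHom.toAddMonoidHom := by
    intro I' h' hI' hh
    subst hI'
    exact hh
  exact h _ _ (up_pf1 0 1 1) this

theorem iso_T3 [Fact p.Prime] : Cpx.Iso (KTI p 3 (pf 0 2 1) oko 0 3 prkT 3 le_rfl)
    (KI p 3 (pf 0 2 1) oko) (AddMonoidHom.id _) :=
  ⟨fun _ _ _ hf => hf.1, fun _ _ _ _ => rfl, fun _ _ h => h,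
    fun _ _ g hg => ⟨g, by
      change g ∈ KT p 3 (pf 0 2 1) 0 3 3 _ _
      rw [KT_top]; exact hg, rfl⟩⟩

theorem wI_b : (wI p (pf 0 1 1) (0, 1) : ℤ) = p + p ^ 2 := by
  simp [wI, J, wt, pf, sum_range_succ]; ring

theorem wI_o : (wI p (pf 0 2 1) (0, 0) : ℤ) = 1 := by
  simp [wI, J, wt, pf]

/-- Injectivity from `(0, 2, 1)` to `(0, 1, 1)`. -/
theorem inj_b [Fact p.Prime] {s : ℕ} {N : ℤ} (h1 : (KI p 3 (pf 0 1 1) okb).Ex s (N - (p + p ^ 2)))
    (h2 : ∀ s', s = s' + 1 → (KI p 3 (pf 0 2 1) oko).Ex s' (N - (p ^ 2 + p ^ 3))) {f : KP p}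
    (hf : (KI p 3 (pf 0 2 1) oko).Z (s + 1) N f)
    (hb : (KI p 3 (pf 0 1 1) okb).B (s + 1) N (rho p 1 f)) :
    (KI p 3 (pf 0 2 1) oko).B (s + 1) N f := by
  refine iso_b.b_iff.1 ((der okb prb (by norm_num)).inj (Fact.out (p := p.Prime)).one_le ?_ ?_
    ((iso_b.z_iff hf.1).2 hf) hb)
  · rw [wI_b]; exact h1
  · intro s' hs'
    refine iso_b.ex_iff.2 ?_
    rw [wI_b]
    have := h2 s' hs'
    rwa [show (p : ℤ) ^ 2 + p ^ 3 = p * (p + p ^ 2) by ring] at this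

/-- Injectivity from the truncated coefficients to `(0, 2, 1)`. -/
theorem inj_T [Fact p.Prime] {s : ℕ} {N : ℤ} (h1 : (KI p 3 (pf 0 2 1) oko).Ex s (N - p ^ 2))
    (h2 : ∀ s', s = s' + 1 →
      (KTI p 3 (pf 0 2 1) oko 0 3 prkT 2 (by norm_num)).Ex s' (N - p ^ 3)) {f : KP p}
    (hf : (KTI p 3 (pf 0 2 1) oko 0 3 prkT 2 (by norm_num)).Z (s + 1) N f)
    (hb : (KI p 3 (pf 0 2 1) oko).B (s + 1) N f) :
    (KTI p 3 (pf 0 2 1) oko 0 3 prkT 2 (by norm_num)).B (s + 1) N f := by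
  have hiso := iso_KTI (p := p) (m := 3) oko (by norm_num) prkT (j := 2) (by norm_num)
  have hder := derH (p := p) (m := 3) oko (by norm_num) prkT (j := 2) (by norm_num)
  refine hiso.b_iff.1 (hder.inj (Fact.out (p := p.Prime)).one_le ?_ ?_
    ((hiso.z_iff hf.1).2 hf) ?_)
  · rw [wI_o, mul_one]
    exact iso_T3.ex_iff.1 h1
  · intro s' hs'
    refine hiso.ex_iff.2 ?_
    rw [wI_o, mul_one]
    have := h2 s' hs'
    rwa [show (p : ℤ) ^ 3 = p * p ^ 2 by ring] at this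
  · exact iso_T3.b_iff.1 hb

theorem rho_ph_o [Fact p.Prime] (i : ℕ) (f : KP p) :
    rho p 1 (ph p (pf 0 2 1) i f) = ph p (pf 0 1 1) i (rho p 1 f) := by
  have := rho_ph okb prb i f
  rwa [up_pf1] at this

theorem rho_pz_o [Fact p.Prime] (r : ℕ) (f : KP p) :
    rho p 1 (pz p (pf 0 2 1) r f) = pz p (pf 0 1 1) r (rho p 1 f) := by
  induction r with
  | zero => rfl
  | succ r ih => rw [pz_succ, rho_ph_o, ih, pz_succ]

theorem rho_gG : rho p 1 (gG p) = gG p := by simp [gG, rho]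

theorem rho_al : rho p 1 (al p) = al p := by simp [al, rho]

theorem rho_tr_o [Fact p.Prime] : rho p 1 (tr p (pf 0 2 1) (al p)) = tr p (pf 0 1 1) (al p) := by
  unfold tr
  have h2 : rho p 1 (gam p (al p) (ph p (pf 0 2 1) 0 (al p))) =
    gam p (rho p 1 (al p)) (rho p 1 (ph p (pf 0 2 1) 0 (al p))) :=
    map_gam (p := p) (rho p 1).toRingHom (al p) (ph p (pf 0 2 1) 0 (al p))
  rw [h2, rho_ph_o, rho_al]

/-! `S` commutes with `rho`. -/

theorem kl_rho {b : ℕ} (hb : 1 ≤ b) (f : KP p) : kl p b (rho p n f) = rho p n (kl p b f) := by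
  suffices H : (kl p b).comp (rho p n) = (rho p n).comp (kl p b) from
    congrArg (fun g : KP p →ₐ[ZMod p] KP p => g f) H
  refine algHom_ext_tt fun j k => ?_
  rw [AlgHom.comp_apply, AlgHom.comp_apply]
  by_cases h : j = 0 ∧ k = n + 1
  · obtain ⟨rfl, rfl⟩ := h
    rw [rho_tt, map_pow, kl_tt_lt (by omega), rho_tt]
  · rw [rho_tt_ne (by omega)]
    rcases lt_trichotomy j b with hj | rfl | hj
    · rw [kl_tt_lt hj, rho_tt_ne (by omega)]
    · rw [kl_tt_eq]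
      split_ifs <;> simp
    · obtain ⟨j, rfl⟩ : ∃ i', j = i' + 1 := ⟨j - 1, by omega⟩
      rw [kl_tt_gt (by omega), rho_tt_ne (by omega)]

theorem pderiv_rho_comm [Fact p.Prime] {b : ℕ} (hb : 1 ≤ b) (f : KP p) :
    pderiv (b, 2) (rho p n f) = rho p n (pderiv (b, 2) f) := by
  refine pderiv_comm (rho p n) (b, 2) (b, 2) (fun z => ?_) f
  have h1 : pderiv ((b, 2) : ℕ × ℕ) (X z : KP p) = if z = (b, 2) then 1 else 0 := by
    split_ifs with h
    · rw [h, pderiv_X_self]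
    · exact pderiv_X_of_ne h
  have h2 : rho p n (X z) = if z = (0, n) then X z ^ p else X z := by simp [rho]
  rw [h2, h1]
  by_cases hz : z = (0, n)
  · rw [if_pos hz, pderiv_pow, h1, if_neg (by rw [hz]; intro h; cases h; omega)]
    simp
  · rw [if_neg hz, h1]
    split_ifs <;> simp

theorem EE_rho [Fact p.Prime] (r k : ℕ) (f : KP p) :
    EE p r k (rho p n f) = rho p n (EE p r k f) := by
  rw [EE_apply, EE_apply, ← kl_rho (by omega)]
  congr 1
  induction r with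
  | zero => rfl
  | succ r ih =>
    rw [Function.iterate_succ_apply', ih, pderiv_rho_comm (by omega),
      Function.iterate_succ_apply']

theorem Sop_rho [Fact p.Prime] (s : ℕ) (f : KP p) :
    Sop p s (rho p n f) = rho p n (Sop p s f) := by
  rw [Sop, SS_apply, SS_apply, map_sum]
  refine sum_congr rfl fun k _ => ?_
  rw [map_zsmul]
  simp only [alt, AddMonoidHom.finsetSum_apply, AddMonoidHom.smul_apply, map_sum, map_zsmul]
  congr 1
  refine sum_congr rfl fun i _ => ?_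
  rw [EE_rho, EE_rho]

/-! Lemma A. -/

theorem al_mem [Fact p.Prime] (b : ℕ) : al p ∈ KK p 3 (pf 0 b 1) 1 (1 + p + p ^ 2) := by
  unfold al
  have w0 : (wI p (pf 0 b 1) (1, 2) : ℤ) = 1 + p + p ^ 2 := by
    simp [wI, J, wt, sum_range_succ]
  have w1 : (wI p (pf 0 b 1) (1, 1) : ℤ) = 1 + p := by
    simp [wI, J, wt, sum_range_succ]
  have w2 : (wI p (pf 0 b 1) (0, 0) : ℤ) = 1 := by
    simp [wI, J, wt, pf]
  have w3 : (wI p (pf 0 b 1) (1, 0) : ℤ) = 1 := by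
    simp [wI, J, wt]
  have a0 := KK.X (p := p) (m := 3) (I := pf 0 b 1) (s := 1) (x := (1, 2)) le_rfl (by norm_num)
  have a1 := KK.X (p := p) (m := 3) (I := pf 0 b 1) (s := 1) (x := (1, 1)) le_rfl (by norm_num)
  have a2 := KK.X (p := p) (m := 3) (I := pf 0 b 1) (s := 1) (x := (0, 0)) (by norm_num)
    (by norm_num)
  have a3 := KK.X (p := p) (m := 3) (I := pf 0 b 1) (s := 1) (x := (1, 0)) le_rfl (by norm_num)
  rw [w0] at a0
  rw [w1] at a1
  rw [w2] at a2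
  rw [w3] at a3
  refine sub_mem (add_mem a0 ?_) ?_
  · have := KK.mul a1 (KK.pow a2 (p ^ 2))
    rwa [show (1 + p + ((p ^ 2 : ℕ) : ℤ) * 1 : ℤ) = 1 + p + p ^ 2 by push_cast; ring] at this
  · have h1 := KK.mul (KK.pow a3 p) (KK.pow a2 (p ^ 2))
    have h2 := KK.pow a1 p
    rw [show ((p : ℤ) * 1 + ((p ^ 2 : ℕ) : ℤ) * 1 : ℤ) = p + p ^ 2 by push_cast; ring] at h1
    rw [show ((p : ℤ) * (1 + p) : ℤ) = p + p ^ 2 by ring] at h2
    have := KK.mul (add_mem a2 a3) (add_mem h1 h2)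
    rwa [show (1 + ((p : ℤ) + p ^ 2) : ℤ) = 1 + p + p ^ 2 by ring] at this

theorem gG_memb [Fact p.Prime] (b : ℕ) : gG p ∈ KK p 3 (pf 0 b 1) 1 (1 + p) := by
  unfold gG
  have w1 : (wI p (pf 0 b 1) (1, 1) : ℤ) = 1 + p := by
    simp [wI, J, wt, sum_range_succ]
  have w2 : (wI p (pf 0 b 1) (0, 0) : ℤ) = 1 := by
    simp [wI, J, wt, pf]
  have w3 : (wI p (pf 0 b 1) (1, 0) : ℤ) = 1 := by
    simp [wI, J, wt]
  have a1 := KK.X (p := p) (m := 3) (I := pf 0 b 1) (s := 1) (x := (1, 1)) le_rfl (by norm_num)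
  have a2 := KK.X (p := p) (m := 3) (I := pf 0 b 1) (s := 1) (x := (0, 0)) (by norm_num)
    (by norm_num)
  have a3 := KK.X (p := p) (m := 3) (I := pf 0 b 1) (s := 1) (x := (1, 0)) le_rfl (by norm_num)
  rw [w1] at a1
  rw [w2] at a2
  rw [w3] at a3
  refine sub_mem (sub_mem a1 ?_) ?_
  · have := KK.pow a3 (1 + p)
    rwa [show (((1 + p : ℕ) : ℤ) * 1 : ℤ) = 1 + p by push_cast; ring] at this
  · have := KK.mul a2 (KK.pow a3 p)
    rwa [show ((1 + (p : ℤ) * 1) : ℤ) = 1 + p by ring] at this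

theorem ph_zero_s : ph p (pf 0 1 1) 0 (X (0, 1)) =
    X (0, 1) + X (1, 0) ^ p * X (0, 0) ^ p ^ 2 + X (1, 1) ^ p := by
  rw [← tt_succ, ph_tt_eq]
  simp only [cop, sum_range_succ, range_zero, sum_empty, J, pf]
  simp

theorem al_eq [Fact p.Prime] : al p = om p +
    (ph p (pf 0 1 1) 0 (-(X (0, 0) * X (0, 1))) - -(X (0, 0) * X (0, 1))) := by
  rw [map_neg, map_mul, ph_zero_s, ph_zero_X00 (by simp [pf]), al, om]
  ring

/-- The numerical input. -/
structure CntA (p : ℕ) [Fact p.Prime] : Prop where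
  k4a : ∀ k : ℕ, 1 ≤ k → k + 2 ≤ p → (KI p 3 (pf 0 2 1) oko).Ex (2 * k) (Dg p k - p ^ 2)
  k4b : ∀ k : ℕ, 1 ≤ k → k + 2 ≤ p →
    (KTI p 3 (pf 0 2 1) oko 0 3 prkT 2 (by norm_num)).Ex (2 * k - 1) (Dg p k - p ^ 3)
  k4c : ∀ k : ℕ, 1 ≤ k → k + 2 ≤ p → (KI p 3 (pf 0 1 1) okb).Ex (2 * k) (Dg p k - (p + p ^ 2))
  k4d : ∀ k : ℕ, 1 ≤ k → k + 2 ≤ p →
    (KI p 3 (pf 0 2 1) oko).Ex (2 * k - 1) (Dg p k - (p ^ 2 + p ^ 3))
  k5a : ∀ k : ℕ, 1 ≤ k → k + 2 ≤ p → (KI p 3 (pf 0 1 0) okt).Ex (2 * k + 1) (Dg p k)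
  k5b : ∀ k : ℕ, 1 ≤ k → k + 2 ≤ p →
    (KI p 3 (pf 0 1 0) okt).Ex (2 * k) (Dg p k - (1 + p + p ^ 2))
  base : ∀ z, (KI p 3 (pf 0 1 1) okb).Z 1 (1 + p) z →
    ∃ c : ZMod p, (KI p 3 (pf 0 1 1) okb).B 1 (1 + p) (z - c • gG p)

/-- The evaluation. -/
def LemA (p : ℕ) : Prop := ∀ (z X' : KP p) (c : ZMod p), HD p 0 2 z = 0 →
  X' ∈ KK p 3 (pf 0 2 1) 2 (1 + p + p * (1 + p + p ^ 2)) →
  z = c • (pz p (pf 0 2 1) 2 (gG p) * tr p (pf 0 2 1) (al p)) + dd p (pf 0 2 1) 2 X' → c = 0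

theorem smul_dd (c : ZMod p) (s : ℕ) (f : KP p) : dd p I s (c • f) = c • dd p I s f := by
  rw [dd_apply, dd_apply, smul_sum]
  refine sum_congr rfl fun i _ => ?_
  rw [map_smul, smul_comm]

theorem pz_smul (c : ZMod p) (r : ℕ) (f : KP p) : pz p I r (c • f) = c • pz p I r f :=
  map_smul _ _ _

theorem bet_smul (a : KP p) (c : ZMod p) (f : KP p) : betI p I a (c • f) = c • betI p I a f := by
  rw [betI_apply, betI_apply, pz_smul, smul_mul_assoc, smul_neg]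

/-- Lemma A, in the profile `(0, 1, 1)`. -/
theorem lemmaA [Fact p.Prime] (hp : 3 ≤ p) (hC : CntA p) (hA : LemA p) {z : KP p} {c : ZMod p}
    (hz : (KTI p 3 (pf 0 2 1) oko 0 3 prkT 2 (by norm_num)).Z 3 (Dg p 1) z)
    (hb : (KI p 3 (pf 0 1 1) okb).B 3 (Dg p 1)
      (rho p 1 z - betI p (pf 0 1 1) (om p) (c • gG p))) : c = 0 := by
  have hp' := Fact.out (p := p.Prime)
  have hD1 : Dg p 1 = 1 + p + p * (1 + p + p ^ 2) := by unfold Dg; push_cast; ring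
  set u : KP p := -(X (0, 0) * X (0, 1)) with hu
  have hu1 : ∀ i, 0 < i → ph p (pf 0 1 1) i u = u := by
    intro i hi
    rw [hu, map_neg, map_mul, ← tt_succ, ← tt_succ, ph_tt_lt hi, ph_tt_lt hi]
  have hum : u ∈ KK p 3 (pf 0 1 1) 0 (1 + p + p ^ 2) := by
    have a2 := KK.X (p := p) (m := 3) (I := pf 0 1 1) (s := 0) (x := (0, 0)) le_rfl
      (by norm_num)
    have a3 := KK.X (p := p) (m := 3) (I := pf 0 1 1) (s := 0) (x := (0, 1)) le_rfl
      (by norm_num)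
    have w2 : (wI p (pf 0 1 1) (0, 0) : ℤ) = 1 := by simp [wI, J, wt, pf]
    have := neg_mem (KK.mul a2 a3)
    rwa [wI_b, w2, show (1 + ((p : ℤ) + p ^ 2) : ℤ) = 1 + p + p ^ 2 by ring] at this
  have hal := al_eq (p := p)
  rw [← hu] at hal
  set g : KP p := gam p (om p) (ph p (pf 0 1 1) 0 u) - gam p (al p) u with hg
  have htr : tr p (pf 0 1 1) (om p) - tr p (pf 0 1 1) (al p) = dd p (pf 0 1 1) 1 g := by
    have := tr_sub_tr okb cyc_om (hu1 1 (by norm_num)) (hu1 2 (by norm_num))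
    rw [← hal] at this
    exact this
  have hgm : g ∈ KK p 3 (pf 0 1 1) 1 (p * (1 + p + p ^ 2)) := by
    refine sub_mem (KK.gam om_mem (KK.ph okb hum)) (KK.gam (al_mem 1) ?_)
    exact KK.mono hum le_rfl (by norm_num)
  have hG := cyc_gG' (p := p)
  have hst : dd p (pf 0 1 1) 2 (ph p (pf 0 1 1) 0 (gG p) * g) =
      pz p (pf 0 1 1) 2 (gG p) * dd p (pf 0 1 1) 1 g := by
    have := dd_star okb 1 1 (gG p) g (fun i hi => ph_of_lt hgm hi)
    rw [hG.dd, map_zero, zero_mul, smul_zero, add_zero] at this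
    exact this
  -- the class over `(0, 2, 1)`
  have hz1 : z ∈ KT p 3 (pf 0 2 1) 0 3 2 3 (Dg p 1) := hz.1
  have hz2 := (KT_succ (p := p) (j := 2) (by norm_num)).1 hz1
  have hz3 : (KI p 3 (pf 0 2 1) oko).Z 3 (Dg p 1) z := ⟨hz2.1.1, hz.2⟩
  have hbo : (KI p 3 (pf 0 2 1) oko).Z 3 (Dg p 1)
      (c • betI p (pf 0 2 1) (al p) (gG p)) := by
    refine ⟨?_, ?_⟩
    · have := betI_mem (p := p) oko (al_mem 2) (gG_memb 2)
      rw [hD1]
      exact KK.smul this c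
    · change dd p (pf 0 2 1) 3 _ = 0
      rw [smul_dd, ← betI_dd oko (al_mem 2) cyc_al, cyc_gG.dd, map_zero, smul_zero]
  obtain ⟨Y, hY, hY'⟩ := hb
  change Y ∈ KK p 3 (pf 0 1 1) 2 (Dg p 1) at hY
  change dd p (pf 0 1 1) 2 Y = _ at hY'
  have hb' : (KI p 3 (pf 0 2 1) oko).B (2 + 1) (Dg p 1)
      (z - c • betI p (pf 0 2 1) (al p) (gG p)) := by
    refine inj_b (hC.k4c 1 le_rfl hp) (fun s' hs' => ?_) (hz3.sub hbo) ?_
    · obtain rfl : s' = 1 := by omega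
      exact hC.k4d 1 le_rfl hp
    · refine ⟨Y - c • (ph p (pf 0 1 1) 0 (gG p) * g), ?_, ?_⟩
      · refine sub_mem hY (KK.smul ?_ c)
        rw [hD1]
        exact KK.mul (KK.ph okb (gG_memb 1)) (KK.mono hgm le_rfl (by norm_num))
      · change dd p (pf 0 1 1) 2 _ = _
        rw [map_sub, hY', smul_dd, hst, ← htr, bet_smul, betI_apply, betI_apply,
          map_sub (rho p 1), map_smul (rho p 1), map_neg (rho p 1), map_mul (rho p 1), rho_pz_o,
          rho_gG, rho_tr_o]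
        simp only [smul_sub, mul_sub, smul_neg]
        abel
  obtain ⟨X', hX', hX''⟩ := hb'
  change X' ∈ KK p 3 (pf 0 2 1) 2 (Dg p 1) at hX'
  change dd p (pf 0 2 1) 2 X' = _ at hX''
  rw [hD1] at hX'
  have := hA z X' (-c) hz2.2 hX' (by
    rw [hX'', betI_apply, neg_smul, smul_neg]
    abel)
  exact neg_eq_zero.1 this

/-- Iterates of `bet` on a `1`-cochain. -/
theorem Sop_bet_iter [Fact p.Prime] (hp : 3 ≤ p) {y : KP p} (hy : y ∈ W3 p) (k : ℕ) :
    Sop p (2 * k + 3) ((betI p (pf 0 1 1) (om p))^[k + 1] y) =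
      -((k + 1 : ℕ) : ZMod p) • (betI p (pf 0 1 1) (om p))^[k] y := by
  have hW : ∀ k, (betI p (pf 0 1 1) (om p))^[k] y ∈ W3 p := by
    intro k
    induction k with
    | zero => exact hy
    | succ k ih =>
      rw [Function.iterate_succ_apply', betI_apply]
      exact neg_mem (mul_mem (pz_mem_W3 2 ih) (KK_le_W3 (trb_mem (p := p))))
  induction k with
  | zero =>
    rw [Function.iterate_succ_apply', Function.iterate_zero, id, mul_zero, zero_add,
      Sop_bet hy hp 1]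
    have : Sop p 1 y = 0 := by simp [Sop, SS_apply, alt_zero]
    rw [this, map_zero]
    simp
  | succ k ih =>
    rw [Function.iterate_succ_apply', show 2 * (k + 1) + 3 = 2 * k + 3 + 2 by ring,
      Sop_bet (hW (k + 1)) hp, ih, bet_smul,
      ← Function.iterate_succ_apply' (betI p (pf 0 1 1) (om p)) k y]
    push_cast
    module

theorem bet_iter_smul (c : ZMod p) (k : ℕ) (y : KP p) :
    (betI p I (om p))^[k] (c • y) = c • (betI p I (om p))^[k] y := by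
  induction k with
  | zero => rfl
  | succ k ih => rw [Function.iterate_succ_apply', ih, bet_smul, Function.iterate_succ_apply']

/-- Every cocycle is a multiple of `bet^k gG` up to coboundaries. -/
theorem span_k [Fact p.Prime] (hC : CntA p) (k : ℕ) (hk : k + 2 ≤ p) {f : KP p}
    (hf : (KI p 3 (pf 0 1 1) okb).Z (2 * k + 1) (Dg p k) f) :
    ∃ c : ZMod p, (KI p 3 (pf 0 1 1) okb).B (2 * k + 1) (Dg p k)
      (f - (betI p (pf 0 1 1) (om p))^[k] (c • gG p)) := by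
  induction k generalizing f with
  | zero =>
    rw [Dg_zero] at hf ⊢
    exact hC.base f hf
  | succ k ih =>
    have h1 := hC.k5a (k + 1) (by omega) hk
    have h2 := hC.k5b (k + 1) (by omega) hk
    rw [Dg_succ] at h1 h2 hf ⊢
    obtain ⟨g, hg, hg'⟩ := bet_surj (s := 2 * k + 1) (N := Dg p k) h1 h2 hf
    obtain ⟨c, X, hX, hX'⟩ := ih (by omega) hg
    refine ⟨c, ?_⟩
    have h3 : (KI p 3 (pf 0 1 1) okb).B (2 * k + 1 + 2) (Dg p k + p * (1 + p + p ^ 2))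
        (betI p (pf 0 1 1) (om p) (g - (betI p (pf 0 1 1) (om p))^[k] (c • gG p))) := by
      refine ⟨betI p (pf 0 1 1) (om p) X, betI_mem okb om_mem hX, ?_⟩
      change dd p (pf 0 1 1) (2 * k + 2) _ = _
      rw [← hX']
      exact (betI_dd okb om_mem cyc_om X).symm
    have h4 := hg'.add h3
    have h5 : f - (betI p (pf 0 1 1) (om p))^[k + 1] (c • gG p) =
        f - betI p (pf 0 1 1) (om p) g +
          betI p (pf 0 1 1) (om p) (g - (betI p (pf 0 1 1) (om p))^[k] (c • gG p)) := by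
      rw [map_sub, Function.iterate_succ_apply']
      abel
    rw [h5]
    exact h4

/-- The scalar vanishes for truncated coefficients. -/
theorem scalar_k [Fact p.Prime] (hp : 3 ≤ p) (hC : CntA p) (hA : LemA p) (k : ℕ)
    (hk : k + 3 ≤ p) {z : KP p} {c : ZMod p}
    (hz : (KTI p 3 (pf 0 2 1) oko 0 3 prkT 2 (by norm_num)).Z (2 * k + 3) (Dg p (k + 1)) z)
    (hb : (KI p 3 (pf 0 1 1) okb).B (2 * k + 3) (Dg p (k + 1))
      (rho p 1 z - (betI p (pf 0 1 1) (om p))^[k + 1] (c • gG p))) : c = 0 := by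
  have hp' := Fact.out (p := p.Prime)
  induction k generalizing z c with
  | zero => exact lemmaA hp hC hA hz hb
  | succ k ih =>
    obtain ⟨Y, hY, hY'⟩ := hb
    change Y ∈ KK p 3 (pf 0 1 1) (2 * k + 2 + 2) (Dg p (k + 1 + 1)) at hY
    change dd p (pf 0 1 1) (2 * k + 2 + 2) Y = _ at hY'
    have hwt : (p * wt p 2 : ℤ) = p * (1 + p + p ^ 2) := by
      simp [wt, sum_range_succ]
    have hDg : Dg p (k + 1 + 1) - p * wt p 2 = Dg p (k + 1) := by
      rw [Dg_succ (k + 1), hwt]; ring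
    have h1 : (KTI p 3 (pf 0 2 1) oko 0 3 prkT 2 (by norm_num)).Z (2 * k + 3) (Dg p (k + 1))
        (Sop p (2 * k + 3 + 2) z) := by
      refine ⟨?_, ?_⟩
      · have := Sop_mem_KT (p := p) (m := 3) (I := pf 0 2 1) (n := 0) (K := 3) (j := 2)
          (s := 2 * k + 3) (by norm_num) (show z ∈ KT p 3 (pf 0 2 1) 0 3 2 (2 * k + 3 + 2) _ from
            hz.1)
        rwa [hDg] at this
      · change dd p (pf 0 2 1) (2 * k + 3) _ = 0
        have hz1 : z ∈ KK p 3 (pf 0 2 1) (2 * k + 3 + 2) (Dg p (k + 1 + 1)) := hz.1.1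
        have hz2 : dd p (pf 0 2 1) (2 * k + 3 + 2) z = 0 := hz.2
        rw [← Sop_dd (I := pf 0 2 1) (by simp [pf]) hz1, hz2, map_zero]
    have h2 := ih (by omega) (c := -((k + 1 + 1 : ℕ) : ZMod p) * c) h1 (by
      refine ⟨Sop p (2 * k + 2 + 2) Y, ?_, ?_⟩
      · have := Sop_mem (p := p) (m := 3) (I := pf 0 1 1) hY
        rw [hDg] at this
        exact this
      · change dd p (pf 0 1 1) (2 * k + 2) _ = _
        rw [← Sop_dd (I := pf 0 1 1) i3 hY, hY', map_sub, ← Sop_rho]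
        congr 1
        have h3 := Sop_bet_iter hp (y := c • gG p) (by
          exact Subalgebra.smul_mem _ (KK_le_W3 (gG_memb 1)) _) (k + 1)
        rw [show 2 * k + 2 + 3 = 2 * (k + 1) + 3 by ring, h3, mul_smul]
        simp only [bet_iter_smul])
    rcases mul_eq_zero.1 h2 with h3 | h3
    · exfalso
      rw [neg_eq_zero, ZMod.natCast_eq_zero_iff] at h3
      exact Nat.not_dvd_of_pos_of_lt (by omega) (by omega) h3
    · exact h3

/-- The main vanishing result. -/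
theorem star [Fact p.Prime] (hp : 3 ≤ p) (hC : CntA p) (hA : LemA p) (k : ℕ) (hk1 : 1 ≤ k)
    (hk : k + 2 ≤ p) :
    (KTI p 3 (pf 0 2 1) oko 0 3 prkT 2 (by norm_num)).Ex (2 * k + 1) (Dg p k) := by
  intro z hz
  have hz1 : z ∈ KT p 3 (pf 0 2 1) 0 3 2 (2 * k + 1) (Dg p k) := hz.1
  have hz2 := (KT_succ (p := p) (j := 2) (by norm_num)).1 hz1
  have hz3 : (KI p 3 (pf 0 2 1) oko).Z (2 * k + 1) (Dg p k) z := ⟨hz2.1.1, hz.2⟩
  have hz4 : (KI p 3 (pf 0 1 1) okb).Z (2 * k + 1) (Dg p k) (rho p 1 z) := by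
    have h1 := (iso_b.z_iff hz3.1).2 hz3
    exact ⟨h1.1.1, h1.2⟩
  obtain ⟨c, hc⟩ := span_k hC k hk hz4
  obtain ⟨k, rfl⟩ : ∃ k', k = k' + 1 := ⟨k - 1, by omega⟩
  have hc0 : c = 0 := scalar_k hp hC hA k (by omega) hz hc
  subst hc0
  rw [zero_smul] at hc
  have h0 : ∀ j, (betI p (pf 0 1 1) (om p))^[j] 0 = 0 := by
    intro j
    induction j with
    | zero => rfl
    | succ j ih => rw [Function.iterate_succ_apply', ih, map_zero]
  rw [h0, sub_zero] at hc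
  have h5 : (KI p 3 (pf 0 2 1) oko).B (2 * (k + 1) + 1) (Dg p (k + 1)) z :=
    inj_b (hC.k4c _ hk1 hk) (fun s' hs' => by
      obtain rfl : s' = 2 * (k + 1) - 1 := by omega
      exact hC.k4d _ hk1 hk) hz3 hc
  exact inj_T (hC.k4a _ hk1 hk) (fun s' hs' => by
      obtain rfl : s' = 2 * (k + 1) - 1 := by omega
      exact hC.k4b _ hk1 hk) hz h5

end Vale.Agent.P257.B
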