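import Mathlib
import Vale.Agent.P257.B.Starr
import Vale.Agent.P257.B.Prof
import Vale.Agent.P257.B.Base

/-! The numerical input of `B/Starr`. -/

namespace Vale.Agent.P257.B

open MvPolynomial Finset Vale.Agent.P257.Q.PC Vale.Agent.P257.X

theorem cntA {p : ℕ} [Fact p.Prime] (hp : 11 ≤ p) : CntA p where
  k4a k h1 h2 := exK4a hp h1 (by omega)
  k4b k h1 h2 := exK4b hp h1 (by omega)
  k4c k _ _ := by
    have := exK4c (k := k) hp
    rwa [show dK p k - p - p ^ 2 = Dg p k - (p + p ^ 2) by unfold dK Dg; ring] at this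
  k4d k h1 h2 := by
    have := exK4d (k := k) hp h1 (by omega)
    rwa [show dK p k - p ^ 2 - p ^ 3 = Dg p k - (p ^ 2 + p ^ 3) by unfold dK Dg; ring] at this
  k5a k h1 _ := exK5a hp h1
  k5b k h1 _ := exK5b hp h1
  base z hz := base hz

end Vale.Agent.P257.B
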