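import Mathlib
import Vale.Agent.P257.B.Phi0

/-! The divided power operator of order `p ^ 2` on the product of `gG` and the transpotence of
`al`. -/

namespace Vale.Agent.P257.B

open MvPolynomial Finset Vale.Agent.P257.Q.PC Vale.Agent.P257.X Vale.Agent.P257.E

section Gam

variable {K : Type*} [CommRing K]

theorem pow_expand (x y e : K) (n : ℕ) :
    ∃ R : K, (x + e * y) ^ n = x ^ n + e * (n * x ^ (n - 1) * y) + e ^ 2 * R := by
  obtain ⟨k, hk⟩ := Polynomial.powAddExpansion x (e * y) n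
  exact ⟨k * y ^ 2, by rw [hk]; ring⟩

theorem sum_choose' {p : ℕ} (hp : p.Prime) (x y : K) :
    ∑ i ∈ Ioo 0 p, ((p.choose i / p : ℕ) : K) * ((p - i : ℕ) * y ^ (p - i - 1)) * x ^ i =
      (x + y) ^ (p - 1) - y ^ (p - 1) := by
  rw [add_comm x y, ← sum_choose hp y x]
  refine sum_nbij' (fun i => p - i) (fun i => p - i) ?_ ?_ ?_ ?_ ?_
  · intro i hi; simp only [mem_Ioo] at *; omega
  · intro i hi; simp only [mem_Ioo] at *; omega
  · intro i hi; simp only [mem_Ioo] at *; omega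
  · intro i hi; simp only [mem_Ioo] at *; omega
  · intro i hi
    simp only [mem_Ioo] at hi
    rw [Nat.choose_symm hi.2.le, show p - (p - i) = i by omega]

theorem gam_expand {p : ℕ} (hp : p.Prime) (x y u v e : K) :
    ∃ R : K, gam p (x + e * u) (y + e * v) = gam p x y +
      e * (((x + y) ^ (p - 1) - x ^ (p - 1)) * u + ((x + y) ^ (p - 1) - y ^ (p - 1)) * v) +
      e ^ 2 * R := by
  choose R1 h1 using fun n => pow_expand x u e n
  choose R2 h2 using fun n => pow_expand y v e n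
  refine ⟨∑ i ∈ Ioo 0 p, ((p.choose i / p : ℕ) : K) * (x ^ i * R2 (p - i) +
    R1 i * y ^ (p - i) + (i * x ^ (i - 1) * u) * ((p - i : ℕ) * y ^ (p - i - 1) * v) +
    e * ((i * x ^ (i - 1) * u) * R2 (p - i) + R1 i * ((p - i : ℕ) * y ^ (p - i - 1) * v)) +
    e ^ 2 * (R1 i * R2 (p - i))), ?_⟩
  rw [← sum_choose hp, ← sum_choose' hp]
  unfold gam
  rw [sum_mul, sum_mul, ← sum_add_distrib, mul_sum, mul_sum, ← sum_add_distrib, ← sum_add_distrib]
  refine sum_congr rfl fun i _ => ?_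
  rw [h1, h2]
  ring

theorem natDegree_gam {p : ℕ} (A B : Polynomial K) (hA : A.natDegree ≤ 1) (hB : B.natDegree ≤ 1) :
    (gam p A B).natDegree ≤ p := by
  unfold gam
  refine Polynomial.natDegree_sum_le_of_forall_le _ _ fun i hi => ?_
  rw [mem_Ioo] at hi
  refine Polynomial.natDegree_mul_le.trans ?_
  have h1 := Polynomial.natDegree_mul_le (p := ((p.choose i / p : ℕ) : Polynomial K)) (q := A ^ i)
  rw [Polynomial.natDegree_natCast, zero_add] at h1
  have h2 := Polynomial.natDegree_pow_le_of_le i hA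
  have h3 := Polynomial.natDegree_pow_le_of_le (p - i) hB
  omega

/-- The coefficients of `gam` of two polynomials of the form `a + a1 X + X ^ M (g - c X)`. -/
theorem coeff_gam {p : ℕ} (hp : p.Prime) {M : ℕ} (hM : p < M)
    (a a1 g c b b1 h d : K) : (gam p
      (Polynomial.C a + Polynomial.C a1 * Polynomial.X +
        Polynomial.X ^ M * (Polynomial.C g + Polynomial.C c * Polynomial.X))
      (Polynomial.C b + Polynomial.C b1 * Polynomial.X +
        Polynomial.X ^ M * (Polynomial.C h + Polynomial.C d * Polynomial.X))).coeff M =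
      ((a + b) ^ (p - 1) - a ^ (p - 1)) * g + ((a + b) ^ (p - 1) - b ^ (p - 1)) * h := by
  obtain ⟨R, hR⟩ := gam_expand hp (Polynomial.C a + Polynomial.C a1 * Polynomial.X)
    (Polynomial.C b + Polynomial.C b1 * Polynomial.X)
    (Polynomial.C g + Polynomial.C c * Polynomial.X)
    (Polynomial.C h + Polynomial.C d * Polynomial.X) (Polynomial.X ^ M)
  have h2 : ∀ (a b : K), (Polynomial.C a + Polynomial.C b * Polynomial.X).natDegree ≤ 1 := by
    intro a b
    rw [add_comm]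
    exact Polynomial.natDegree_linear_le
  have h3 := natDegree_gam (p := p) _ _ (h2 a a1) (h2 b b1)
  rw [hR, Polynomial.coeff_add, Polynomial.coeff_add,
    Polynomial.coeff_eq_zero_of_natDegree_lt (h3.trans_lt hM), zero_add,
    Polynomial.coeff_X_pow_mul', if_pos le_rfl, Nat.sub_self, ← pow_mul,
    Polynomial.coeff_X_pow_mul', if_neg (by omega), add_zero, Polynomial.coeff_zero_eq_eval_zero]
  simp

theorem coeff_gam_lt {p : ℕ} (hp : p.Prime) {M r : ℕ} (hr : p < r) (hM : r < M)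
    (a a1 g c b b1 h d : K) : (gam p
      (Polynomial.C a + Polynomial.C a1 * Polynomial.X +
        Polynomial.X ^ M * (Polynomial.C g + Polynomial.C c * Polynomial.X))
      (Polynomial.C b + Polynomial.C b1 * Polynomial.X +
        Polynomial.X ^ M * (Polynomial.C h + Polynomial.C d * Polynomial.X))).coeff r = 0 := by
  obtain ⟨R, hR⟩ := gam_expand hp (Polynomial.C a + Polynomial.C a1 * Polynomial.X)
    (Polynomial.C b + Polynomial.C b1 * Polynomial.X)
    (Polynomial.C g + Polynomial.C c * Polynomial.X)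
    (Polynomial.C h + Polynomial.C d * Polynomial.X) (Polynomial.X ^ M)
  have h2 : ∀ (a b : K), (Polynomial.C a + Polynomial.C b * Polynomial.X).natDegree ≤ 1 := by
    intro a b
    rw [add_comm]
    exact Polynomial.natDegree_linear_le
  have h3 := natDegree_gam (p := p) _ _ (h2 a a1) (h2 b b1)
  rw [hR, Polynomial.coeff_add, Polynomial.coeff_add,
    Polynomial.coeff_eq_zero_of_natDegree_lt (h3.trans_lt hr), zero_add,
    Polynomial.coeff_X_pow_mul', if_neg (by omega), ← pow_mul,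
    Polynomial.coeff_X_pow_mul', if_neg (by omega), add_zero]

end Gam

variable {p : ℕ}

theorem TT_X (x : ℕ × ℕ) (n : ℕ) : TT p n (X x) =
    if x = (0, n) then Polynomial.C (X x) + Polynomial.X else Polynomial.C (X x) := by
  rw [TT, aeval_X]

theorem TT_00 : TT p 0 (X (0, 0)) = Polynomial.C (X (0, 0)) + Polynomial.X := by
  rw [TT_X, if_pos rfl]

theorem TT_ne (j n : ℕ) : TT p 0 (X (j + 1, n)) = Polynomial.C (X (j + 1, n)) := by
  rw [TT_X, if_neg (by simp)]

/-- The linear coefficient of the translation of `al`. -/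
noncomputable def al1 (p j : ℕ) (x : KP p) : KP p := - (x ^ p ^ 2 * X (j, 0) ^ p + X (j, 1) ^ p)

theorem TT_al [Fact p.Prime] : TT p 0 (al p) =
    Polynomial.C (al p) + Polynomial.C (al1 p 1 (X (0, 0))) * Polynomial.X +
      Polynomial.X ^ p ^ 2 * (Polynomial.C (gG p) +
        Polynomial.C (- X (1, 0) ^ p) * Polynomial.X) := by
  unfold al gG al1
  simp only [map_sub, map_add, map_mul, map_pow, map_neg, TT_00, TT_ne, add_pow_char_pow]
  ring

theorem ph0_al [Fact p.Prime] {I : ℕ → ℕ} (h1 : I 1 = 0) : ph p I 0 (al p) =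
    X (2, 2) + X (2, 1) * (X (0, 0) + X (1, 0)) ^ p ^ 2 -
    (X (0, 0) + X (1, 0) + X (2, 0)) * (X (2, 0) ^ p * (X (0, 0) + X (1, 0)) ^ p ^ 2 +
      X (2, 1) ^ p) := by
  unfold al
  simp only [map_sub, map_add, map_mul, map_pow, ph0_00 h1, ph0_blk]

theorem ph0_gG [Fact p.Prime] {I : ℕ → ℕ} (h1 : I 1 = 0) : ph p I 0 (gG p) =
    X (2, 1) - X (2, 0) ^ (1 + p) - (X (0, 0) + X (1, 0)) * X (2, 0) ^ p := by
  unfold gG
  simp only [map_sub, map_mul, map_pow, ph0_00 h1, ph0_blk]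

theorem TT_ph0_al [Fact p.Prime] {I : ℕ → ℕ} (h1 : I 1 = 0) : TT p 0 (ph p I 0 (al p)) =
    Polynomial.C (ph p I 0 (al p)) + Polynomial.C (al1 p 2 (X (0, 0) + X (1, 0))) * Polynomial.X +
      Polynomial.X ^ p ^ 2 * (Polynomial.C (ph p I 0 (gG p)) +
        Polynomial.C (- X (2, 0) ^ p) * Polynomial.X) := by
  rw [ph0_al h1, ph0_gG h1]
  unfold al1
  simp only [map_sub, map_add, map_mul, map_pow, map_neg, TT_00, TT_ne, add_pow_char_pow]
  ring

theorem pz2_gG [Fact p.Prime] {I : ℕ → ℕ} (h1 : I 1 = 0) : pz p I 2 (gG p) =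
    X (3, 1) - X (3, 0) ^ (1 + p) - (X (0, 0) + X (1, 0) + X (2, 0)) * X (3, 0) ^ p := by
  rw [pz_succ, pz_succ, pz_zero, ph0_gG h1]
  simp only [map_sub, map_add, map_mul, map_pow, ph0_00 h1, ph0_blk]

theorem TT_pz2_gG [Fact p.Prime] {I : ℕ → ℕ} (h1 : I 1 = 0) : TT p 0 (pz p I 2 (gG p)) =
    Polynomial.C (pz p I 2 (gG p)) - Polynomial.C (X (3, 0) ^ p) * Polynomial.X := by
  rw [pz2_gG h1]
  simp only [map_sub, map_add, map_mul, map_pow, TT_00, TT_ne]
  ring

/-- The operator of order `p ^ 2` on the product. -/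
theorem HD_prod [Fact p.Prime] {I : ℕ → ℕ} (h1 : I 1 = 0) :
    HD p 0 2 (pz p I 2 (gG p) * tr p I (al p)) =
      - (pz p I 2 (gG p) * dd p I 1 (gG p * al p ^ (p - 1))) := by
  have hp := Fact.out (p := p.Prime)
  have hp2 : p < p ^ 2 - 1 := by
    have := hp.two_le
    obtain ⟨q, rfl⟩ : ∃ q, p = q + 2 := ⟨p - 2, by omega⟩
    have : (q + 2) ^ 2 = (q + 3) * (q + 1) + 1 := by ring
    rw [this, Nat.add_sub_cancel]
    nlinarith
  have hT : TT p 0 (tr p I (al p)) = gam p (TT p 0 (al p)) (TT p 0 (ph p I 0 (al p))) :=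
    map_gam (TT p 0).toRingHom _ _
  rw [HD_apply, map_mul, hT, TT_al, TT_ph0_al h1, TT_pz2_gG h1, sub_mul, Polynomial.coeff_sub,
    Polynomial.coeff_C_mul, coeff_gam hp (by omega), mul_assoc (Polynomial.C (X (3, 0) ^ p)),
    Polynomial.coeff_C_mul, mul_comm Polynomial.X]
  have h3 : p ^ 2 = p ^ 2 - 1 + 1 := by omega
  conv_lhs => enter [2, 2, 2]; rw [h3]
  rw [Polynomial.coeff_mul_X, coeff_gam_lt hp hp2 (by omega), mul_zero, sub_zero, dd_one,
    map_mul, map_mul, map_mul, map_pow, map_pow, map_pow, (cyc_gG_of h1).one, (cyc_gG_of h1).two,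
    (cyc_al_of h1).one, (cyc_al_of h1).two]
  rw [add_comm (ph p I 0 (al p)) (al p)]
  ring


section Kill

open Classical in
/-- Keep the variables in `S`. -/
noncomputable def kill (p : ℕ) (S : Set (ℕ × ℕ)) : KP p →ₐ[ZMod p] KP p :=
  aeval fun x => if x ∈ S then X x else 0

theorem kill_mem {S : Set (ℕ × ℕ)} {x : ℕ × ℕ} (h : x ∈ S) : kill p S (X x) = X x := by
  rw [kill, aeval_X, if_pos h]

theorem kill_not {S : Set (ℕ × ℕ)} {x : ℕ × ℕ} (h : x ∉ S) : kill p S (X x) = 0 := by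
  rw [kill, aeval_X, if_neg h]

theorem kill_monomial (S : Set (ℕ × ℕ)) (e : ℕ × ℕ →₀ ℕ) (c : ZMod p) :
    (↑e.support ⊆ S → kill p S (monomial e c) = monomial e c) ∧
    (¬ ↑e.support ⊆ S → kill p S (monomial e c) = 0) := by
  have h0 : kill p S (monomial e c) = MvPolynomial.C c * ∏ x ∈ e.support, kill p S (X x) ^ e x := by
    rw [monomial_eq, map_mul, Finsupp.prod, map_prod, ← algebraMap_eq, AlgHom.commutes]
    congr 1
    exact prod_congr rfl fun x _ => map_pow _ _ _
  constructor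
  · intro h
    rw [h0, monomial_eq, Finsupp.prod]
    congr 1
    exact prod_congr rfl fun x hx => by rw [kill_mem (h (mem_coe.2 hx))]
  · intro h
    rw [Set.not_subset] at h
    obtain ⟨x, hx, hx'⟩ := h
    rw [mem_coe] at hx
    rw [h0, prod_eq_zero hx, mul_zero]
    rw [kill_not hx', zero_pow (Finsupp.mem_support_iff.1 hx)]

theorem coeff_kill {S : Set (ℕ × ℕ)} {e : ℕ × ℕ →₀ ℕ} (he : ↑e.support ⊆ S) (f : KP p) :
    coeff e (kill p S f) = coeff e f := by
  classical
  induction f using MvPolynomial.induction_on' with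
  | monomial e' c =>
    by_cases h : ↑e'.support ⊆ S
    · rw [(kill_monomial S e' c).1 h]
    · rw [(kill_monomial S e' c).2 h, coeff_zero, coeff_monomial, if_neg]
      rintro rfl; exact h he
  | add f g hf hg => rw [map_add, coeff_add, coeff_add, hf, hg]

theorem coeff_kill_not {S : Set (ℕ × ℕ)} {e : ℕ × ℕ →₀ ℕ} (he : ¬ ↑e.support ⊆ S) (f : KP p) :
    coeff e (kill p S f) = 0 := by
  classical
  induction f using MvPolynomial.induction_on' with
  | monomial e' c =>
    by_cases h : ↑e'.support ⊆ S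
    · rw [(kill_monomial S e' c).1 h, coeff_monomial, if_neg]
      rintro rfl; exact he h
    · rw [(kill_monomial S e' c).2 h, coeff_zero]
  | add f g hf hg => rw [map_add, coeff_add, hf, hg, add_zero]

/-- The polynomials whose monomials belong to a submonoid. -/
noncomputable def MS (p : ℕ) (P : AddSubmonoid (ℕ × ℕ →₀ ℕ)) : Subalgebra (ZMod p) (KP p) where
  carrier := {f | ∀ e ∈ f.support, e ∈ P}
  mul_mem' := by
    classical
    intro f g hf hg e he
    obtain ⟨a, ha, b, hb, rfl⟩ := mem_add.1 (support_mul _ _ he)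
    exact add_mem (hf a ha) (hg b hb)
  add_mem' := by
    classical
    intro f g hf hg e he
    rcases mem_union.1 (support_add he) with h | h
    · exact hf e h
    · exact hg e h
  algebraMap_mem' := by
    classical
    intro c e he
    rw [algebraMap_eq, mem_support_iff, coeff_C] at he
    have : 0 = e := by
      by_contra h
      simp [h] at he
    rw [← this]
    exact zero_mem _

theorem mem_MS {P : AddSubmonoid (ℕ × ℕ →₀ ℕ)} {f : KP p} :
    f ∈ MS p P ↔ ∀ e ∈ f.support, e ∈ P := Iff.rfl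

theorem MS_monomial {P : AddSubmonoid (ℕ × ℕ →₀ ℕ)} {e : ℕ × ℕ →₀ ℕ} (c : ZMod p) (h : e ∈ P) :
    monomial e c ∈ MS p P := by
  intro e' he'
  have := support_monomial_subset he'
  rw [Finset.mem_singleton] at this
  rwa [this]

theorem MS_X {P : AddSubmonoid (ℕ × ℕ →₀ ℕ)} {x : ℕ × ℕ} (h : Finsupp.single x 1 ∈ P) :
    (X x : KP p) ∈ MS p P := MS_monomial 1 h

theorem MS_X_pow {P : AddSubmonoid (ℕ × ℕ →₀ ℕ)} {x : ℕ × ℕ} {k : ℕ}
    (h : Finsupp.single x k ∈ P) : (X x : KP p) ^ k ∈ MS p P := by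
  rw [X_pow_eq_monomial]; exact MS_monomial 1 h

theorem MS_map {P : AddSubmonoid (ℕ × ℕ →₀ ℕ)} (φ : KP p →ₐ[ZMod p] KP p) {V : Set (ℕ × ℕ)}
    (h : ∀ x ∈ V, φ (X x) ∈ MS p P) {f : KP p} (hf : f ∈ supported (ZMod p) V) :
    φ f ∈ MS p P := by
  rw [supported_eq_adjoin_X] at hf
  induction hf using Algebra.adjoin_induction with
  | mem x hx => obtain ⟨y, hy, rfl⟩ := hx; exact h y hy
  | algebraMap r => rw [AlgHom.commutes]; exact Subalgebra.algebraMap_mem _ _
  | add x y _ _ hx hy => rw [map_add]; exact add_mem hx hy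
  | mul x y _ _ hx hy => rw [map_mul]; exact mul_mem hx hy

end Kill

/-- The exponents of the first faces. -/
def P0 (p : ℕ) : AddSubmonoid (ℕ × ℕ →₀ ℕ) where
  carrier := {e | e (1, 0) = 0 → e (0, 0) < p ^ 3 → e (1, 1) < p ^ 2 → e (1, 1) = 0}
  zero_mem' := by intro _ _ _; rfl
  add_mem' := by
    intro a b ha hb h1 h2 h3
    rw [Finsupp.add_apply] at h1 h2 h3 ⊢
    rw [ha (by omega) (by omega) (by omega), hb (by omega) (by omega) (by omega)]

theorem mem_P0 {e : ℕ × ℕ →₀ ℕ} : e ∈ P0 p ↔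
    (e (1, 0) = 0 → e (0, 0) < p ^ 3 → e (1, 1) < p ^ 2 → e (1, 1) = 0) := Iff.rfl

theorem ph0_01 : ph p (pf 0 2 1) 0 (X (0, 1)) =
    X (0, 1) + X (1, 0) ^ p ^ 2 * X (0, 0) ^ p ^ 3 + X (1, 1) ^ p ^ 2 := by
  rw [← tt_succ, ph_tt_eq, cop]
  simp [sum_range_succ, J, pf]

theorem ph0_02 : ph p (pf 0 2 1) 0 (X (0, 2)) =
    X (0, 2) + X (1, 0) ^ p * X (0, 1) + X (1, 1) ^ p * X (0, 0) ^ p ^ 3 + X (1, 2) ^ p := by
  rw [← tt_succ, ph_tt_eq, cop]
  simp [sum_range_succ, J, pf]

/-- The monomials of a first face. -/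
theorem ph0_MS {f : KP p} {N : ℤ} (hf : f ∈ KK p 3 (pf 0 2 1) 1 N) :
    ph p (pf 0 2 1) 0 f ∈ MS p (P0 p) := by
  have h1 : f ∈ supported (ZMod p) {x : ℕ × ℕ | x.1 ≤ 1 ∧ x.2 < 3} :=
    mem_supported_iff.2 fun u hu x hx => ((hf u hu).1 x hx)
  refine MS_map _ ?_ h1
  have e0 : ∀ (x : ℕ × ℕ) (k : ℕ), x ≠ (1, 1) → (X x : KP p) ^ k ∈ MS p (P0 p) := by
    intro x k hx
    refine MS_X_pow ?_
    rw [mem_P0]
    intro _ _ _
    exact Finsupp.single_eq_of_ne hx.symm
  have e1 : ∀ (x : ℕ × ℕ), x ≠ (1, 1) → (X x : KP p) ∈ MS p (P0 p) := by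
    intro x hx
    simpa using e0 x 1 hx
  rintro ⟨i, n⟩ ⟨hi, hn⟩
  simp only at hi hn
  rcases i with _ | i
  · rcases n with _ | _ | _ | n
    · rw [ph0_00 rfl]
      exact add_mem (e1 _ (by simp)) (e1 _ (by simp))
    · rw [ph0_01]
      refine add_mem (add_mem (e1 _ (by simp)) (mul_mem (e0 _ _ (by simp)) (e0 _ _ (by simp)))) ?_
      refine MS_X_pow ?_
      rw [mem_P0, Finsupp.single_eq_same]
      intro _ _ h
      omega
    · rw [ph0_02]
      refine add_mem (add_mem (add_mem (e1 _ (by simp))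
        (mul_mem (e0 _ _ (by simp)) (e1 _ (by simp)))) ?_) (e0 _ _ (by simp))
      rw [X_pow_eq_monomial, X_pow_eq_monomial, monomial_mul]
      refine MS_monomial _ ?_
      rw [mem_P0]
      intro _ h _
      simp at h
    · omega
  · rw [ph0_blk]
    exact e1 _ (by simp)

/-- The two exponents. -/
noncomputable def e1 (p : ℕ) : ℕ × ℕ →₀ ℕ := Finsupp.single (0, 0) (p ^ 3 - p ^ 2) +
  Finsupp.single (2, 1) 1 + Finsupp.single (1, 1) p

noncomputable def e2 (p : ℕ) : ℕ × ℕ →₀ ℕ := Finsupp.single (0, 0) (p ^ 3 - p ^ 2) +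
  Finsupp.single (2, 1) p + Finsupp.single (1, 1) 1

/-- The functional. -/
noncomputable def Phi (p : ℕ) : KP p →ₗ[ZMod p] ZMod p := lcoeff (ZMod p) (e1 p) - lcoeff (ZMod p) (e2 p)

theorem Phi_apply (f : KP p) : Phi p f = coeff (e1 p) f - coeff (e2 p) f := rfl


theorem cube_sub [Fact p.Prime] : (p ^ 3 - p ^ 2) / p ^ 2 + 1 = p ∧ p ^ 3 - p ^ 2 < p ^ 3 := by
  have hp := (Fact.out (p := p.Prime)).pos
  have h0 : 0 < p ^ 2 := pow_pos hp 2
  have h1 : p ^ 3 - p ^ 2 = (p - 1) * p ^ 2 := by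
    rw [Nat.sub_mul, one_mul, ← pow_succ']
  have h2 : 0 < p ^ 3 := pow_pos hp 3
  refine ⟨?_, by omega⟩
  rw [h1, Nat.mul_div_cancel _ h0]
  omega

theorem e1_00 : e1 p (0, 0) = p ^ 3 - p ^ 2 := by simp [e1]
theorem e2_00 : e2 p (0, 0) = p ^ 3 - p ^ 2 := by simp [e2]
theorem e1_10 : e1 p (1, 0) = 0 := by simp [e1]
theorem e2_10 : e2 p (1, 0) = 0 := by simp [e2]
theorem e1_11 : e1 p (1, 1) = p := by simp [e1]
theorem e2_11 : e2 p (1, 1) = 1 := by simp [e2]
theorem e1_21 : e1 p (2, 1) = 1 := by simp [e1]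
theorem e2_21 : e2 p (2, 1) = p := by simp [e2]

theorem Phi_HD [Fact p.Prime] (f : KP p) : Phi p (HD p 0 2 f) = 0 := by
  rw [Phi_apply, coeff_HD, coeff_HD, e1_00, e2_00, cube_sub.1, CharP.cast_eq_zero, mul_zero,
    mul_zero, sub_zero]

theorem coeff_block {f : KP p} {m : ℕ} {I : ℕ → ℕ} {s : ℕ} {N : ℤ} (hf : f ∈ KK p m I s N)
    {e : ℕ × ℕ →₀ ℕ} {x : ℕ × ℕ} (hx : s < x.1) (he : e x ≠ 0) : coeff e f = 0 := by
  by_contra h
  have := ((hf e (mem_support_iff.2 h)).1 x (Finsupp.mem_support_iff.2 he)).1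
  omega

/-- The variables of the functional. -/
def S3v : Set (ℕ × ℕ) := {(0, 0), (1, 1), (2, 1)}

theorem e1_supp : ↑(e1 p).support ⊆ S3v := by
  intro x hx
  by_contra h
  simp only [S3v, Set.mem_insert_iff, Set.mem_singleton_iff, not_or] at h
  rw [mem_coe, Finsupp.mem_support_iff] at hx
  apply hx
  rw [e1, Finsupp.add_apply, Finsupp.add_apply, Finsupp.single_eq_of_ne h.1,
    Finsupp.single_eq_of_ne h.2.2, Finsupp.single_eq_of_ne h.2.1, add_zero, add_zero]

theorem e2_supp : ↑(e2 p).support ⊆ S3v := by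
  intro x hx
  by_contra h
  simp only [S3v, Set.mem_insert_iff, Set.mem_singleton_iff, not_or] at h
  rw [mem_coe, Finsupp.mem_support_iff] at hx
  apply hx
  rw [e2, Finsupp.add_apply, Finsupp.add_apply, Finsupp.single_eq_of_ne h.1,
    Finsupp.single_eq_of_ne h.2.2, Finsupp.single_eq_of_ne h.2.1, add_zero, add_zero]

/-- The exchange of the two `t_2`. -/
def sw : ℕ × ℕ → ℕ × ℕ := Equiv.swap (1, 1) (2, 1)

theorem e1_sw : (e1 p).mapDomain sw = e2 p := by
  have a1 : sw (0, 0) = (0, 0) := Equiv.swap_apply_of_ne_of_ne (by simp) (by simp)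
  have a2 : sw (1, 1) = (2, 1) := Equiv.swap_apply_left _ _
  have a3 : sw (2, 1) = (1, 1) := Equiv.swap_apply_right _ _
  rw [e1, e2, Finsupp.mapDomain_add, Finsupp.mapDomain_add, Finsupp.mapDomain_single,
    Finsupp.mapDomain_single, Finsupp.mapDomain_single, a1, a2, a3]
  abel

theorem Phi_ph1 [Fact p.Prime] {f : KP p} {N : ℤ} (hf : f ∈ KK p 3 (pf 0 2 1) 1 N) :
    coeff (e1 p) (ph p (pf 0 2 1) 1 f) = coeff (e2 p) (ph p (pf 0 2 1) 1 f) := by
  have hp := (Fact.out (p := p.Prime))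
  have h1 : f ∈ supported (ZMod p) {x : ℕ × ℕ | x.1 ≤ 1 ∧ x.2 < 3} :=
    mem_supported_iff.2 fun u hu x hx => ((hf u hu).1 x hx)
  have h2 := eqOn_supported ((rename sw).comp ((kill p S3v).comp (ph p (pf 0 2 1) 1)))
    ((kill p S3v).comp (ph p (pf 0 2 1) 1)) (V := {x : ℕ × ℕ | x.1 ≤ 1 ∧ x.2 < 3}) (by
      have a1 : sw (0, 0) = (0, 0) := Equiv.swap_apply_of_ne_of_ne (by simp) (by simp)
      have a2 : sw (1, 1) = (2, 1) := Equiv.swap_apply_left _ _
      have a3 : sw (2, 1) = (1, 1) := Equiv.swap_apply_right _ _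
      rintro ⟨i, n⟩ ⟨hi, hn⟩
      simp only at hi hn
      rw [AlgHom.comp_apply, AlgHom.comp_apply]
      rcases i with _ | i
      · rw [ph1_0]
        rcases n with _ | n
        · rw [kill_mem (by simp [S3v]), rename_X, a1]
        · rw [kill_not (by simp [S3v]), map_zero]
      · obtain rfl : i = 0 := by omega
        rcases n with _ | _ | _ | n
        · rw [ph1_10, map_add, kill_not (by simp [S3v]), kill_not (by simp [S3v]), add_zero,
            map_zero]
        · have : kill p S3v (ph p (pf 0 2 1) 1 (X (0 + 1, 0 + 1))) = X (1, 1) + X (2, 1) := by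
            rw [ph1_11]
            simp only [map_add, map_mul]
            rw [kill_not (x := (2, 0)) (by simp [S3v]), zero_mul,
              kill_mem (x := (1, 1)) (by simp [S3v]), kill_mem (x := (2, 1)) (by simp [S3v]),
              add_zero]
          rw [this, map_add, rename_X, rename_X, a2, a3, add_comm]
        · have : kill p S3v (ph p (pf 0 2 1) 1 (X (0 + 1, 0 + 1 + 1))) = 0 := by
            rw [ph1_12]
            simp only [map_add, map_mul, map_pow]
            rw [kill_not (x := (2, 0)) (by simp [S3v]), kill_not (x := (1, 2)) (by simp [S3v]),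
              kill_not (x := (1, 0)) (by simp [S3v]), kill_not (x := (2, 2)) (by simp [S3v]),
              zero_mul, zero_pow (pow_ne_zero _ hp.ne_zero), mul_zero, add_zero, add_zero,
              add_zero]
          rw [this, map_zero]
        · omega) h1
  rw [AlgHom.comp_apply, AlgHom.comp_apply] at h2
  rw [← coeff_kill e1_supp, ← coeff_kill e2_supp, ← e1_sw]
  conv_rhs => rw [← h2]
  rw [coeff_rename_mapDomain sw (Equiv.injective (Equiv.swap (1, 1) (2, 1)))]

theorem Phi_dd [Fact p.Prime] {f : KP p} {N : ℤ} (hf : f ∈ KK p 3 (pf 0 2 1) 1 N) :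
    Phi p (dd p (pf 0 2 1) 1 f) = 0 := by
  have hp := (Fact.out (p := p.Prime))
  have hlt : p < p ^ 2 := by
    have := Nat.pow_lt_pow_right hp.one_lt (show 1 < 2 by norm_num)
    rwa [pow_one] at this
  have h1 : coeff (e1 p) (ph p (pf 0 2 1) 0 f) = 0 := by
    by_contra h
    have := mem_P0.1 (ph0_MS hf (e1 p) (mem_support_iff.2 h)) e1_10 (by rw [e1_00]; exact cube_sub.2)
      (by rw [e1_11]; exact hlt)
    rw [e1_11] at this
    exact hp.ne_zero this
  have h2 : coeff (e2 p) (ph p (pf 0 2 1) 0 f) = 0 := by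
    by_contra h
    have := mem_P0.1 (ph0_MS hf (e2 p) (mem_support_iff.2 h)) e2_10 (by rw [e2_00]; exact cube_sub.2)
      (by rw [e2_11]; exact hp.one_lt.trans hlt)
    rw [e2_11] at this
    exact one_ne_zero this
  have h3 : coeff (e1 p) f = 0 := coeff_block hf (x := (2, 1)) (by norm_num) (by
    rw [e1_21]; exact one_ne_zero)
  have h4 : coeff (e2 p) f = 0 := coeff_block hf (x := (2, 1)) (by norm_num) (by
    rw [e2_21]; exact hp.ne_zero)
  rw [dd_one, ph_of_lt hf (show 1 < 2 by norm_num), Phi_apply]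
  simp only [coeff_add, coeff_sub, h1, h2, h3, h4, Phi_ph1 hf]
  ring

/-- The value on the product. -/
theorem Phi_prod [Fact p.Prime] (hp3 : 3 ≤ p) :
    Phi p (ph p (pf 0 2 1) 0 (gG p) * (gG p * al p ^ (p - 1))) = 1 := by
  have hp := (Fact.out (p := p.Prime))
  set F : KP p := ph p (pf 0 2 1) 0 (gG p) * (gG p * al p ^ (p - 1)) with hF
  set G : KP p := (X (0, 0) ^ (p ^ 2 - 1) - X (1, 1) ^ (p - 1)) ^ (p - 1) with hG
  have hk : kill p S3v F = X (2, 1) * (monomial (Finsupp.single (1, 1) p +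
      Finsupp.single (0, 0) (p - 1)) 1 * G) := by
    have a1 : kill p S3v (ph p (pf 0 2 1) 0 (gG p)) = X (2, 1) := by
      rw [ph0_gG rfl]
      simp only [map_sub, map_mul, map_pow, map_add]
      rw [kill_mem (x := (2, 1)) (by simp [S3v]), kill_not (x := (2, 0)) (by simp [S3v]),
        zero_pow (by omega), zero_pow hp.ne_zero]
      ring
    have a2 : kill p S3v (gG p) = X (1, 1) := by
      unfold gG
      simp only [map_sub, map_mul, map_pow]
      rw [kill_mem (x := (1, 1)) (by simp [S3v]), kill_not (x := (1, 0)) (by simp [S3v]),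
        zero_pow (by omega), zero_pow hp.ne_zero]
      ring
    have a3 : kill p S3v (al p) = X (1, 1) * X (0, 0) ^ p ^ 2 - X (0, 0) * X (1, 1) ^ p := by
      unfold al
      simp only [map_sub, map_mul, map_pow, map_add]
      rw [kill_mem (x := (1, 1)) (by simp [S3v]), kill_not (x := (1, 0)) (by simp [S3v]),
        kill_not (x := (1, 2)) (by simp [S3v]), kill_mem (x := (0, 0)) (by simp [S3v]),
        zero_pow hp.ne_zero]
      ring
    have a4 : (X (1, 1) * X (0, 0) ^ p ^ 2 - X (0, 0) * X (1, 1) ^ p : KP p) =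
        X (1, 1) * X (0, 0) * (X (0, 0) ^ (p ^ 2 - 1) - X (1, 1) ^ (p - 1)) := by
      have b1 : (X (0, 0) ^ p ^ 2 : KP p) = X (0, 0) ^ (p ^ 2 - 1) * X (0, 0) := by
        rw [← pow_succ]
        congr 1
        have := pow_pos hp.pos 2
        omega
      have b2 : (X (1, 1) ^ p : KP p) = X (1, 1) ^ (p - 1) * X (1, 1) := by
        rw [← pow_succ]
        congr 1
        omega
      rw [b1, b2]
      ring
    have b2 : (X (1, 1) ^ p : KP p) = X (1, 1) ^ (p - 1) * X (1, 1) := by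
      rw [← pow_succ]
      congr 1
      omega
    have b3 : (monomial (Finsupp.single (1, 1) p + Finsupp.single (0, 0) (p - 1)) 1 : KP p) =
        X (1, 1) ^ p * X (0, 0) ^ (p - 1) := by
      rw [X_pow_eq_monomial, X_pow_eq_monomial, monomial_mul, one_mul]
    rw [hF, map_mul, map_mul, map_pow, a1, a2, a3, a4, mul_pow, mul_pow, ← hG, b3, b2]
    ring
  have c1 : coeff (e1 p) F = 1 := by
    rw [← coeff_kill e1_supp, hk]
    have h1 : e1 p = Finsupp.single (2, 1) 1 + ((Finsupp.single (1, 1) p +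
      Finsupp.single (0, 0) (p - 1)) + Finsupp.single (0, 0) ((p ^ 2 - 1) * (p - 1))) := by
      have : p ^ 3 - p ^ 2 = (p - 1) + (p ^ 2 - 1) * (p - 1) := by
        obtain ⟨q, rfl⟩ : ∃ q, p = q + 1 := ⟨p - 1, by omega⟩
        have h2 : (q + 1) ^ 3 = (q + 1) ^ 2 * q + (q + 1) ^ 2 := by ring
        have h3 : (q + 1) ^ 2 = (q ^ 2 + 2 * q) + 1 := by ring
        rw [h2, Nat.add_sub_cancel, Nat.add_sub_cancel, h3, Nat.add_sub_cancel]
        ring
      rw [e1, this, Finsupp.single_add]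
      abel
    rw [h1, coeff_X_mul, coeff_monomial_mul, one_mul]
    have h2 : ↑(Finsupp.single ((0, 0) : ℕ × ℕ) ((p ^ 2 - 1) * (p - 1))).support ⊆
        ({(0, 0)} : Set (ℕ × ℕ)) := by
      intro x hx
      have := Finsupp.support_single_subset hx
      rwa [Finset.mem_singleton] at this
    rw [← coeff_kill h2, hG, map_pow, map_sub, map_pow, map_pow, kill_mem (Set.mem_singleton _),
      kill_not (by simp), zero_pow (by omega), sub_zero, ← pow_mul, X_pow_eq_monomial,
      coeff_monomial, if_pos rfl]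
  have c2 : coeff (e2 p) F = 0 := by
    rw [← coeff_kill e2_supp, hk]
    have h1 : e2 p = Finsupp.single (2, 1) 1 + (Finsupp.single (0, 0) (p ^ 3 - p ^ 2) +
      Finsupp.single (2, 1) (p - 1) + Finsupp.single (1, 1) 1) := by
      have : p = 1 + (p - 1) := by omega
      rw [e2]
      conv_lhs => enter [1, 2]; rw [this, Finsupp.single_add]
      abel
    rw [h1, coeff_X_mul]
    have h3 : kill p {(0, 0), (1, 1)} (monomial (Finsupp.single (1, 1) p +
      Finsupp.single (0, 0) (p - 1)) 1 * G) = monomial (Finsupp.single (1, 1) p +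
      Finsupp.single (0, 0) (p - 1)) 1 * G := by
      have b3 : (monomial (Finsupp.single (1, 1) p + Finsupp.single (0, 0) (p - 1)) 1 : KP p) =
          X (1, 1) ^ p * X (0, 0) ^ (p - 1) := by
        rw [X_pow_eq_monomial, X_pow_eq_monomial, monomial_mul, one_mul]
      rw [b3, hG]
      simp only [map_mul, map_pow, map_sub]
      rw [kill_mem (x := (0, 0)) (by simp), kill_mem (x := (1, 1)) (by simp)]
    rw [← h3]
    refine coeff_kill_not ?_ _
    intro h4
    have h5 : ((2, 1) : ℕ × ℕ) ∈ ({(0, 0), (1, 1)} : Set (ℕ × ℕ)) := h4 (by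
      rw [mem_coe, Finsupp.mem_support_iff]
      simp only [Finsupp.add_apply, Finsupp.single_eq_same]
      omega)
    simp at h5
  rw [Phi_apply, c1, c2, sub_zero]

theorem prk021 : Prk (pf 0 2 1) 0 3 := by
  intro n' hn'
  have : n' = 1 ∨ n' = 2 ∨ 3 ≤ n' := by omega
  rcases this with rfl | rfl | h
  · simp [pf]
  · simp [pf]
  · simp only [pf]
    split_ifs <;> omega

/-- The class is not a boundary modulo the kernel of the operator. -/
theorem lemmaA0 [Fact p.Prime] (hp : 3 ≤ p) (hO : Ok (pf 0 2 1))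
    (hEx : (KI p 3 (pf 0 2 1) hO).Ex 2 (1 + 2 * p + p ^ 3)) {z X' : KP p} {c : ZMod p}
    (hz : HD p 0 2 z = 0)
    (hX' : X' ∈ KK p 3 (pf 0 2 1) 2 (1 + p + p * (1 + p + p ^ 2)))
    (h : z = c • (pz p (pf 0 2 1) 2 (gG p) * tr p (pf 0 2 1) (al p)) +
      dd p (pf 0 2 1) 2 X') : c = 0 := by
  have hpp := (Fact.out (p := p.Prime))
  set I := pf 0 2 1 with hI
  set b : KP p := gG p * al p ^ (p - 1) with hb
  -- the product of cochains
  have hb' : ∀ i, 1 < i → ph p I i b = b := by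
    intro i hi
    have e0 : ∀ x : ℕ × ℕ, x.1 ≤ 1 → ph p I i (X x) = (X x : KP p) := by
      rintro ⟨j, n⟩ hj
      rw [← tt_succ, ph_tt_lt (lt_of_le_of_lt hj hi)]
    rw [hb]
    unfold gG al
    simp only [map_mul, map_sub, map_pow, map_add]
    rw [e0 (1, 1) (by norm_num), e0 (1, 0) (by norm_num), e0 (0, 0) (by norm_num),
      e0 (1, 2) (by norm_num)]
  have h1 : dd p I 2 (pz p I 1 (gG p) * b) = pz p I 2 (gG p) * dd p I 1 b := by
    have := dd_star hO 1 1 (gG p) b hb'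
    rw [show (1 : ℕ) + 1 = 2 from rfl] at this
    rw [this, (cyc_gG_of (I := I) rfl).dd, map_zero, zero_mul, smul_zero, add_zero]
  have h2 : HD p 0 2 (c • (pz p I 2 (gG p) * tr p I (al p))) =
      - (c • dd p I 2 (pz p I 1 (gG p) * b)) := by
    have h3 : HD p 0 2 (c • (pz p I 2 (gG p) * tr p I (al p))) =
        c • HD p 0 2 (pz p I 2 (gG p) * tr p I (al p)) := by
      rw [HD_apply, HD_apply, map_smul, Polynomial.coeff_smul]
    rw [h3, HD_prod rfl, h1, smul_neg]
  have h3 : dd p I 2 (HD p 0 2 X' - c • (pz p I 1 (gG p) * b)) = 0 := by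
    have h4 := hz
    rw [h, map_add, h2, HD_dd prk021 (by norm_num)] at h4
    rw [map_sub]
    have h5 : dd p I 2 (c • (pz p I 1 (gG p) * b)) = c • dd p I 2 (pz p I 1 (gG p) * b) := by
      simp only [dd_apply, smul_sum, map_smul]
      refine sum_congr rfl fun i _ => ?_
      rw [smul_comm]
    rw [h5]
    linear_combination h4
  -- degrees
  have hwt : ∀ j k, wI p I (j + 1, k) = wt p k := by
    intro j k; simp [wI, J]
  have w00 : (wI p I (0, 0) : ℤ) = 1 := by
    simp [wI, J, hI, pf, wt]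
  have w10 : ∀ j, (wI p I (j + 1, 0) : ℤ) = 1 := by
    intro j; rw [hwt]; simp [wt]
  have w11 : ∀ j, (wI p I (j + 1, 1) : ℤ) = 1 + p := by
    intro j; rw [hwt]; simp [wt, sum_range_succ]
  have w12 : ∀ j, (wI p I (j + 1, 2) : ℤ) = 1 + p + p ^ 2 := by
    intro j; rw [hwt]; simp [wt, sum_range_succ]
  have kX : ∀ x : ℕ × ℕ, x.1 ≤ 2 → x.2 < 3 → ∀ w : ℤ, (wI p I x : ℤ) = w →
      (X x : KP p) ∈ KK p 3 I 2 w := by
    intro x hx1 hx2 w hw
    have := KK.X (p := p) (I := I) (s := 2) (m := 3) (x := x) hx1 hx2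
    rwa [hw] at this
  have kg : gG p ∈ KK p 3 I 1 (1 + p) := by
    have kX : ∀ x : ℕ × ℕ, x.1 ≤ 1 → x.2 < 3 → ∀ w : ℤ, (wI p I x : ℤ) = w →
      (X x : KP p) ∈ KK p 3 I 1 w := by
      intro x hx1 hx2 w hw
      have := KK.X (p := p) (I := I) (s := 1) (m := 3) (x := x) hx1 hx2
      rwa [hw] at this
    unfold gG
    refine sub_mem (sub_mem (kX _ (by norm_num) (by norm_num) _ (w11 0)) ?_) ?_
    · have := KK.pow (kX (1, 0) (by norm_num) (by norm_num) _ (w10 0)) (1 + p)
      rwa [show (((1 + p : ℕ) : ℤ) * 1) = 1 + p by push_cast; ring] at this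
    · have := KK.mul (kX (0, 0) (by norm_num) (by norm_num) _ w00)
        (KK.pow (kX (1, 0) (by norm_num) (by norm_num) _ (w10 0)) p)
      rwa [show (1 + (p : ℤ) * 1) = 1 + p by ring] at this
  have ka : al p ∈ KK p 3 I 2 (1 + p + p ^ 2) := by
    unfold al
    have k1 := kX (1, 2) (by norm_num) (by norm_num) _ (w12 0)
    have k2 := KK.mul (kX (1, 1) (by norm_num) (by norm_num) _ (w11 0))
      (KK.pow (kX (0, 0) (by norm_num) (by norm_num) _ w00) (p ^ 2))
    have k3 := add_mem (kX (0, 0) (by norm_num) (by norm_num) _ w00)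
      (kX (1, 0) (by norm_num) (by norm_num) _ (w10 0))
    have k4 := KK.mul (KK.pow (kX (1, 0) (by norm_num) (by norm_num) _ (w10 0)) p)
      (KK.pow (kX (0, 0) (by norm_num) (by norm_num) _ w00) (p ^ 2))
    have k5 := KK.pow (kX (1, 1) (by norm_num) (by norm_num) _ (w11 0)) p
    rw [show (1 + (p : ℤ) + ((p ^ 2 : ℕ) : ℤ) * 1) = 1 + p + p ^ 2 by push_cast; ring] at k2
    rw [show ((p : ℤ) * 1 + ((p ^ 2 : ℕ) : ℤ) * 1) = p * (1 + p) by push_cast; ring] at k4
    have k6 := KK.mul k3 (add_mem k4 k5)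
    rw [show (1 + (p : ℤ) * (1 + p)) = 1 + p + p ^ 2 by ring] at k6
    exact sub_mem (add_mem k1 k2) k6
  have hmem : HD p 0 2 X' - c • (pz p I 1 (gG p) * b) ∈ KK p 3 I 2 (1 + 2 * p + p ^ 3) := by
    refine sub_mem ?_ (KK.smul ?_ c)
    · have := HD_mem (n := 0) (j := 2) hX'
      rw [w00] at this
      rwa [show (1 + (p : ℤ) + p * (1 + p + p ^ 2) - p ^ 2 * 1) = 1 + 2 * p + p ^ 3 by ring] at this
    · have k1 : pz p I 1 (gG p) ∈ KK p 3 I 2 (1 + p) := KK.ph hO kg
      have k2 := KK.mul k1 (KK.mul (KK.mono kg le_rfl (show 1 ≤ 2 by norm_num)) (KK.pow ka (p - 1)))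
      have : ((p - 1 : ℕ) : ℤ) = p - 1 := by push_cast [Nat.cast_sub hpp.one_le]; ring
      rw [this, show (1 + (p : ℤ) + (1 + p + (p - 1) * (1 + p + p ^ 2))) = 1 + 2 * p + p ^ 3 by
        ring] at k2
      exact k2
  obtain ⟨Y, hY, hdY⟩ := hEx _ ⟨hmem, h3⟩
  have h5 : Phi p (HD p 0 2 X' - c • (pz p I 1 (gG p) * b)) = 0 := by
    rw [← hdY]
    exact Phi_dd hY
  rw [map_sub, map_smul, Phi_HD, zero_sub, neg_eq_zero] at h5
  have h6 : Phi p (pz p I 1 (gG p) * b) = 1 := Phi_prod hp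
  rw [h6, smul_eq_mul, mul_one] at h5
  exact h5

end Vale.Agent.P257.B
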