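import Mathlib
import Vale.Agent.P257.B.CntA
import Vale.Agent.P257.B.C12

/-! Glue. -/

namespace Vale.Agent.P257.B

open MvPolynomial Finset Vale.Agent.P257.Q.PC Vale.Agent.P257.X

theorem star_all {p : ℕ} [Fact p.Prime] (hp : 11 ≤ p) (hA : LemA p) :
    ∀ k, 1 ≤ k → k ≤ p - 2 → STAR p k :=
  fun k h1 h2 => star (by omega) (cntA hp) hA k h1 (by omega)

end Vale.Agent.P257.B
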