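import Mathlib
import Vale.Agent.P257.B.StarFin
import Vale.Agent.P257.B.Phi
import Vale.Agent.P257.G.G2

/-! The field `G2`. -/

namespace Vale.Agent.P257.B

open MvPolynomial Finset Vale.Agent.P257.Q.PC Vale.Agent.P257.X

theorem lemA {p : ℕ} [Fact p.Prime] (hp : 11 ≤ p) : LemA p := fun _ _ _ hz hX' h =>
  lemmaA0 (by omega) hO (exK6 hp) hz hX' h

theorem star_k {p : ℕ} [Fact p.Prime] (hp : 11 ≤ p) : ∀ k, 1 ≤ k → k ≤ p - 2 → STAR p k :=
  star_all hp (lemA hp)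

theorem G2_all {p : ℕ} [Fact p.Prime] (hp : 11 ≤ p) : X.G2 p :=
  G.G2_of_STAR hp (star_k hp)

end Vale.Agent.P257.B
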