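import Mathlib
import Vale.Agent.P257.B.Prof

/-! The injections on cohomology between the steps of the tower, obtained by counting. -/

namespace Vale.Agent.P257.X.Cpx

variable {A : Type*} [AddCommGroup A] {C : Cpx A} {p : ℕ} {e : ℤ} {D : A →+ A}

/-- A cocycle of `ker D` which bounds in `C` bounds in `ker D`. -/
theorem Der.inj (h : Der C p e D) (hp : 1 ≤ p) {s N} (h2 : C.Ex s (N - e))
    (h3 : ∀ s', s = s' + 1 → (C.Ker h).Ex s' (N - p * e)) {f : A} (hf : (C.Ker h).Z (s + 1) N f)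
    (hb : C.B (s + 1) N f) : (C.Ker h).B (s + 1) N f := by
  have hfD : D f = 0 := hf.1.2
  obtain ⟨g, hg, rfl⟩ := hb
  have hz : C.Z s (N - e) (D g) := ⟨h.mem _ _ _ hg, by rw [← h.comm _ _ _ hg, hfD]⟩
  have hw : D^[p - 1] (D g) = 0 := by
    rw [iter_pred' D hp]
    exact h.pow _ _ _ hg
  rcases h.exW hp h2 (fun s' hs' => by
      have := h3 s' hs'
      rwa [show N - e - (p - 1 : ℤ) * e = N - p * e by ring]) hz hw with
    h0 | ⟨s', hs', k, hk1, hk2, hk3⟩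
  · exact ⟨g, ⟨hg, h0⟩, rfl⟩
  · subst hs'
    obtain ⟨g', hg1, hg2⟩ := h.ex1 _ _ _ hk1 hk2
    rw [sub_add_cancel] at hg1
    refine ⟨g - C.d s' g', (mem_ker h).2 ⟨sub_mem hg (C.d_mem _ _ _ hg1), ?_⟩, ?_⟩
    · rw [map_sub, h.comm _ _ _ hg1, hg2, hk3, sub_self]
    · change C.d (s' + 1) _ = _
      rw [map_sub, C.d_d _ _ _ hg1, sub_zero]

end Vale.Agent.P257.X.Cpx

namespace Vale.Agent.P257.B

open MvPolynomial Finset Vale.Agent.P257.Q.PC Vale.Agent.P257.X Vale.Agent.P257.N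

variable {p : ℕ} [Fact p.Prime] {k : ℕ}

theorem iso_T3 : Cpx.Iso (cT p 3 le_rfl) (KI p 3 (pf 0 2 1) hO) (AddMonoidHom.id _) :=
  ⟨fun s N f hf => hf.1, fun _ _ _ _ => rfl, fun _ _ h => h,
    fun s N g hg => ⟨g, by change g ∈ KT p 3 (pf 0 2 1) 0 3 3 s N; rw [KT_top]; exact hg, rfl⟩⟩

/-- `H^(2k+1)` of the complex with coefficients `{t_1 ^ a : a < p ^ 2}` injects. -/
theorem inj_T2 (hp : 11 ≤ p) (hk : 1 ≤ k) (hk' : k ≤ p - 2) {z : KP p}
    (hz : (cT p 2 (by omega)).Z (2 * k + 1) (dK p k) z)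
    (hb : (KI p 3 (pf 0 2 1) hO).B (2 * k + 1) (dK p k) z) :
    (cT p 2 (by omega)).B (2 * k + 1) (dK p k) z := by
  have hi := iso_KTI (p := p) (m := 3) hO (by omega) hPrk (show 2 < 3 by omega)
  have h1 : (cT p 3 le_rfl).B (2 * k + 1) (dK p k) z := iso_T3.b_iff.1 hb
  have e1 : ((p : ℤ) ^ 2 * (wI p (pf 0 2 1) (0, 0) : ℕ) : ℤ) = p ^ 2 := by
    simp [wI, J, pf, wt]
  refine hi.b_iff.1 ((derH hO (by omega) hPrk (show 2 < 3 by omega)).inj
    (Fact.out (p := p.Prime)).one_le ?_ ?_ ((hi.z_iff hz.1).2 hz) h1)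
  · rw [e1]
    exact iso_T3.ex_iff.1 (exK4a hp hk hk')
  · rintro s' hs'
    obtain rfl : s' = 2 * k - 1 := by omega
    refine hi.ex_iff.2 ?_
    rw [e1, show dK p k - p * p ^ 2 = dK p k - p ^ 3 by ring]
    exact exK4b hp hk hk'

/-- `H^(2k+1)` with coefficients `F_p[t_1, t_2 ^ (p ^ 2), t_3 ^ p]` injects into the one with
coefficients `F_p[t_1, t_2 ^ p, t_3 ^ p]`. -/
theorem inj_021 (hp : 11 ≤ p) (hk : 1 ≤ k) (hk' : k ≤ p - 2) {z : KP p}
    (hz : (KI p 3 (pf 0 2 1) hO).Z (2 * k + 1) (dK p k) z)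
    (hb : (KI p 3 (pf 0 1 1) hOb).B (2 * k + 1) (dK p k) (rho p 1 z)) :
    (KI p 3 (pf 0 2 1) hO).B (2 * k + 1) (dK p k) z := by
  have e0 : up (pf 0 1 1) 1 = pf 0 2 1 := up_pf1 0 1 1
  have key : ∀ I (hI : Ok I), I = pf 0 2 1 →
      Cpx.Iso (KI p 3 I hI) ((KI p 3 (pf 0 1 1) hOb).Ker (der hOb pr011_1 (by omega)))
        (rho p 1).toRingHom.toAddMonoidHom →
      Cpx.Iso (KI p 3 (pf 0 2 1) hO) ((KI p 3 (pf 0 1 1) hOb).Ker (der hOb pr011_1 (by omega)))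
        (rho p 1).toRingHom.toAddMonoidHom := by
    rintro I hI rfl h; exact h
  have hi := key _ _ e0 (iso_up hOb pr011_1 (by omega))
  have e1 : ((wI p (pf 0 1 1) (0, 1) : ℕ) : ℤ) = p + p ^ 2 := by
    simp only [wI, J, pf, wt, sum_range_succ, sum_range_zero]
    simp
    ring
  refine hi.b_iff.1 ((der hOb pr011_1 (by omega)).inj
    (Fact.out (p := p.Prime)).one_le ?_ ?_ ((hi.z_iff hz.1).2 hz) hb)
  · rw [e1, show dK p k - (p + p ^ 2) = dK p k - p - p ^ 2 by ring]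
    exact exK4c hp
  · rintro s' hs'
    obtain rfl : s' = 2 * k - 1 := by omega
    refine hi.ex_iff.2 ?_
    rw [e1, show dK p k - p * (p + p ^ 2) = dK p k - p ^ 2 - p ^ 3 by ring]
    exact exK4d hp hk hk'

end Vale.Agent.P257.B
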