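import Vale.Agent.P257.B.CntA
import Vale.Agent.P257.B.Phi

/-! The evaluation statement `LemA`. -/

namespace Vale.Agent.P257.B

theorem lemA {p : ℕ} [Fact p.Prime] (hp : 11 ≤ p) : LemA p := by
  intro z X' c hz hX' h
  refine lemmaA0 (by omega) oko ?_ hz hX' h
  have := (cntA hp).k4a 1 le_rfl (by omega)
  rwa [show Dg p 1 - (p : ℤ) ^ 2 = 1 + 2 * p + p ^ 3 by unfold Dg; push_cast; ring] at this

end Vale.Agent.P257.B
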